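import Vale.Agent.P269.Gen.Act
import Vale.Agent.P287Q.G.Vir.Defs

/-!
# Comparison of charts: restriction to a subset of the factors and of the fields
-/

set_option linter.unusedSectionVars false

namespace Vale.Agent.P269

open P291Z Set Function Topology Filter MvPolynomial Base

variable {ι ι' J J' : Type} [Fintype ι] [Fintype ι'] [Fintype J] [Fintype J'] [DecidableEq ι]
  [DecidableEq ι']

section rx

variable {M : ι' → ℕ} {σ : ι → ι'} {a : ι' → ℕ}

/-- Restriction of vectors. -/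
noncomputable def rV (σ : ι → ι') : V M →L[ℂ] V fun i => M (σ i) := .pi fun i => .proj (σ i)

@[simp] theorem rV_apply (c : V M) (i : ι) : rV σ c i = c (σ i) := rfl

theorem rV_smul (t : ι' → ℂ) (c : V M) : rV σ (t • c) = (fun i => t (σ i)) • rV σ c := rfl

/-- `a` is supported on the range of `σ`. -/
def Sup (σ : ι → ι') (a : ι' → ℕ) : Prop := ∀ i, i ∉ range σ → a i = 0

/-- Push-forward of characters. -/
def psh (σ : ι → ι') (a : ι → ℤ) : ι' → ℤ := ∑ i, Pi.single (σ i) (a i)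

theorem psh_apply (hσ : Injective σ) (b : ι → ℤ) (i : ι) : psh σ b (σ i) = b i := by
  rw [psh, Finset.sum_apply, Finset.sum_eq_single i (fun j _ e => Pi.single_eq_of_ne' (hσ.ne e) _)
    (by simp), Pi.single_eq_same]

theorem psh_of_notMem (b : ι → ℤ) {i : ι'} (h : i ∉ range σ) : psh σ b i = 0 := by
  rw [psh, Finset.sum_apply]
  exact Finset.sum_eq_zero fun j _ => Pi.single_eq_of_ne' (fun e => h ⟨j, e⟩) _

theorem psh_eq (hσ : Injective σ) {b : ι' → ℤ} (h : ∀ i, i ∉ range σ → b i = 0) :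
    psh σ (fun i => b (σ i)) = b := funext fun i => by
  by_cases e : i ∈ range σ
  · obtain ⟨i, rfl⟩ := e
    exact psh_apply hσ _ i
  · rw [psh_of_notMem _ e, h i e]

theorem psh_add (b c : ι → ℤ) : psh σ (b + c) = psh σ b + psh σ c := by
  simp [psh, Pi.single_add, Finset.sum_add_distrib]

theorem psh_neg (b : ι → ℤ) : psh σ (-b) = -psh σ b := by simp [psh, Pi.single_neg]

theorem psh_single (i : ι) (n : ℤ) : psh σ (Pi.single i n) = Pi.single (σ i) n := by
  rw [psh, Finset.sum_eq_single i (fun j _ e => by simp [e]) (by simp), Pi.single_eq_same]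

theorem prod_psh (hσ : Injective σ) (t : ι' → ℂ) (b : ι → ℤ) :
    ∏ i, t i ^ psh σ b i = ∏ i, t (σ i) ^ b i :=
  (Fintype.prod_of_injective σ hσ _ _ (fun i h => by rw [psh_of_notMem _ h, zpow_zero])
    fun i => by rw [psh_apply hσ]).symm

theorem sum_sup (hσ : Injective σ) {β : Type} [AddCommMonoid β] {f : ι' → β}
    (h : ∀ i, i ∉ range σ → f i = 0) : ∑ i, f (σ i) = ∑ i, f i :=
  Fintype.sum_of_injective σ hσ _ _ h fun _ => rfl

theorem chr_sup (hσ : Injective σ) (ha : Sup σ a) (t : ι' → ℂ) :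
    chr (fun i => a (σ i)) (fun i => t (σ i)) = chr a t :=
  Fintype.prod_of_injective σ hσ _ _ (fun i h => by rw [ha i h, pow_zero]) fun _ => rfl

/-- The bijection of the slots. -/
noncomputable def slotE (hσ : Injective σ) (ha : Sup σ a) :
    (Σ i, Fin (a (σ i))) ≃ Σ i, Fin (a i) :=
  .ofBijective (Sigma.map σ fun _ => id) ⟨hσ.sigma_map fun _ => injective_id, fun s => by
    obtain ⟨i, s⟩ := s
    obtain ⟨i, rfl⟩ : i ∈ range σ := by_contra fun h => (ha i h ▸ s).elim0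
    exact ⟨⟨i, s⟩, rfl⟩⟩

theorem exists_dep' {α β : Type} {f : α → β} (hf : Injective f) {E : β → Type} (d : ∀ b, E b)
    (v : ∀ a, E (f a)) : ∃ w : ∀ b, E b, (∀ a, w (f a) = v a) ∧ ∀ b ∉ range f, w b = d b := by
  classical
  refine ⟨fun b => if h : ∃ a, f a = b then h.choose_spec ▸ v h.choose else d b, fun a => ?_,
    fun b h => dif_neg h⟩
  have h : ∃ a', f a' = f a := ⟨a, rfl⟩
  have e : ∀ a' (e : f a' = f a), (e ▸ v a' : E (f a)) = v a := fun a' e => by
    obtain rfl := hf e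
    rfl
  exact (dif_pos h).trans (e _ _)

theorem exists_dep {α β : Type} {f : α → β} (hf : Injective f) {E : β → Type} [∀ b, Zero (E b)]
    (v : ∀ a, E (f a)) : ∃ w : ∀ b, E b, ∀ a, w (f a) = v a :=
  (exists_dep' hf (fun _ => 0) v).imp fun _ h => h.1

/-- Forms in the variables indexed by the range of `σ`. -/
noncomputable def rx (hσ : Injective σ) (ha : Sup σ a) :
    Tens (fun i => M (σ i)) (fun i => a (σ i)) ≃L[ℂ] Tens M a :=
  let e := MultilinearMap.domDomCongrLinearEquiv' ℂ ℂ (fun s : Σ i, Fin (a i) => Fin (M s.1) → ℂ) ℂ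
    (slotE hσ ha).symm
  LinearEquiv.toContinuousLinearEquiv
    { toFun := fun μ => ⟨e.symm μ.toMultilinearMap,
        μ.cont.comp (continuous_pi fun s => continuous_apply (slotE hσ ha s))⟩
      map_add' := fun _ _ => rfl
      map_smul' := fun _ _ => rfl
      invFun := fun μ => ⟨e μ.toMultilinearMap, μ.cont.comp (Homeomorph.piCongrLeft
        (Y := fun s : Σ i, Fin (a i) => Fin (M s.1) → ℂ) (slotE hσ ha)).continuous⟩
      left_inv := fun _ => ContinuousMultilinearMap.toMultilinearMap_injective (e.apply_symm_apply _)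
      right_inv := fun _ =>
        ContinuousMultilinearMap.toMultilinearMap_injective (e.symm_apply_apply _) }

variable (hσ : Injective σ) (ha : Sup σ a)
include hσ

theorem rx_apply (μ : Tens (fun i => M (σ i)) fun i => a (σ i))
    (v : ∀ s : Σ i, Fin (a i), Fin (M s.1) → ℂ) : rx hσ ha μ v = μ fun s => v ⟨σ s.1, s.2⟩ := rfl

@[simp] theorem val_rx (μ : Tens (fun i => M (σ i)) fun i => a (σ i)) (c : V M) :
    val (rx hσ ha μ) c = val μ (rV σ c) := rfl

theorem rV_surj : Surjective (rV σ : V M → _) := fun v =>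
  (exists_dep (E := fun i => Fin (M i) → ℂ) hσ v).imp fun _ => funext

end rx

namespace Ch

/-- The factors have the dimensions of the spaces of sections. -/
def Tight (ch : Ch ι J) : Prop := ∀ i, ch.M i = (ch.m i + 1 - ch.g).toNat

theorem Tight.eq {ch : Ch ι J} (h : ch.Tight) {ν : Type} [Fintype ν] {x : ch.W ν}
    (hx : x ∈ ch.base ν) (i : ι) : (ch.M i : ℤ) = ch.m i + 1 - ch.g := by
  obtain ⟨X, _, _, _, R, N, A, π, u, p, ξ, c⟩ := Cv.exists_cr hx
  rw [h i, ← c.par.finrank_one c.cur i, Int.toNat_natCast]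

/-- The data for the restriction of a chart: the factors `σ`, the fields `φ`, the space `l₀` which
receives the new tensor `Ξ`. -/
structure Res (ch' : Ch ι' J') (ι J : Type) where
  /-- the kept factors -/
  σ : ι → ι'
  /-- the kept fields -/
  φ : J → J'
  /-- the space of sections for the new tensor -/
  l₀ : Option J'
  /-- the new distinguished factor -/
  o : ι
  /-- the new power -/
  k : ℕ
  /-- the new test degree -/
  bω : ι → ℕ
  σ_inj : Injective σ
  φ_inj : Injective φ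
  l₀_ne : ∀ j, l₀ ≠ some (φ j)
  sup₀ : Sup σ (ch'.a l₀)
  sup_a : ∀ j, Sup σ (ch'.a (some (φ j)))
  sup_b : ∀ j, Sup σ (ch'.b (φ j))

namespace Res

variable {ch' : Ch ι' J'} (D : ch'.Res ι J) {ν ν' κ : Type} [Fintype ν] [Fintype ν'] [Fintype κ]

/-- The kept spaces of sections. -/
@[reducible] def τ : Option J → Option J'
  | none => D.l₀
  | some j => some (D.φ j)

theorem τ_inj : Injective D.τ
  | none, none, _ => rfl
  | none, some j, h => (D.l₀_ne j h).elim
  | some j, none, h => (D.l₀_ne j h.symm).elim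
  | some _, some _, h => congrArg some (D.φ_inj (Option.some.inj h))

theorem sup : ∀ l, Sup D.σ (ch'.a (D.τ l))
  | none => D.sup₀
  | some j => D.sup_a j

/-- The small chart. -/
@[reducible] def ch : Ch ι J where
  M i := ch'.M (D.σ i)
  o := D.o
  g := ch'.g
  m i := ch'.m (D.σ i)
  a l i := ch'.a (D.τ l) (D.σ i)
  h l := ch'.h (D.τ l)
  k := D.k
  bω := D.bω
  b j i := ch'.b (D.φ j) (D.σ i)

/-- Forms of degree `a l`. -/
noncomputable def ra (l : Option J) : Tens D.ch.M (D.ch.a l) ≃L[ℂ] Tens ch'.M (ch'.a (D.τ l)) :=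
  rx D.σ_inj (D.sup l)

/-- Test forms. -/
noncomputable def rb (j : J) : Tens D.ch.M (D.ch.b j) ≃L[ℂ] Tens ch'.M (ch'.b (D.φ j)) :=
  rx D.σ_inj (D.sup_b j)

/-- Restriction of points. -/
noncomputable def pt (z : ch'.Pt) : D.ch.Pt := (rV D.σ z.1, fun l => z.2 (D.τ l))

/-- The projection of the groups. -/
noncomputable def θ : ch'.A ν →L[ℂ] D.ch.A ν :=
  LinearMap.toContinuousLinearMap
    { toFun := fun s => (fun i => s.1 (D.σ i), fun l => s.2.1 (D.τ l), fun n i => s.2.2 n (D.σ i))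
      map_add' := fun _ _ => rfl
      map_smul' := fun _ _ => rfl }

theorem θ_apply (s : ch'.A ν) : D.θ s =
    (fun i => s.1 (D.σ i), fun l => s.2.1 (D.τ l), fun n i => s.2.2 n (D.σ i)) := rfl

theorem θ_one : D.θ (1 : ch'.A ν) = 1 := rfl

theorem θ_mul (s t : ch'.A ν) : D.θ (s * t) = D.θ s * D.θ t := rfl

theorem θ_dup (s : ch'.A (ν ⊕ κ)) : D.θ (dup s) = dup (D.θ s) := rfl

theorem θ_isUnit {s : ch'.A ν} (h : IsUnit s) : IsUnit (D.θ s) :=
  Cv.isUnit_iff.2 ⟨fun _ => isUnit_fst h _, fun _ => isUnit_E h _,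
    fun _ _ => (Cv.isUnit_iff.1 h).2.2 _ _⟩

theorem θ_surj : Surjective (D.θ : ch'.A ν → _) := fun s => by
  obtain ⟨a, ha⟩ := exists_dep (E := fun i => (Fin (ch'.M i) → ℂ) →L[ℂ] Fin (ch'.M i) → ℂ) D.σ_inj s.1
  obtain ⟨b, hb⟩ := exists_dep (E := fun l => ch'.E l →L[ℂ] ch'.E l) D.τ_inj s.2.1
  choose c hc using fun n => exists_dep (E := fun _ => ℂ) D.σ_inj (s.2.2 n)
  exact ⟨(a, b, c), Prod.ext (funext ha) (Prod.ext (funext hb) (funext₂ hc))⟩

theorem sub_ra (s : ch'.A ν) (l : Option J) (μ : Tens D.ch.M (D.ch.a l)) :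
    sub s _ (D.ra l μ) = D.ra l (sub (D.θ s) _ μ) := rfl

theorem sub_rb (s : ch'.A ν) (j : J) (μ : Tens D.ch.M (D.ch.b j)) :
    sub s _ (D.rb j μ) = D.rb j (sub (D.θ s) _ μ) := rfl

@[simp] theorem val_ra (l : Option J) (μ : Tens D.ch.M (D.ch.a l)) (c : V ch'.M) :
    val (D.ra l μ) c = val μ (rV D.σ c) := rfl

@[simp] theorem val_rb (j : J) (μ : Tens D.ch.M (D.ch.b j)) (c : V ch'.M) :
    val (D.rb j μ) c = val μ (rV D.σ c) := rfl

theorem psh_wd (j : J) : psh D.σ (D.ch.wd j) = ch'.wd (D.φ j) :=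
  psh_eq D.σ_inj (b := ch'.wd (D.φ j)) fun i h => by simp [wd, D.sup_a j i h, D.sup_b j i h]

/-- The projection of the groups of families. -/
noncomputable def θF {S : Type} [Fintype S] : ch'.AF ν κ S →L[ℂ] D.ch.AF ν κ S :=
  (ContinuousLinearMap.id ℂ _).prodMap D.θ

theorem θF_apply {S : Type} [Fintype S] (s : ch'.AF ν κ S) : D.θF s = (s.1, D.θ s.2) := rfl

theorem pt_surj : Surjective D.pt := fun z => by
  obtain ⟨a, ha⟩ := rV_surj D.σ_inj z.1
  obtain ⟨b, hb⟩ := exists_dep (E := fun l => ch'.E l →L[ℂ] ℂ) D.τ_inj z.2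
  exact ⟨(a, b), Prod.ext ha (funext hb)⟩

/-- Restriction of the tests of the equations. -/
def zt (ζ : ch'.Zt) : D.ch.Zt := fun i => ζ (D.σ i)

theorem zt_surj : Surjective D.zt := fun ζ =>
  (exists_dep (E := fun i => (Fin (ch'.M i) → ℂ) →L[ℂ] ℂ) D.σ_inj ζ).imp fun _ => funext

/-- Restriction of functions. -/
noncomputable def A (K : Type) : ch'.P K →ₗ[ℂ] D.ch.P K where
  toFun f := (fun j z m => f.1 (D.φ j) (surjInv D.pt_surj z) (D.rb j m.1, D.rb j m.2),
    fun k z ζ => f.2 k (surjInv D.pt_surj z) (surjInv D.zt_surj ζ))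
  map_add' _ _ := rfl
  map_smul' _ _ := rfl

/-- The family `F'` is the family `F` with additional base fields. -/
structure FRes {S Λ R R' K : Type} (F' : Fam S Λ R' J' K) (e : K → ι' → ℕ) (F : Fam S Λ R J K) :
    Prop where
  wt : ∀ j, F.wt j = F'.wt (D.φ j)
  wl : F.wl = F'.wl
  wk : F.wk = F'.wk
  G : ∀ k, F'.G k = rename D.φ (F.G k)
  mov : F'.mov = D.φ '' F.mov
  sup : ∀ k, Sup D.σ (e k)

/-- The degrees of the tests of the equations in the small chart. -/
@[reducible] def e {K : Type} (e : K → ι' → ℕ) : K → ι → ℕ := fun k i => e k (D.σ i)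

/-- Restriction of `Q`, `p`, `X`, with a given tensor `Ξ`. -/
noncomputable def mkW (x : ch'.W ν) (Ξ : Tn D.ch.M D.ch.slot →L[ℂ] D.ch.E none) : D.ch.W ν :=
  W.mk' (fun l => x.Q (D.τ l) ∘L (D.ra l : _ →L[ℂ] _)) (fun n => rV D.σ (x.p n)) Ξ
    fun j => x.X (D.φ j) ∘L (D.rb j : _ →L[ℂ] _)

/-- The fields of `x` are the restrictions of those of `x'`, and the curve of `x'` maps onto the
curve of `x`. -/
structure Rel (x' : ch'.W ν') (x : D.ch.W ν) : Prop where
  X : ∀ j μ, x.X j μ = x'.X (D.φ j) (D.rb j μ)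
  into : ∀ z ∈ gr x', D.pt z ∈ gr x
  onto : ∀ z ∈ gr x, ∃ z' ∈ gr x', D.pt z' = z

end Res

variable {ch : Ch ι J} {ν : Type} [Fintype ν]

/-- The value of the trivialisation given by `Ξ` at an ordinary point `c` with tangent vector `v`. -/
def LeadAt (x : ch.W ν) (c v : V ch.M) (ρ : ℂ) : Prop :=
  ∀ u, (c, u) ∈ gr x → ∀ μ, u none (x.Ξ μ) = ρ * wedge μ c v

namespace Res

variable {ch' : Ch ι' J'} (D : ch'.Res ι J)

/-- The characters `σ e_i`, `wd j`, `χ` of the big chart. -/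
def cmb (a : ι → ℤ) (b : J' → ℤ) (c : ℤ) : ι' → ℤ :=
  psh D.σ a + ∑ j, b j • ch'.wd j + c • ch'.χ

/-- The links `I` between the factors. The trivialisation of the small chart is
`ξ ^ r * ∏ s j ^ n j`; the kept factors, the links and `ξ` determine all bundles. -/
structure Lnk where
  /-- the ratio of the powers -/
  r : ℕ
  /-- the exponents of the links -/
  n : J' → ℤ
  /-- the links -/
  I : Set J'
  k_eq : D.k = r * ch'.k
  n_sup : ∀ j ∉ I, n j = 0
  disj : ∀ j, D.φ j ∉ I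
  rel : D.cmb (-D.ch.χ) n r = 0
  surj : ∀ v, ∃ a b c, (∀ j ∉ I, b j = 0) ∧ D.cmb a b c = v
  ker : ∀ a b c, (∀ j ∉ I, b j = 0) → D.cmb a b c = 0 →
    ∃ z : ℤ, a = z • -D.ch.χ ∧ b = z • n ∧ c = z * r

namespace Lnk

variable {D} (L : D.Lnk)

/-- `Ξ` is the tensor of the trivialisation `ξ ^ r * ∏ s j ^ n j`. -/
def IsXi (x : ch'.W ν) (Ξ : Tn D.ch.M D.ch.slot →L[ℂ] D.ch.E none) : Prop :=
  ∀ γ ρ, IsBranch ch'.o (crv x) γ → ¬Spc x (γ 0) → LeadAt x (γ 0) (deriv γ 0) ρ →
    ∀ u, (γ 0, u) ∈ gr x → ∀ μ, u D.l₀ (Ξ μ) = ρ ^ L.r * (∏ j, fld x (γ 0) j ^ L.n j) *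
      wedge (ch := D.ch) μ (rV D.σ (γ 0)) (rV D.σ (deriv γ 0))

/-- The map between the ambient spaces. -/
noncomputable def f (x : ch'.W ν) : D.ch.W ν := D.mkW x (Classical.epsilon (L.IsXi x))

theorem f_Q (x : ch'.W ν) (l : Option J) (μ : Tens D.ch.M (D.ch.a l)) :
    (L.f x).Q l μ = x.Q (D.τ l) (D.ra l μ) := rfl

theorem f_p (x : ch'.W ν) (n : ν) : (L.f x).p n = rV D.σ (x.p n) := rfl

theorem f_X (x : ch'.W ν) (j : J) (μ : Tens D.ch.M (D.ch.b j)) :
    (L.f x).X j μ = x.X (D.φ j) (D.rb j μ) := rfl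

/-- The points at which the map `f` is meaningful: the factor `σ o` immerses the curve, the links
are sections without zeros away from the marked points. -/
structure Dom (x : ch'.W ν) : Prop where
  mem : x ∈ ch'.base ν
  nod : Nod (D.σ D.o) (crv x)
  sec : ∀ j ∈ L.I, ∀ c ∈ crv x, ∃ y, Val x j c y
  ne : ∀ j ∈ L.I, ∀ c ∈ crv x, (∀ n (s : ι' → ℂ), c ≠ s • x.p n) → fld x c j ≠ 0
  ne' : ∀ j, L.n j ≠ 0 → ∀ c ∈ crv x, fld x c j ≠ 0

variable {S Λ R R' K κ : Type} [Fintype S] [Fintype Λ] [Fintype R] [Fintype R'] [Fintype K]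
  [Fintype κ]

/-- The map between the ambient spaces of families. -/
noncomputable def fF (x : ch'.WF ν κ Λ) : D.ch.WF ν κ Λ := (x.1, L.f x.2)

/-- The dropped fields are the base fields of the auxiliary family `F`: links with the orders `u`,
vanishing fields, and fields determined by the links. -/
structure Amb (F : Fam S Λ R' J' K) (u : ν → J' → ℕ) : Prop where
  inv : F.Inv
  mov : F.mov = range D.φ
  nz : ∀ j ∈ L.I, j ∉ F.zer
  det : ∀ l y y', (l, y) ∈ F.E → (l, y') ∈ F.E → (∀ j ∈ L.I, y j = y' j) →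
    ∀ j ∉ F.mov, j ∉ F.zer → (∀ j ∈ L.I, (∀ n, u n j = 0) → y j ≠ 0) → y j = y' j
  ord : ∀ j, L.n j ≠ 0 → ∀ n, u n j = 0
  wt : ∀ i, ∑ j, L.n j * F.wt j i = 0

variable (κ) in
/-- The domain of the map of ambient spaces. -/
def T (D : ch'.Res ι J) (F : Fam S Λ R' J' K) (u : ν → J' → ℕ) : Set (ch'.WF ν κ Λ) :=
  {x | x ∈ ch'.main κ F u ∧ Nod (D.σ D.o) (crv x.2)}

end Lnk

end Res

end Ch

end Vale.Agent.P269
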