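import Vale.Agent.P287Q.G.Map.Cr
import Vale.Agent.P269.Base.LF
import Vale.Agent.P269.Base.Open

/-!
# The restriction map is holomorphic
-/

set_option linter.unusedSectionVars false

namespace Vale.Agent.P269.Base

open Set Function Topology Filter Holo

theorem ev_sub {X Y : Type*} [TopologicalSpace X] [TopologicalSpace Y] {S : X → Prop}
    {x : Subtype S} {y : Y} {p : Subtype S × Y → Prop} (h : ∀ᶠ q in 𝓝 (x, y), p q) :
    ∀ᶠ q : X × Y in 𝓝 (x.1, y), ∀ h : S q.1, p (⟨q.1, h⟩, q.2) := by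
  rw [nhds_prod_eq] at h ⊢
  rw [nhds_induced Subtype.val x, ← comap_id (f := 𝓝 y), ← comap_prodMap_prod,
    eventually_comap] at h
  exact h.mono fun q hq a => hq _ rfl

theorem ev_sub' {X : Type*} [TopologicalSpace X] {S : X → Prop} {x : Subtype S}
    {p : Subtype S → Prop} (h : ∀ᶠ q in 𝓝 x, p q) : ∀ᶠ q in 𝓝 x.1, ∀ h : S q, p ⟨q, h⟩ := by
  rw [nhds_induced Subtype.val x, eventually_comap] at h
  exact h.mono fun q hq a => hq _ rfl

variable {T P A B : Type*} [NormedAddCommGroup P] [NormedSpace ℂ P] [NormedAddCommGroup A]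
  [NormedSpace ℂ A] [NormedAddCommGroup B] [NormedSpace ℂ B] [FiniteDimensional ℂ A]
  [FiniteDimensional ℂ B]

/-- A family of linear maps is holomorphic if its values are. -/
theorem exists_an_clm {l : Filter T} {π : T → P} {f : T → A →L[ℂ] B} {p : P}
    (h : ∀ μ, ∃ F : P → B, AnalyticAt ℂ F p ∧ ∀ᶠ t in l, f t μ = F (π t)) :
    ∃ F : P → A →L[ℂ] B, AnalyticAt ℂ F p ∧ ∀ᶠ t in l, f t = F (π t) := by
  choose F h1 h2 using fun i => h (Module.finBasis ℂ A i)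
  let K : (Fin (Module.finrank ℂ A) → B) →L[ℂ] A →L[ℂ] B := LinearMap.toContinuousLinearMap
    (((Module.finBasis ℂ A).constr ℂ).trans LinearMap.toContinuousLinearMap).toLinearMap
  refine ⟨fun q => K fun i => F i q, (K.analyticAt _).comp (AnalyticAt.pi h1),
    (eventually_all.2 h2).mono fun t ht => ContinuousLinearMap.coe_injective
      ((Module.finBasis ℂ A).ext fun i => (ht i).trans ?_)⟩
  exact ((Module.finBasis ℂ A).constr_basis ℂ (fun i => F i (π t)) i).symm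

variable {ι : Type} [Fintype ι] [DecidableEq ι] {M : ι → ℕ} {o o' : ι} [TopologicalSpace T]
  [FiniteDimensional ℂ P] {C : T → Set (V M)} {π : T → P} {t₀ : T} {c : V M}

theorem LocFam.of_nod (h : LocFam o C π t₀) (h' : Nod o' (C t₀)) : LocFam o' C π t₀ := by
  refine ⟨h.cont, h.ne_zero, h.cone, h.usc, fun c hc => (h.chart c hc).imp ?_ (Exists.imp ?_)⟩
  · rintro ⟨σ, rfl, a⟩
    refine ⟨σ, rfl, a.an, fun e s he => ?_, a.mem, a.sub⟩
    exact of_li_pair ((a.isBranch0 (h'.ne_zero _ hc o)).of_nod h').imm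
      (by rwa [fderiv_eq_smul] at he)
  · rintro τ ⟨σ, rfl, a, b, d⟩
    refine ⟨σ, rfl, a, b, d.an, fun e s he => ?_, d.mem, d.sub⟩
    have := ((d.isCross b (h'.ne_zero _ hc o)).of_nod h').2.2.2.2
    rw [deriv_inl d.an0, deriv_inr d.an0] at this
    refine Prod.ext_iff.2 (of_li_triple this (s := s) (Eq.trans ?_ he))
    have e1 : e = e.1 • (1, 0) + e.2 • (0, 1) := by simp
    conv_rhs => rw [e1, map_add, map_smul, map_smul]
    rfl

/-- A holomorphic field of tangent vectors near a smooth point. -/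
theorem SmAt.exists_tangent (h : SmAt o C π t₀ c) (hf : LocFam o C π t₀) :
    ∃ v : P × V M → V M, AnalyticAt ℂ v (π t₀, c) ∧ ∀ᶠ q : T × V M in 𝓝 (t₀, c), q.2 ∈ C q.1 →
      ∃ γ, IsBranch o (C q.1) γ ∧ γ 0 = q.2 ∧ deriv γ 0 = v (π q.1, q.2) := by
  have hne := hf.ne_zero.self_of_nhds c h.mem
  obtain ⟨σ, rfl, a⟩ := h
  have hπ := hf.cont.self_of_nhds
  obtain ⟨ρ, r1, r2, -, r3⟩ := a.exists_mem_iff hπ hne hf.cone
  have r4 : AnalyticAt ℂ (fun q : P × V M => (q.1, (ρ q).2)) (π t₀, σ (π t₀, 0)) :=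
    analyticAt_fst.prod (analyticAt_snd.comp r1)
  have r5 : Tendsto (fun q : T × V M => ρ (π q.1, q.2)) (𝓝 (t₀, σ (π t₀, 0))) (𝓝 (1, 0)) :=
    (r2 ▸ r1.continuousAt.tendsto :).comp (tendsto_pm hπ _)
  have r6 : Tendsto (fun q : T × V M => (q.1, (ρ (π q.1, q.2)).2)) (𝓝 (t₀, σ (π t₀, 0)))
      (𝓝 (t₀, 0)) := continuousAt_fst.tendsto.prodMk_nhds r5.snd_nhds
  refine ⟨fun q => (ρ q).1 • fderiv ℂ σ (q.1, (ρ q).2) (0, 1), an_smul (analyticAt_fst.comp r1)
    (an_apply (a.an.fderiv.comp_of_eq r4 (by rw [r2])) analyticAt_const), ?_⟩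
  filter_upwards [r3, r6.eventually (a.isBranch hf), r5.eventually ev_ne_one,
    continuousAt_fst.tendsto.eventually hf.eventually,
    r6.eventually ((tendsto_pm hπ 0).eventually a.an.eventually_analyticAt)] with q e1 e2 e3 e4 e5 hq
  refine ⟨_, e2.smul e4.nod e3, by simpa using (e1.1 hq).2.symm, HasDerivAt.deriv ?_⟩
  have := e5.differentiableAt.hasFDerivAt.comp_hasDerivAt_of_eq (0 : ℂ)
    ((hasDerivAt_const (0 : ℂ) (π q.1)).prodMk
      ((hasDerivAt_id' (0 : ℂ)).const_add (ρ (π q.1, q.2)).2)) (by simp)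
  simpa using hasDerivAt_smul (hasDerivAt_const (0 : ℂ) (ρ (π q.1, q.2)).1) this

end Vale.Agent.P269.Base

namespace Vale.Agent.P269.Ch

open Set Function Topology Filter Base Cv Holo

variable {ι ι' J J' ν : Type} [Fintype ι] [Fintype ι'] [Fintype J] [Fintype J'] [DecidableEq ι]
  [DecidableEq ι'] [Fintype ν]

section

variable {ch : Ch ι J} {x : ch.W ν} {c : V ch.M}

/-- the evaluation maps depend holomorphically on the point -/
theorem exists_evU (hx : ∀ l, Surjective (x.Q l)) :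
    ∃ U : ch.W ν × V ch.M → ∀ l, ch.E l →L[ℂ] ℂ, (∀ c, AnalyticAt ℂ U (x, c)) ∧
      ∀ᶠ y in 𝓝 x, ∀ c ∈ crv y, (c, U (y, c)) ∈ gr y := by
  choose S hS using fun l => exists_rightInv (hx l)
  have h1 : ∀ l, Bijective ((x.Q l).comp (S l)) := fun l =>
    ⟨fun a b e => by simpa [hS] using e, fun y => ⟨y, hS l y⟩⟩
  have h2 := fun l => an_comp (an_Q l x) (analyticAt_const (v := S l))
  refine ⟨fun q l => (evL _ q.2).comp ((S l).comp ((q.1.Q l).comp (S l)).inverse),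
    fun c => AnalyticAt.pi fun l => an_comp ((analyticAt_evL _).comp analyticAt_snd)
      (an_comp analyticAt_const (((analyticAt_clm_inverse (h1 l)).comp_of_eq (h2 l) rfl).comp_of_eq
        analyticAt_fst rfl)), ?_⟩
  filter_upwards [eventually_all.2 fun l => eventually_bijective (h2 l).continuousAt (h1 l)]
    with y hy c hc
  obtain ⟨u, hu⟩ := mem_crv.1 hc
  refine ⟨hu.1, fun l μ => ?_⟩
  change val (S l (((y.Q l).comp (S l)).inverse (y.Q l μ))) c = val μ c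
  rw [← hu.2 l, ← hu.2 l μ, ← ContinuousLinearMap.comp_apply (y.Q l) (S l),
    (isInvertible_of_bijective (hy l)).self_apply_inverse]

/-- the values of the fields depend holomorphically on the point -/
theorem exists_fldU (hx : ∀ l, Surjective (x.Q l)) (hc : ∀ i, c i ≠ 0) (j : J) :
    ∃ Φ : ch.W ν × V ch.M → ℂ, AnalyticAt ℂ Φ (x, c) ∧ ∀ᶠ q in 𝓝 (x, c), q.2 ∈ crv q.1 →
      (∃ y, Val q.1 j q.2 y) → fld q.1 q.2 j = Φ q := by
  obtain ⟨U, h1, h2⟩ := exists_evU hx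
  obtain ⟨μ, h3⟩ := exists_pol_one hc (ch.b j)
  have h4 : AnalyticAt ℂ (fun q : ch.W ν × V ch.M => val μ q.2) (x, c) :=
    (analyticAt_val _ _).comp analyticAt_snd
  have h5 : val μ c ≠ 0 := h3 ▸ one_ne_zero
  refine ⟨fun q => U q (some j) (q.1.X j μ) / val μ q.2, (an_apply (analyticAt_pi_iff.1 (h1 c) _)
    (an_apply (W.an_X analyticAt_fst j) analyticAt_const)).div h4 h5, ?_⟩
  filter_upwards [continuousAt_fst.tendsto.eventually h2, h4.continuousAt.eventually_ne h5]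
    with q e1 e2 e3 e4
  rw [val_fld e4 _ (e1 _ e3), mul_div_cancel_right₀ _ e2]

/-- the value of the trivialisation depends holomorphically on the point and the tangent vector -/
theorem exists_leadU (hx : ∀ l, Surjective (x.Q l)) (hc : ∀ i, c i ≠ 0) {v : V ch.M}
    (hv : LinearIndependent ℂ ![c ch.o, v ch.o]) :
    ∃ Φ : ch.W ν × V ch.M × V ch.M → ℂ, AnalyticAt ℂ Φ (x, c, v) ∧ ∀ᶠ q in 𝓝 (x, c, v),
      q.2.1 ∈ crv q.1 → ∀ ρ, LeadAt q.1 q.2.1 q.2.2 ρ → ρ = Φ q := by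
  obtain ⟨U, h1, h2⟩ := exists_evU hx
  obtain ⟨μ, h5⟩ := exists_wedge_ne hc hv
  have h3 : AnalyticAt ℂ (fun q : ch.W ν × V ch.M × V ch.M => q.2.1) (x, c, v) :=
    analyticAt_fst.comp analyticAt_snd
  have h4 : AnalyticAt ℂ (fun q : ch.W ν × V ch.M × V ch.M => wedge μ q.2.1 q.2.2) (x, c, v) :=
    an_wedge analyticAt_const h3 (analyticAt_snd.comp analyticAt_snd)
  refine ⟨fun q => U (q.1, q.2.1) none (q.1.Ξ μ) / wedge μ q.2.1 q.2.2, (an_apply
    (analyticAt_pi_iff.1 ((h1 c).comp_of_eq (analyticAt_fst.prod h3) rfl) _)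
    (an_apply (W.an_Ξ analyticAt_fst) analyticAt_const)).div h4 h5, ?_⟩
  filter_upwards [continuousAt_fst.tendsto.eventually h2, h4.continuousAt.eventually_ne h5]
    with q e1 e2 e3 ρ e4
  rw [e4 _ (e1 _ e3), mul_div_cancel_right₀ _ e2]

theorem exists_leadAt (hx : x ∈ ch.base ν) {γ : ℂ → V ch.M} (hγ : IsBranch ch.o (crv x) γ)
    (h : ¬Spc x (γ 0)) : ∃ ρ ≠ 0, LeadAt x (γ 0) (deriv γ 0) ρ := by
  obtain ⟨ρ, h1, f, -, rfl, h2⟩ := hx.2.2.2.2.2.1 γ hγ
  refine ⟨_, h1, fun u hu μ => ?_⟩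
  rw [h2.self_of_nhds u hu μ, if_neg (by exact h), one_pow, mul_one]

theorem Cuts.locFam (hc : ch.Cuts) (x : ch.base ν) :
    LocFam ch.o (fun y : ch.base ν => crv y.1) Subtype.val x :=
  hc.cut.elim fun _ hl => locFam_base hl x

/-- ordinary points stay ordinary -/
theorem eventually_not_spc (hc : ch.Cuts) (hx : x ∈ ch.base ν) (h : c ∈ crv x) (h' : ¬Spc x c) :
    ∀ᶠ q : ch.W ν × V ch.M in 𝓝 (x, c), q.1 ∈ ch.base ν → q.2 ∈ crv q.1 → ¬Spc q.1 q.2 := by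
  have h1 := hc.locFam ⟨x, hx⟩
  filter_upwards [ev_sub ((h1.smAt h fun e => h' (.inl e)).eventually h1), eventually_all.2 fun n =>
    ((W.an_p analyticAt_id n).continuousAt.tendsto.prodMap_nhds tendsto_id).eventually
      (eventually_not_orb
      (crv_ne (hx.2.2.2.1 n).1) (crv_ne h) fun ⟨s, _, e⟩ => h' (.inr ⟨n, s, e⟩))] with q e1 e2 e3 e4
  rintro (e | ⟨n, s, e⟩)
  exacts [(e1 e3 e4).not_isNode (hc.locFam _) e, e2 n (.of_smul (crv_ne e4) e)]

theorem frequently_not_spc (hx : x ∈ ch.base ν) (h : c ∈ crv x) :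
    ∃ᶠ y in 𝓝[crv x] c, ¬Spc x y := by
  refine ((hx.2.2.1.nod.frequently_not_node x.p h).and_eventually self_mem_nhdsWithin).mono ?_
  rintro y ⟨⟨e1, e2⟩, e3⟩ (e | ⟨n, s, e⟩)
  exacts [e2 e, e1 n (.of_smul (crv_ne e3) e)]

/-- immersion by another factor is an open condition -/
theorem eventually_nod (hc : ch.Cuts) (hx : x ∈ ch.base ν) {o : ι} (h : Nod o (crv x)) :
    ∀ᶠ y in 𝓝 x, y ∈ ch.base ν → Nod o (crv y) :=
  ev_sub' (x := ⟨x, hx⟩) (p := fun y => Nod o (crv y.1))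
    (((hc.locFam ⟨x, hx⟩).of_nod h).eventually.mono fun _ => LocFam.nod)

end

variable {ch' : Ch ι' J'} {D : ch'.Res ι J} {L : D.Lnk} {x : ch'.W ν}

/-- the values of the new tensor at ordinary points -/
theorem Res.Lnk.Dom.hol_val (hc : D.ch.Cuts) (hc' : ch'.Cuts) (h : L.Dom x) {c : V ch'.M}
    (a : c ∈ crv x) (b : ¬Spc x c) (μ : Tn D.ch.M D.ch.slot) :
    ∃ Φ : ch'.W ν × V ch'.M → ℂ, AnalyticAt ℂ Φ (x, c) ∧ ∀ᶠ q in 𝓝 (x, c), L.Dom q.1 →
      ∀ u, (q.2, u) ∈ gr q.1 → u D.l₀ ((L.f q.1).Ξ μ) = Φ q := by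
  have h1 := hc'.locFam ⟨x, h.mem⟩
  obtain ⟨v, v1, v2⟩ := (h1.smAt a fun e => b (.inl e)).exists_tangent h1
  obtain ⟨γ, g1, g2, g3⟩ := v2.self_of_nhds a
  obtain ⟨Φ, p1, p2⟩ := exists_leadU h.mem.1 (crv_ne a) (v := v (x, c)) (by
    have := g1.imm
    rwa [g2, g3] at this)
  have h2 : AnalyticAt ℂ (fun q : ch'.W ν × V ch'.M => (q.1, q.2, v q)) (x, c) :=
    analyticAt_fst.prod (analyticAt_snd.prod v1)
  have h3 : ∀ j, ∃ Ψ : ch'.W ν × V ch'.M → ℂ, AnalyticAt ℂ Ψ (x, c) ∧ ∀ᶠ q in 𝓝 (x, c),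
      L.Dom q.1 → q.2 ∈ crv q.1 → fld q.1 q.2 j ^ L.n j = Ψ q := fun j => by
    by_cases e : L.n j = 0
    · exact ⟨fun _ => 1, analyticAt_const, .of_forall fun q _ _ => by rw [e, zpow_zero]⟩
    have hj : j ∈ L.I := by_contra fun e' => e (L.n_sup j e')
    obtain ⟨Ψ, q1, q2⟩ := exists_fldU h.mem.1 (crv_ne a) j
    exact ⟨fun q => Ψ q ^ L.n j, q1.fun_zpow (q2.self_of_nhds a (h.sec j hj c a) ▸ h.ne' j e c a),
      q2.mono fun q e1 e2 e3 => by rw [e1 e3 (e2.sec j hj _ e3)]⟩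
  choose Ψ q1 q2 using h3
  refine ⟨fun q => Φ (q.1, q.2, v q) ^ L.r * (∏ j, Ψ j q) *
    wedge (ch := D.ch) μ (rV D.σ q.2) (rV D.σ (v q)), (((p1.comp_of_eq h2 rfl).pow _).mul
      (Finset.analyticAt_fun_prod _ fun j _ => q1 j)).mul (an_wedge analyticAt_const
        (an_apply analyticAt_const analyticAt_snd) (an_apply analyticAt_const v1)), ?_⟩
  filter_upwards [ev_sub v2, h2.continuousAt.tendsto.eventually p2, eventually_all.2 q2,
    eventually_not_spc hc' h.mem a b] with q e1 e2 e3 e4 e5 u hu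
  have e6 := mem_crv.2 ⟨u, hu⟩
  obtain ⟨γ, g1, g2, g3⟩ := e1 e5.mem e6
  have e7 : ¬Spc q.1 (γ 0) := g2 ▸ e4 e5.mem e6
  obtain ⟨ρ, -, e8⟩ := exists_leadAt e5.mem g1 e7
  rw [e5.isXi hc γ ρ g1 e7 e8 u (g2 ▸ hu), g2, g3, e2 e6 ρ (by rwa [g2, g3] at e8),
    Finset.prod_congr rfl fun j _ => e3 j e5 e6]

/-- **the restriction map is holomorphic** -/
theorem Res.Lnk.Dom.hol (hc : D.ch.Cuts) (hc' : ch'.Cuts) (h : L.Dom x) :
    ∃ Φ : ch'.W ν → D.ch.W ν, AnalyticAt ℂ Φ x ∧ ∀ᶠ y in 𝓝 x, L.Dom y → L.f y = Φ y := by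
  have h1 : LocFam ch'.o (fun y : {y : ch'.W ν // L.Dom y} => crv y.1) Subtype.val ⟨x, h⟩ :=
    LocFam.comp (u := fun y : {y : ch'.W ν // L.Dom y} => (⟨y.1, y.2.mem⟩ : ch'.base ν)) (k := id)
      (hc'.locFam _) (continuous_subtype_val.subtype_mk _).continuousAt
      (.of_forall fun _ => continuous_subtype_val.continuousAt) analyticAt_id
      (.of_forall fun _ => rfl)
  obtain ⟨F, f1, f2⟩ := exists_an_clm (l := 𝓝 (⟨x, h⟩ : {y : ch'.W ν // L.Dom y}))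
      (π := Subtype.val) (f := fun y => (L.f y.1).Ξ) (p := x) fun μ => by
    choose m hm using fun y : {y : ch'.W ν // L.Dom y} => y.2.mem.1 D.l₀ ((L.f y.1).Ξ μ)
    obtain ⟨κ, k1, k2⟩ := h1.exists_form h.mem.2.2.1 (hc'.ne D.l₀) (s := fun y => val (m y))
      (.of_forall fun y => Pol.isSec (val_mem _)) (p := fun c => ¬Spc x c)
      (fun c a => (frequently_not_spc h.mem a).mono fun y e => ⟨e, fun e' => e (.inl e')⟩)
      fun y y1 y2 y3 => by
        obtain ⟨Φ, p1, p2⟩ := h.hol_val hc hc' y3.self_of_nhds y2 μ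
        have y4 := analyticAt_id.prod y1
        refine ⟨_, p1.comp_of_eq y4 rfl, ?_⟩
        filter_upwards [y3, (y4.continuousAt.tendsto.comp
          continuous_subtype_val.continuousAt).eventually p2] with t e1 e2
        obtain ⟨u, hu⟩ := mem_crv.1 e1
        exact (hu.2 _ _).symm.trans (hm t ▸ e2 t.2 u hu)
    refine ⟨fun y => y.Q D.l₀ (κ y), an_apply (an_Q _ _) k1, k2.mono fun t ht => ?_⟩
    rw [← hm t, ← sub_eq_zero, ← map_sub]
    exact t.2.mem.2.1 _ _ fun c a => sub_eq_zero.2 (ht c a)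
  refine ⟨fun y => D.mkW y (F y), W.an_iff.2 ⟨fun l => an_comp (an_Q _ _) analyticAt_const,
    fun n => ((rV D.σ).analyticAt _).comp (W.an_p analyticAt_id n), f1,
    fun j => an_comp (W.an_X analyticAt_id _) analyticAt_const⟩, (ev_sub' f2).mono fun y e a => ?_⟩
  exact congrArg (D.mkW y) (e a)

end Vale.Agent.P269.Ch
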