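import Vale.Agent.P287Q.G.Map.DD

set_option linter.unusedSectionVars false

/-!
# The differential of the section in the direction of some fields; division of thickened fields
-/

namespace Vale.Agent.P269

open P291Z Set Function Topology Filter Module Vir Base Cv
open MvPolynomial hiding funext

variable {S Λ R J K ι ν κ α : Type} [Fintype S] [Fintype Λ] [Fintype R] [Fintype J] [Fintype K]
  [Fintype ι] [DecidableEq ι] [Fintype ν] [Fintype κ] {l : Filter α}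

/-- vectors converge if their values on enough converging linear forms do -/
theorem Vir.tendsto_of_tests {n : ℕ} {I : Type} {v : α → Fin n → ℂ} {v₀ : Fin n → ℂ}
    {u₀ : I → (Fin n → ℂ) →L[ℂ] ℂ} (h0 : ∀ w, (∀ i, u₀ i w = 0) → w = 0)
    (h : ∀ i, ∃ u : α → (Fin n → ℂ) →L[ℂ] ℂ, Tendsto u l (𝓝 (u₀ i)) ∧
      Tendsto (fun a => u a (v a)) l (𝓝 (u₀ i v₀))) : Tendsto v l (𝓝 v₀) := by
  have key : ∀ φ : (Fin n → ℂ) →ₗ[ℂ] ℂ, ∃ u : α → (Fin n → ℂ) →ₗ[ℂ] ℂ,
      (∀ w, Tendsto (fun a => u a w) l (𝓝 (φ w))) ∧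
        Tendsto (fun a => u a (v a)) l (𝓝 (φ v₀)) := fun φ => by
    have : φ ∈ Submodule.span ℂ (range fun i => (u₀ i).toLinearMap) :=
      FiniteDimensional.mem_span_of_iInf_ker_le_ker fun p hp => by
        rw [h0 p fun i => (Submodule.mem_iInf _).1 hp i]
        exact zero_mem _
    induction this using Submodule.span_induction with
    | mem _ a =>
      obtain ⟨i, rfl⟩ := a
      obtain ⟨u, a, b⟩ := h i
      exact ⟨fun a => (u a).toLinearMap,
        fun w => ((ContinuousLinearMap.apply ℂ ℂ w).continuous.tendsto _).comp a, b⟩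
    | zero => exact ⟨0, fun _ => tendsto_const_nhds, tendsto_const_nhds⟩
    | add _ _ _ _ a b =>
      obtain ⟨u, a, a'⟩ := a
      obtain ⟨u', b, b'⟩ := b
      exact ⟨u + u', fun w => (a w).add (b w), a'.add b'⟩
    | smul c _ _ a =>
      obtain ⟨u, a, a'⟩ := a
      exact ⟨c • u, fun w => (a w).const_mul c, a'.const_mul c⟩
  choose u a b using fun i : Fin n => key (LinearMap.proj i)
  refine tendsto_of_mulVec (M := fun x => Matrix.of fun i j => u i x (Pi.single j 1))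
    (tendsto_pi_nhds.2 fun i => tendsto_pi_nhds.2 fun j => ?_)
    (tendsto_pi_nhds.2 fun i => (b i).congr fun x => ?_)
  · simpa [Matrix.one_apply, Pi.single_apply] using a i (Pi.single j 1)
  · exact (RepP.dual_sum (u i x).toContinuousLinearMap (v x) :)

theorem Vir.PD.Tends.dEq {Z : Type} {Θ : J → Type} [∀ j, AddCommGroup (Θ j)] [∀ j, Module ℂ (Θ j)]
    {d : α → PD K Z Θ} {d0 : PD K Z Θ} (t : PD.Tends d l d0 univ) (pw : Z → ∀ j, Θ j)
    {Y : α → ∀ j, Θ j →ₗ[ℂ] ℂ} {Y0 : ∀ j, Θ j →ₗ[ℂ] ℂ}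
    (h : ∀ j m, Tendsto (fun a => Y a j m) l (𝓝 (Y0 j m))) :
    Tendsto (fun a => (d a).dEq pw (Y a)) l (𝓝 (d0.dEq pw Y0)) :=
  (tendsto_pi_nhds.2 fun j => tendsto_pi_nhds.2 fun _ =>
    ((t.tv j trivial _).mul (h j _)).sub ((t.tv j trivial _).mul (h j _))).prodMk_nhds
    (tendsto_pi_nhds.2 fun k => tendsto_pi_nhds.2 fun z => tendsto_finsetSum _ fun j _ =>
      (t.D k z j trivial).mul (h j _))

theorem prod_pow_congr {T : Set J} {β : J → ℕ} (h : ∀ i ∈ T, β i = 0) {y y' : J → ℂ}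
    (e : ∀ i ∉ T, y i = y' i) : ∏ i, y i ^ β i = ∏ i, y' i ^ β i :=
  Finset.prod_congr rfl fun i _ => by
    by_cases a : i ∈ T
    · rw [h i a, pow_zero, pow_zero]
    · rw [e i a]

namespace Ch

variable {ch : Ch ι J} {F : Fam S Λ R J K} {e : K → ι → ℕ} {K₀ : RD R} {ℓ : R → ι → ℤ}
  {T : Set J} {x : ch.WF ν κ Λ} {s : ch.AF ν κ S}

theorem gr_inj {x : ch.W ν} (hx : x ∈ ch.base ν) {n : Option J} {v : ch.E n}
    (h : ∀ z ∈ gr x, z.2 n v = 0) : v = 0 := by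
  obtain ⟨μ, rfl⟩ := hx.1 n v
  exact hx.2.1 n μ fun c ⟨z, hz, b⟩ => b ▸ (hz.2 n μ).symm.trans (h z hz)

theorem tvZ_cancel {c : V ch.M} (h : ∀ i, c i ≠ 0) {j : J} {a b : ℂ}
    (e : a • tvZ (ch := ch) c j = b • tvZ c j) : a = b :=
  let ⟨m, hm⟩ := tvZ_ne (ch := ch) h j
  mul_right_cancel₀ hm (LinearMap.congr_fun e m)

theorem HasWt.cone_smul (hℓ : ch.HasWt F ℓ) (hF : F.Inv) {b : Λ → ℂ} {y : J → ℂ} {t : ι → ℂ}
    (ht : ∀ i, t i ≠ 0) (hy : (b, y) ∈ F.cone) :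
    (b, fun j => (∏ i, t i ^ ch.wd j i) * y j) ∈ F.cone := by
  refine mem_of_eq_of_mem (Prod.ext (F.actL_one _).symm (funext fun j => ?_))
    (hF.cone_act (t := (1, fun r => ∏ i, t i ^ ℓ r i)) (Prod.isUnit_iff.2 ⟨isUnit_one,
      isUnit_pi_iff.2 fun r => prod_zpow_ne ht _⟩) hy)
  simp only [Wt.actT, Pi.one_apply, one_zpow, Finset.prod_const_one, one_mul, wd, hℓ j,
    ← Finset.prod_zpow, ← zpow_mul, zpow_sum_ne (ht _), mul_comm (ℓ _ _)]
  rw [Finset.prod_comm]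

theorem tendsto_P {f : α → ch.P K} {f₀ : ch.P K}
    (h : ∀ z, Tendsto (fun a => evZ z (f a)) l (𝓝 (evZ z f₀))) : Tendsto f l (𝓝 f₀) :=
  (tendsto_pi_nhds.2 fun j => tendsto_pi_nhds.2 fun z =>
    tendsto_pi_nhds.1 (h z).fst_nhds j).prodMk_nhds
    (tendsto_pi_nhds.2 fun k => tendsto_pi_nhds.2 fun z => tendsto_pi_nhds.1 (h z).snd_nhds k)

theorem D_zero {z : ch.Pt} {k : K} {j : J} (h : ∀ β ∈ (F.G k).support, β j = 0) (ζ : ch.Zt) :
    (pd F e x z).D k ζ j = 0 :=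
  (D_eq z k ζ j).trans (Finset.sum_eq_zero fun β a => by simp [h β a])

variable (F e T) in
/-- The differential of the section in the direction of the fields in `T`. -/
noncomputable def dT (x : ch.WF ν κ Λ) : ch.Fm T ch.hf →ₗ[ℂ] ch.P K where
  toFun v := (fun j z => ((pd F e x z).dEq pwT (uZ z v)).1 j,
    fun k z => ((pd F e x z).dEq pwT (uZ z v)).2 k)
  map_add' v w := by simp only [map_add]; rfl
  map_smul' c v := by simp only [map_smul]; rfl

theorem evZ_dT (v : ch.Fm T ch.hf) (z : ch.Pt) :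
    evZ z (dT F e T x v) = (pd F e x z).dEq pwT (uZ z v) := rfl

theorem uZ_not (v : ch.Fm T ch.hf) (z : ch.Pt) {j : J} (h : j ∉ T) : uZ z v j = 0 :=
  LinearMap.ext fun m => (uF_apply _ v j m).trans (by rw [Fm.ex_not v h]; exact map_zero _)

theorem uZ_mem (v : ch.Fm T ch.hf) (z : ch.Pt) {j : J} (h : j ∈ T) (m : ch.Th j) :
    uZ z v j m = z.2 (some j) (v ⟨j, h⟩ m) := (uF_apply _ v j m).trans (by rw [Fm.ex_mem v h])

theorem yv_add (v : ch.Fm T ch.hf) (z : ch.Pt) (j : J) :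
    yv (x + ιF T v).2 z j = yv x.2 z j + uZ z v j :=
  LinearMap.ext fun _ => map_add (z.2 (some j)) _ _

theorem tendsto_uZ {z : α → ch.Pt} {z₀ : ch.Pt} {v : α → ch.Fm T ch.hf} {v₀ : ch.Fm T ch.hf}
    (h1 : Tendsto z l (𝓝 z₀)) (h2 : Tendsto v l (𝓝 v₀)) (j : J) (m : ch.Th j) :
    Tendsto (fun a => uZ (z a) (v a) j m) l (𝓝 (uZ z₀ v₀ j m)) :=
  tendsto_yv (((ιF T : _ →L[ℂ] ch.WF Empty Empty Empty).continuous.tendsto v₀).comp h2) h1 j m

/-- the Taylor expansion of the section -/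
theorem tendsto_dT {y : α → ch.WF ν κ Λ} {z : α → ch.Pt} {z₀ : ch.Pt} {v : α → ch.Fm T ch.hf}
    {c : α → ℂ} {v₀ : ch.Fm T ch.hf} (h1 : Tendsto y l (𝓝 x)) (h2 : Tendsto z l (𝓝 z₀))
    (h3 : Tendsto v l (𝓝 0)) (h4 : Tendsto (fun a => c a • v a) l (𝓝 v₀)) :
    Tendsto (fun a => c a • evZ (z a) (sctF F e (y a + ιF T (v a)) - sctF F e (y a))) l
      (𝓝 (evZ z₀ (dT F e T x v₀))) := by
  let d : α → PD K ch.Zt ch.Th := fun a => ⟨tvZ (z a).1, fun k ζ =>
    dd (F.G k).support (hc F e (y a).1 k ζ (z a).1) (fun j => yv (y a).2 (z a) j (pwT ζ j))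
      fun j => uZ (z a) (v a) j (pwT ζ j), (pd F e (y a) (z a)).tot⟩
  have t : PD.Tends d l (pd F e x z₀) univ :=
    ⟨fun j _ m => tendsto_tvZ h2 j m, fun k ζ j _ => by
      simp only [pd, hp_eq, ← dd_zero]
      exact tendsto_dd (tendsto_hc h1 h2 k ζ) (tendsto_pi_nhds.2 fun j => tendsto_yv h1 h2 j _)
        (tendsto_pi_nhds.2 fun j => (tendsto_uZ h2 h3 j _).trans (by rw [map_zero]; rfl)) j,
      fun k ζ => tendsto_prod_pow h2 ζ _⟩
  refine (t.dEq pwT (tendsto_uZ h2 h4)).congr fun a => ?_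
  rw [map_smul, map_smul, map_sub, evZ_sctF, evZ_sctF]
  refine congrArg _ (Prod.ext (funext₂ fun j m => ?_) (funext₂ fun k ζ => ?_))
  · change kos _ _ m = kos _ _ m - kos _ _ m
    rw [yv_add, kos_add, add_sub_cancel_left]
  · refine eq_sub_of_add_eq' (Eq.trans ?_ (congrArg (fun b => eval _ (hp F e b k ζ _))
      (add_zero (y a).1).symm))
    simp only [yv_add]
    exact (eval_add_plw _ _).symm

theorem dT_mem (h : ch.Fits F e) (x : ch.WF ν κ Λ) (v : ch.Fm T ch.hf) :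
    dT F e T x v ∈ ch.polF F e :=
  isClosed_polS.mem_of_tendsto (b := 𝓝[≠] (0 : ℂ))
    (f := fun ε => ε⁻¹ • (sctF F e (x + ιF T (ε • v)) - sctF F e x))
    (tendsto_P fun z => (tendsto_dT (v := fun ε : ℂ => ε • v) (c := fun ε => ε⁻¹)
      tendsto_const_nhds tendsto_const_nhds
      (tendsto_nhdsWithin_of_tendsto_nhds (Continuous.tendsto' (by fun_prop) _ _ (zero_smul _ _)))
      (tendsto_const_nhds.congr' (eventually_mem_nhdsWithin.mono fun _ a =>
        (inv_smul_smul₀ a v).symm))).congr fun _ => (map_smul _ _ _).symm)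
    (.of_forall fun _ => Submodule.smul_mem _ _ (sub_mem (h.sctF_mem _) (h.sctF_mem _)))

theorem continuous_dT (v : ch.Fm T ch.hf) : Continuous fun x : ch.WF ν κ Λ => dT F e T x v :=
  continuous_iff_continuousAt.2 fun _ => tendsto_P fun _ =>
    (tends_pd tendsto_id tendsto_const_nhds).dEq pwT fun _ _ => tendsto_const_nhds

theorem uZ_ρT (v : ch.Fm T ch.hf) (z : ch.Pt) (j : J) (m : ch.Th j) :
    uZ z (ρT F.toWt T s v) j m = (∏ i, s.1 i ^ F.wt j i) * uZ (zz s z) v j (sub s.2 _ m) := by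
  by_cases a : j ∈ T
  · exact (uZ_mem _ z a m).trans (X_actF (x := ιF T v) z j m)
  · rw [uZ_not _ _ a, uZ_not _ _ a]
    exact (mul_zero _).symm

theorem dT_act (hF : F.Inv) (hs : IsUnit s) (v : ch.Fm T ch.hf) :
    dT F e T (actF F.toWt s x) (ρT F.toWt T s v) = ρF F s (dT F e T x v) := by
  refine P_ext (fun j z m => ?_) fun k z ζ => ?_
  · change val m.2 z.1 * uZ z _ j m.1 - val m.1 z.1 * uZ z _ j m.2 = _ *
      (val (sub s.2 _ m.2) (zz s z).1 * uZ (zz s z) v j (sub s.2 _ m.1) -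
        val (sub s.2 _ m.1) (zz s z).1 * uZ (zz s z) v j (sub s.2 _ m.2))
    rw [uZ_ρT, uZ_ρT, val_zz hs, val_zz hs]
    ring
  · refine (deriv_hmg _ k ζ).symm.trans (Eq.trans ?_ (congrArg (_ * ·)
      (deriv_hmg (z := zz s z) _ k fun i => ζ i ∘L s.2.1 i)))
    rw [← deriv_const_mul_field]
    refine congrArg (deriv · 0) (funext fun ε => ?_)
    rw [hmg_fib, hmg_fib, ← eval_hp_act hF hs]
    refine congrArg (MvPolynomial.eval · _) (funext fun j => ?_)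
    rw [X_actF, uZ_ρT, mul_add, mul_left_comm]
    rfl

variable {X : Type} [TopologicalSpace X] [T2Space X] [CompactSpace X] {Q : RS X}
  {N : Finset (X × X)} {A : ι → LB Q} {π : X → V ch.M} {u : X → ∀ l, ch.E l →L[ℂ] ℂ}
  {p : Mk ν κ → X} {ξ : X → ℂ} (h : ch.Std F e K₀ ℓ) (hx : Cr N A x.2 π u p ξ)
include h hx

theorem Std.D_mem (k : K) (j : J) (ζ : ch.Zt) : (fun y => (pd F e x (π y, u y)).D k ζ j) ∈
    H0 N ((bz A fun i => F.dk ℓ k i + e k i) / bz A fun i => ch.a (some j) i) := by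
  rw [show (fun y => (pd F e x (π y, u y)).D k ζ j) = ∑ β ∈ (F.G k).support,
      (eval x.1 (coeff β (F.G k)) * β j) • ((∏ i, (fun y => u y _ (x.2.X i (pwT ζ i))) ^
        (β - Finsupp.single j 1 : J →₀ ℕ) i) * fun y => val (pw ζ (ch.rst e k β)) (π y)) from
    funext fun y => (D_eq _ k ζ j).trans (by simp [yv])]
  refine Submodule.sum_mem _ fun β hβ => ?_
  by_cases a : β j = 0
  · simp [a]
  have := H0.mul_mem (H0.prod_mem (T := Finset.univ) fun i _ => H0.pow_mem (hx.u_mem _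
    (x.2.X i (pwT ζ i))) ((β - Finsupp.single j 1 : J →₀ ℕ) i))
    (Cv.val_mem hx.par.sec (pw ζ (ch.rst e k β)))
  refine Submodule.smul_mem _ _ ((congrArg (_ ∈ H0 N ·) (eq_div_of_mul_eq' ?_)).mp this)
  rw [mul_right_comm, prod_pow_pred _ a, bz_nk h.inv h.fits h.wt hβ]

/-- **division**: a thickened field given pointwise by its Koszul relations and by one equation is
holomorphic -/
theorem Std.exists_div {w : ch.P K} (hw : w ∈ ch.polF F e) {j : J} {k : K}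
    {Y : X → ch.Th j →ₗ[ℂ] ℂ} (h1 : ∀ y, w.1 j (π y, u y) = kos (tvZ (π y) j) (Y y))
    (h2 : ∀ y ζ, w.2 k (π y, u y) ζ = (pd F e x (π y, u y)).D k ζ j * Y y (pwT ζ j))
    (h3 : ∀ y, ∃ ζ, (pd F e x (π y, u y)).D k ζ j * tvZ (π y) j (pwT ζ j) ≠ 0) :
    ∃ v : ch.Th j →L[ℂ] ch.E (some j), ∀ y μ, u y (some j) (v μ) = Y y μ := by
  have a := (map_polF h.inv h.fits h.wt h.cuts.ne hx).le ⟨w, hw, rfl⟩
  refine exists_lift (v := fun y => (Y y).toContinuousLinearMap) fun μ =>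
    hx.u_surj (h.cuts.ne _) (mem_of_bpf (fun ζ => H0.mul_mem (h.D_mem hx k j ζ)
      (Cv.val_mem hx.par.sec (pwT ζ j))) h3 fun ζ => ?_)
  have b := H0.mul_mem (h.D_mem hx k j ζ) (a.1 j (μ, pwT ζ j))
  have c := H0.mul_mem (Cv.val_mem hx.par.sec μ) (a.2.2.1 k ζ)
  rw [show (bz A fun i => (ch.a (some j) i + ch.b j i : ℤ)) = _ from Cv.bz_add _ _ _,
    mul_left_comm] at b
  rw [mul_comm (bz A _), ← mul_div_cancel (bz A fun i => ch.a (some j) i)
    (bz A fun i => F.dk ℓ k i + e k i), mul_assoc] at c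
  refine mem_of_eq_of_mem (funext fun y => ?_) (add_mem b c)
  change Y y μ * ((pd F e x (π y, u y)).D k ζ j * tvZ (π y) j (pwT ζ j)) =
    (pd F e x (π y, u y)).D k ζ j * w.1 j (π y, u y) (μ, pwT ζ j) +
      tvZ (π y) j μ * w.2 k (π y, u y) ζ
  rw [h1, h2, kos]
  ring

end Ch

end Vale.Agent.P269
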