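import Vale.Agent.P269.Map.Tot
import Vale.Agent.P269.Map.Gy
import Vale.Agent.P287Q.G.Map.E5A
import Vale.Agent.P269.Base.Main

/-!
# Movable fields that are determined by the other fields
-/

set_option linter.unusedSectionVars false

namespace Vale.Agent.P269

open P291Z Set Function Topology Filter Module Vir Base Cv
open MvPolynomial hiding funext

variable {S Λ R J K K' ι ν κ : Type} [Fintype S] [Fintype Λ] [Fintype R] [Fintype J] [Fintype K]
  [Fintype K'] [Fintype ι] [DecidableEq ι] [Fintype ν] [Fintype κ]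

/-- The vanishing base fields `T` of `F` are movable in `F'`, where they are determined by the other
fields. -/
structure Fam.Det (F : Fam S Λ R J K) (F' : Fam S Λ R J K') (T : Set J) (φ : K → K') : Prop where
  wt : F'.toWt = F.toWt
  B : F'.B = F.B
  E : F'.E = F.E
  mov : F'.mov = F.mov ∪ T
  zer : F'.zer = F.zer \ T
  sub : T ⊆ F.zer
  wk : ∀ k, F'.wk (φ k) = F.wk k
  G : ∀ k, F'.G (φ k) = F.G k
  free : ∀ k, ∀ α ∈ (F.G k).support, ∀ j ∈ T, α j = 0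
  det : ∀ j ∈ T, ∃ k a h, F'.G k = a * X j - h ∧ (∀ α ∈ a.support, ∀ i ∈ T, α i = 0) ∧
    (∀ α ∈ h.support, ∀ i ∈ T, α i = 0) ∧
      ∀ z ∈ F'.cone, eval z.2 (MvPolynomial.map (eval z.1) a) ≠ 0
  down : ∀ z ∈ F'.cone, ∀ y : J → ℂ, (∀ j ∈ T, y j = 0) → (∀ j ∉ T, y j = z.2 j) →
    (z.1, y) ∈ F.cone
  up : ∀ z ∈ F.cone, ∃ y : J → ℂ, (∀ j ∉ T, y j = z.2 j) ∧ (z.1, y) ∈ F'.cone
  tan : ∀ z ∈ F'.cone, ∀ η : J → ℂ, (∀ j ∉ F.mov, η j = 0) →
    (∀ k, ∑ j, F'.jac z (φ k) j * η j = 0) →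
    ∃ η' : J → ℂ, (∀ j ∉ T, η' j = η j) ∧ ∀ k, ∑ j, F'.jac z k j * η' j = 0

/-- The equation `k` determines the field `j`. -/
structure Fam.Dq (F : Fam S Λ R J K) (T : Set J) (j : J) (k : K) : Prop where
  sup : ∀ β ∈ (F.G k).support, ∀ i ∈ T, i ≠ j → β i = 0
  jac : ∀ l y y', (∀ i ∉ T, y i = y' i) → F.jac (l, y) k j = F.jac (l, y') k j
  eqn : ∀ l y y', (∀ i ∉ T, y i = y' i) →
    F.eqn (l, y) k - F.eqn (l, y') k = F.jac (l, y) k j * (y j - y' j)
  ne : ∀ z ∈ F.cone, F.jac z k j ≠ 0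

theorem Fam.Det.dq {F : Fam S Λ R J K} {F' : Fam S Λ R J K'} {T : Set J} {φ : K → K'}
    (h : F.Det F' T φ) {j : J} (hj : j ∈ T) : ∃ k, F'.Dq T j k := by
  classical
  obtain ⟨k, a, b, h1, h2, h3, h4⟩ := h.det j hj
  have c : ∀ {f : MvPolynomial J (MvPolynomial Λ ℂ)}, (∀ α ∈ f.support, ∀ i ∈ T, α i = 0) →
      ∀ l : Λ → ℂ, pderiv j (MvPolynomial.map (eval l) f) = 0 ∧ ∀ y y', (∀ i ∉ T, y i = y' i) →
        eval y (MvPolynomial.map (eval l) f) = eval y' (MvPolynomial.map (eval l) f) :=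
    fun hf l => ⟨pderiv_eq_zero_of_notMem_vars fun a =>
      let ⟨d, b, c⟩ := (mem_vars_iff_mem_support _).1 a
      Finsupp.mem_support_iff.1 c (hf d (support_map_subset _ _ b) j hj), fun y y' e => by
        rw [eval_eq', eval_eq']
        exact Finset.sum_congr rfl fun β hβ =>
          congrArg _ (prod_pow_congr (hf β (support_map_subset _ _ hβ)) e)⟩
  have d : ∀ z, F'.jac z k j = eval z.2 (MvPolynomial.map (eval z.1) a) := fun z => by
    simp [Fam.jac, Fam.fib, h1, (c h2 _).1, (c h3 _).1]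
  refine ⟨k, fun β hβ i hi e => by_contra fun f => mem_support_iff.1 hβ ?_,
    fun l y y' e => by rw [d, d]; exact (c h2 l).2 y y' e, fun l y y' e => ?_,
    fun z hz => d z ▸ h4 z hz⟩
  · rw [h1, coeff_sub, notMem_support_iff.1 fun g => f (h3 β g i hi), sub_zero, coeff_mul_X']
    refine ite_eq_right_iff.2 fun _ => notMem_support_iff.1 fun g => f ?_
    simpa [e.symm] using h2 _ g i hi
  · simp only [d, Fam.eqn, Fam.fib, h1, map_sub, map_mul, map_X, eval_X, (c h2 l).2 y y' e,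
      (c h3 l).2 y y' e]
    ring

theorem Fam.Dq.val {F : Fam S Λ R J K} {T : Set J} {j : J} {k : K} (h : F.Dq T j k) (hj : j ∈ T)
    {l : Λ → ℂ} {y : J → ℂ} (hy : (l, y) ∈ F.cone) : F.jac (l, zc T y) k j ≠ 0 ∧
      y j = -F.eqn (l, zc T y) k / F.jac (l, zc T y) k j := by
  have a := (h.jac l _ y fun _ => zc_not y).trans_ne (h.ne _ hy)
  have b := h.eqn l _ y fun _ => zc_not y
  rw [(F.mem_cone.1 hy).2.2, zc_mem y hj] at b
  exact ⟨a, eq_div_of_mul_eq a (by linear_combination b)⟩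

theorem Vir.tendsto_clm_pt {α E E' : Type} [NormedAddCommGroup E] [NormedSpace ℂ E]
    [NormedAddCommGroup E'] [NormedSpace ℂ E'] [FiniteDimensional ℂ E] [FiniteDimensional ℂ E']
    {l : Filter α} {X : α → E →L[ℂ] E'} {X₀ : E →L[ℂ] E'}
    (h : ∀ μ, Tendsto (fun a => X a μ) l (𝓝 (X₀ μ))) : Tendsto X l (𝓝 X₀) :=
  (LinearMap.isClosedEmbedding_of_injective
    (f := LinearMap.pi fun μ => (ContinuousLinearMap.apply ℂ E' μ).toLinearMap)
    (LinearMap.ker_eq_bot.2 fun _ _ e =>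
      ContinuousLinearMap.ext (congrFun e))).isEmbedding.tendsto_nhds_iff.2 (tendsto_pi_nhds.2 h)

namespace Ch

variable {ch : Ch ι J} {T : Set J} {x : ch.WF ν κ Λ} {W : Wt S Λ R J}

theorem kill_X {j : J} (h : j ∉ T) : (zr T x).2.X j = x.2.X j := zr_X_not x h

theorem kill_X' {j : J} (h : j ∈ T) : (zr T x).2.X j = 0 := zr_X_mem x h

theorem kill_eq (h : ∀ j ∈ T, x.2.X j = 0) : zr T x = x :=
  Prod.ext rfl (W.ext (fun _ => rfl) (fun _ => rfl) rfl fun j => by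
    by_cases a : j ∈ T
    exacts [(kill_X' a).trans (h j a).symm, kill_X a])

theorem continuous_kill : Continuous (zr T : ch.WF ν κ Λ → _) := (zr T).continuous

theorem kill_actF (s : ch.AF ν κ S) : zr T (actF W s x) = actF W s (zr T x) := zr_actF x W s

theorem fld_kill {j : J} (h : j ∉ T) (c : V ch.M) : fld (zr T x).2 c j = fld x.2 c j :=
  fld_mk' (if_neg h) c

open Classical in
theorem zr_scl : zr T x = (x.1, scl (fun j => if j ∈ T then 0 else 1) x.2) :=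
  Prod.ext rfl (W.ext (fun _ => rfl) (fun _ => rfl) rfl fun j => by
    by_cases a : j ∈ T
    · exact (kill_X' a).trans (ContinuousLinearMap.ext fun _ => by simp [a])
    · exact (kill_X a).trans (by simp [a]))

theorem yv_zr (z : ch.Pt) {j : J} (h : j ∉ T) : yv (zr T x).2 z j = yv x.2 z j := by
  rw [yv, kill_X h, yv]

theorem yv_zr' (z : ch.Pt) {j : J} (h : j ∈ T) : yv (zr T x).2 z j = 0 :=
  LinearMap.ext fun m => by simp [yv, kill_X' h]

/-- the dimension of the base need not be known -/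
theorem KD.IsW.unique' {A W P : Type} [NormedRing A] [NormedAlgebra ℂ A] [NormedAddCommGroup W]
    [NormedSpace ℂ W] [AddCommGroup P] [Module ℂ P] [TopologicalSpace P] [IsTopologicalAddGroup P]
    [ContinuousSMul ℂ P] [T2Space P] [FiniteDimensional ℂ A] [FiniteDimensional ℂ W]
    {act : A → W → W} {Z S : Set W} {D : KD A W P} {d d' : ℕ} {v v' : BM (Quo act Z)}
    (hv : D.IsW act Z S d v) (hv' : D.IsW act Z S d' v') : v = v' := by
  rcases Z.eq_empty_or_nonempty with rfl | ⟨x, hx⟩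
  · have : IsEmpty (Quo act ∅) := ⟨fun z => z.out.2⟩
    exact Orb.BM_eq_of_isEmpty _ _
  obtain ⟨O, _, _, a, ⟨U, b, rfl⟩, c, -⟩ := id hv
  obtain ⟨O', _, _, a', ⟨U', b', rfl⟩, c', -⟩ := id hv'
  have f := a.dom.sub hx
  have f' := a'.dom.sub hx
  obtain rfl : d = d' := Nat.add_left_cancel (((c x f).inter' b' f'.2).unique
    (inter_right_comm S U' U ▸ (c' x f').inter' b f.2))
  exact hv.unique hv'

variable {F : Fam S Λ R J K} {F' : Fam S Λ R J K'} {φ : K → K'} {e : K' → ι → ℕ} {K₀ : RD R}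
  {K₀' : RD R} {ℓ : R → ι → ℤ} {S₀ : Set (ch.WF ν κ Λ)} {u : ν → J → ℕ} {z : ch.Pt}

/-- the standard domain over a base `S₀` -/
theorem Std.reg' (h : ch.Std F' e K₀' ℓ) (hA : S₀ ⊆ ch.adm ν κ F') (hi : Ivt (actF F'.toWt) S₀)
    (hl : IsLocallyClosed S₀) : ∃ n, (ch.kd ν κ F' e).Reg (actF F'.toWt) (ch.solF ν κ F' ∩ S₀) S₀
      (S₀ ∩ ch.dom ν κ F' e) n (ch.rk F' ℓ K₀').toNat := by
  obtain ⟨n, a⟩ := h.ok (ν := ν) (κ := κ)
  obtain ⟨U, b, c⟩ := h.dom_open (ν := ν) (κ := κ)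
  have d : S₀ ∩ ch.dom ν κ F' e = S₀ ∩ U := by rw [c, ← inter_assoc, inter_eq_left.2 hA]
  exact ⟨n, fun x hx => ⟨hx.2, mem_dom hx.1 (hA hx.2)⟩, ⟨U, b, d⟩,
    fun s hs x hx => ⟨hi s hs x hx.1, actF_mem_dom h.inv hs hx.2⟩, d ▸ hl.inter b.isLocallyClosed,
    fun x hx => (h.zero hx.2).trans (and_iff_left hx.1).symm, a.mono inter_subset_right⟩

theorem _root_.Vale.Agent.P269.Fam.Dq.dEq {j : J} {k : K'} (h : F'.Dq T j k)
    {Y : ∀ j, ch.Th j →ₗ[ℂ] ℂ} (hY : ∀ i ∉ T, Y i = 0) (ζ : ch.Zt) :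
    ((pd F' e x z).dEq pwT Y).2 k ζ = (pd F' e x z).D k ζ j * Y j (pwT ζ j) :=
  Finset.sum_eq_single j (fun i _ a => by
    by_cases b : i ∈ T
    · rw [D_zero fun β c => h.sup β c i b a, zero_mul]
    · rw [hY i b]
      exact mul_zero _) (by simp)

omit [Fintype K] in
theorem BT_mem (f : ch.P K') {j : J} (h : j ∈ T) : (BT T φ f).1 j = 0 := if_pos h

omit [Fintype K] in
theorem BT_not (f : ch.P K') {j : J} (h : j ∉ T) : (BT T φ f).1 j = f.1 j := if_neg h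

open Classical in
/-- The fields in `T` are replaced by zero. -/
noncomputable def zY (T : Set J) (Y : ∀ j, ch.Th j →ₗ[ℂ] ℂ) (j : J) : ch.Th j →ₗ[ℂ] ℂ :=
  if j ∈ T then 0 else Y j

theorem zY_mem (Y : ∀ j, ch.Th j →ₗ[ℂ] ℂ) {j : J} (h : j ∈ T) : zY T Y j = 0 := if_pos h

theorem zY_not (Y : ∀ j, ch.Th j →ₗ[ℂ] ℂ) {j : J} (h : j ∉ T) : zY T Y j = Y j := if_neg h

variable (F' T) in
/-- The fields in `T` of the solution over a point. -/
noncomputable def ζT (y : ch.WF ν κ Λ) : ch.Fm T ch.hf :=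
  qF T (invFunOn (zr T) (ch.solF ν κ F') y)

variable (h : F.Det F' T φ)
include h

theorem det_not {j : J} : j ∉ F'.mov ↔ j ∉ F.mov ∧ j ∉ T := by rw [h.mov, mem_union, not_or]

theorem det_adm (hF : F'.Inv) : x ∈ ch.adm ν κ F' ↔ zr T x ∈ ch.adm ν κ F := by
  refine ⟨fun ⟨a, b, c, d, f⟩ => ⟨h.B ▸ a, fun j hj y hy => ?_, fun y hy => h.E ▸ hF.baseE _ _ _
    (fun j hj => (fld_kill ((det_not h).1 hj).2 y).symm) (c y hy), fun j hj => ?_, fun j hj q => ?_⟩,
    fun ⟨a, b, c, d, f⟩ => ⟨h.B.symm ▸ a, fun j hj y hy => ?_, fun y hy => hF.baseE _ _ _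
      (fun j hj => fld_kill ((det_not h).1 hj).2 y) (h.E.symm ▸ c y hy), fun j hj => ?_,
      fun j hj q => ?_⟩⟩
  · by_cases g : j ∈ T
    · exact ⟨0, fun v _ μ => by simp [kill_X' g]⟩
    · exact val_zr x g ▸ b j ((det_not h).2 ⟨hj, g⟩) y hy
  · by_cases g : j ∈ T
    exacts [kill_X' g, (kill_X g).trans (d j (h.zer.ge ⟨hj, g⟩))]
  · by_cases g : j ∈ T
    · exact (fld_of_zero (x := (zr T x).2) (a.2.1.2.2.2.1 _).1 (kill_X' g)).trans
        (fld_of_zero (x := (zr T x).2) (a.2.1.2.2.2.1 _).1 (kill_X' g)).symm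
    · exact (fld_kill g _).trans ((f j ((det_not h).2 ⟨hj, g⟩) q).trans (fld_kill g _).symm)
  · exact val_zr x ((det_not h).1 hj).2 ▸ b j ((det_not h).1 hj).1 y hy
  · exact (kill_X (h.zer.le hj).2).symm.trans (d j (h.zer.le hj).1)
  · obtain ⟨g, g'⟩ := (det_not h).1 hj
    exact (fld_kill g' _).symm.trans ((f j g q).trans (fld_kill g' _))

theorem det_main (hF : F'.Inv) : x ∈ ch.main κ F' u ↔ zr T x ∈ ch.main κ F u :=
  and_congr (det_adm h hF) ⟨fun a j b c γ d =>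
    have g : j ∉ T := fun g => c (h.sub g)
    (congrArg (analyticOrderAt · 0) (funext fun _ => fld_kill g _)).trans
      (a j ((det_not h).2 ⟨b, g⟩) (fun f => c (h.zer.le f).1) γ d), fun a j b c γ d =>
    have g := (det_not h).1 b
    (congrArg (analyticOrderAt · 0) (funext fun _ => fld_kill g.2 _)).symm.trans
      (a j g.1 (fun f => c (h.zer.ge ⟨f, g.2⟩)) γ d)⟩

theorem det_maps : MapsTo (zr T) (ch.solF ν κ F') (ch.solF ν κ F) := fun x hx =>
  ⟨h.B ▸ hx.1, hx.2.1, fun z hz =>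
    let ⟨y, a, b⟩ := exists_cone hx hz
    ⟨zc T y, (h.down _ a _ (fun _ => zc_mem y) fun _ => zc_not y).2, fun j μ => by
      by_cases g : j ∈ T
      · simp [kill_X' g, zc_mem y g]
      · rw [kill_X g, zc_not y g]
        exact LinearMap.congr_fun (b j) μ⟩⟩

theorem det_eqM (S₀ : Set (ch.WF ν κ Λ)) : EqM (actF F.toWt) (actF F.toWt)
    (ch.solF ν κ F' ∩ zr T ⁻¹' S₀) (ch.solF ν κ F ∩ S₀) id (zr T) :=
  .same (fun _ a => ⟨det_maps h a.1, a.2⟩) continuous_kill.continuousOn fun s _ _ _ => kill_actF s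

theorem det_D (k : K) (ζ : ch.Zt) (j : J) :
    (pd F' e x z).D (φ k) ζ j = (pd F (fun k => e (φ k)) (zr T x) z).D k ζ j := by
  rw [D_eq, D_eq, h.G]
  exact Finset.sum_congr rfl fun β a => congrArg (_ * ·) (congrArg (· * _) (prod_pow_congr
    (fun i b => by simp [h.free k β a i b]) fun i b => by rw [yv_zr z b]))

theorem det_dEq (Y : ∀ j, ch.Th j →ₗ[ℂ] ℂ) (k : K) (ζ : ch.Zt) :
    ((pd F' e x z).dEq pwT Y).2 (φ k) ζ = ((pd F' e x z).dEq pwT (zY T Y)).2 (φ k) ζ :=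
  Finset.sum_congr rfl fun j _ => by
    by_cases a : j ∈ T
    · rw [D_zero fun β b => h.free k β (h.G k ▸ b) j a, zero_mul, zero_mul]
    · rw [zY_not Y a]

theorem det_pol {w : ch.P K'} (hw : w ∈ ch.polF F' e) :
    BT T φ w ∈ ch.polF F fun k => e (φ k) :=
  mem_polS.2 ⟨fun j => by
    by_cases a : j ∈ T
    · exact mem_of_eq_of_mem (BT_mem w a) (zero_mem _)
    · exact mem_of_eq_of_mem (BT_not w a) ((mem_polS.1 hw).1 j), fun k => Submodule.span_mono (by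
      rintro _ ⟨β, a, b⟩
      exact ⟨β, (congrArg (β ∈ MvPolynomial.support ·) (h.G k)).mp a, b⟩) ((mem_polS.1 hw).2 (φ k))⟩

theorem det_lin (O : Set (ch.WF ν κ Λ)) :
    (ch.kd ν κ F' e).Lin (ch.kd ν κ F fun k => e (φ k)) id (zr T) O (BT T φ) := by
  refine ⟨fun _ => det_pol h, fun s _ w _ => P_ext (fun j z m => ?_) fun k z ζ => ?_,
    fun x _ w hw => mem_vanM.2 ⟨det_pol h hw.1, fun z hz => ?_⟩,
    fun x _ => mem_of_eq_of_mem (sub_eq_zero.2 (P_ext (fun j z m => ?_) fun k z ζ => ?_))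
      (zero_mem _), fun x _ _ w hw => mem_obsM.2 ⟨det_pol h hw.1, fun z hz => ?_⟩⟩
  · change (BT T φ (ρF F' s w)).1 j z m = (ρF F s (BT T φ w)).1 j z m
    by_cases a : j ∈ T
    · rw [ρF_fst, BT_mem _ a, BT_mem _ a]
      exact (mul_zero _).symm
    · rw [ρF_fst, BT_not _ a, BT_not _ a, ρF_fst, h.wt]
  · exact (ρF_snd s w _ z ζ).trans (h.wk k ▸ rfl)
  · have b := ((mem_vanM (x := x)).1 hw).2 z hz
    refine Prod.ext (funext fun j => ?_) (funext fun k => congrFun (congrArg Prod.snd b) (φ k))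
    by_cases a : j ∈ T
    · exact congrFun (BT_mem (φ := φ) w a) z
    · exact (congrFun (BT_not (φ := φ) w a) z).trans (congrFun (congrArg Prod.fst b) j)
  · change (BT T φ (sctF F' e x)).1 j z m = kos (tvZ z.1 j) (yv (zr T x).2 z j) m
    by_cases a : j ∈ T
    · rw [BT_mem _ a, yv_zr' z a, kos_zero]
      rfl
    · rw [BT_not _ a, yv_zr z a]
      rfl
  · refine (sctF_snd x _ z ζ).trans (Eq.trans ?_ (sctF_snd _ k z ζ).symm)
    rw [eval_hp, eval_hp, h.G]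
    exact Finset.sum_congr rfl fun β a => congrArg (· * _) (congrArg (_ * ·) (prod_pow_congr
      (h.free k β a) fun i b => by rw [kill_X b]))
  · obtain ⟨Y, a, b⟩ := PD.mem_Im.1 (((mem_obsM (x := x)).1 hw).2 z hz)
    refine PD.mem_Im.2 ⟨zY T Y, fun j hj => ?_, Prod.ext (funext fun j => ?_)
      (funext₂ fun k ζ => ?_)⟩
    · by_cases c : j ∈ T
      exacts [zY_mem Y c, (zY_not Y c).trans (a j ((det_not h).2 ⟨hj, c⟩))]
    · change kos _ (zY T Y j) = (BT T φ w).1 j z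
      by_cases c : j ∈ T
      · rw [zY_mem Y c, BT_mem w c]
        exact funext kos_zero
      · rw [zY_not Y c, BT_not w c]
        exact congrFun (congrArg Prod.fst b) j
    · exact (Finset.sum_congr rfl fun j _ => congrArg (· * _) (det_D h k ζ j).symm).trans
        ((det_dEq h Y k ζ).symm.trans (congrFun (congrFun (congrArg Prod.snd b) _) ζ))

theorem det_injOn : InjOn (zr T) (ch.solF ν κ F') := fun x hx x' hx' a => by
  have b : ∀ j ∉ T, x.2.X j = x'.2.X j := fun j c =>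
    (kill_X c).symm.trans ((congrArg (·.2.X j) a).trans (kill_X c))
  have c : x.1 = x'.1 := (congrArg Prod.fst a :)
  refine Prod.ext c (W.ext (fun l => (congrArg (·.2.Q l) a :)) (fun n => (congrArg (·.2.p n) a :))
    (congrArg (·.2.Ξ) a :) fun j => by_contra fun f => f ?_)
  have hj : j ∈ T := by_contra fun g => f (b j g)
  obtain ⟨k, d⟩ := h.dq hj
  refine ContinuousLinearMap.ext fun μ => sub_eq_zero.1 (gr_inj hx.2.1 fun z hz => ?_)
  obtain ⟨y, a1, a2⟩ := exists_cone hx hz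
  obtain ⟨y', b1, b2⟩ := exists_cone hx' ((congrArg (gr ·.2) a).le hz)
  have g := d.eqn x.1 y y' fun i hi => tvZ_cancel hz.1
    ((a2 i).symm.trans (Eq.trans (by rw [yv, yv, b i hi]) (b2 i)))
  rw [(F'.mem_cone.1 a1).2.2, (F'.mem_cone.1 (c ▸ b1)).2.2, sub_self] at g
  rw [map_sub, sub_eq_zero]
  exact (LinearMap.congr_fun (a2 j) μ).trans ((congrArg (· * _) (sub_eq_zero.1
    ((mul_eq_zero.1 g.symm).resolve_left (d.ne _ a1)))).trans (LinearMap.congr_fun (b2 j) μ).symm)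

theorem det_zero (hx : x ∈ ch.solF ν κ F) {j : J} (hj : j ∈ T) : x.2.X j = 0 :=
  ContinuousLinearMap.ext fun μ => gr_inj hx.2.1 fun _ hz =>
    let ⟨_, a, b⟩ := hx.2.2 _ hz
    (b j μ).trans (mul_eq_zero_of_left (a.1.2.2 j (h.sub hj)) _)

theorem det_rel (hf : ch.Fits F' e) {y : J → ℂ} (hy : ∀ j, yv x.2 z j = y j • tvZ z.1 j) (k : K')
    (ζ : ch.Zt) {j : J} (hj : j ∈ T) : (pd F' e x z).D k ζ j * tvZ z.1 j (pwT ζ j) =
      F'.jac (x.1, y) k j * ∏ i, ζ i (z.1 i) ^ e k i := hf.rel hy k ζ j (h.mov.ge (Or.inr hj))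

theorem det_ne (hf : ch.Fits F' e) (hz : ∀ i, z.1 i ≠ 0) {y : J → ℂ}
    (hy : ∀ j, yv x.2 z j = y j • tvZ z.1 j) {k : K'} {j : J} (hj : j ∈ T)
    (hk : F'.jac (x.1, y) k j ≠ 0) : ∃ ζ, (pd F' e x z).D k ζ j * tvZ z.1 j (pwT ζ j) ≠ 0 :=
  (exists_Zt hz).imp fun ζ a => by simpa [det_rel h hf hy k ζ hj, a] using hk

theorem det_surjOn (hs : ch.Std F' e K₀' ℓ) :
    SurjOn (zr T) (ch.solF ν κ F') (ch.solF ν κ F) := fun x hx => by
  classical
  obtain ⟨X, _, _, _, Q, N, A, π, u, p, ξ, hc⟩ := exists_cr hx.1.2.1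
  choose y a1 a2 using fun t => exists_cone hx (hc.gr t)
  choose y' b1 b2 using fun t => h.up _ (a1 t)
  have c : ∀ j, ∃ v : ch.Th j →L[ℂ] ch.E (some j), (j ∉ T → v = x.2.X j) ∧
      ∀ t μ, u t (some j) (v μ) = y' t j * val μ (π t) := fun j => by
    by_cases hj : j ∈ T
    swap
    · exact ⟨_, fun _ => rfl, fun t μ => b1 t j hj ▸ LinearMap.congr_fun (a2 t j) μ⟩
    obtain ⟨k, d⟩ := h.dq hj
    have f := fun t => hs.fits.evZ_sctF (e := e) (a2 t)
    refine (hs.exists_div hc (neg_mem (hs.fits.sctF_mem x)) (k := k)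
      (Y := fun t => y' t j • tvZ (π t) j) (fun t => funext fun m => ?_) (fun t ζ => ?_)
      fun t => det_ne h hs.fits (hc.gr t).1 (a2 t) hj
        ((d.jac _ _ _ (b1 t)).symm.trans_ne (d.ne _ (b2 t)))).imp fun _ g => ⟨fun f => absurd hj f, g⟩
    · exact (neg_eq_zero.2 (congrFun (congrFun (congrArg Prod.fst (f t)) j) m)).trans
        (kos_self _ _).symm
    · have g := d.eqn x.1 (y t) _ fun i hi => (b1 t i hi).symm
      rw [(F'.mem_cone.1 (b2 t)).2.2, sub_zero,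
        show y t j = 0 from (a1 t).2.1.2.2 j (h.sub hj)] at g
      rw [LinearMap.smul_apply, smul_eq_mul, mul_left_comm, det_rel h hs.fits (a2 t) k ζ hj]
      refine (congrArg Neg.neg (congrFun (congrFun (congrArg Prod.snd (f t)) k) ζ)).trans ?_
      simp only [g]
      ring
  choose v c1 c2 using c
  refine ⟨(x.1, W.mk' x.2.Q x.2.p x.2.Ξ v), ⟨h.B.symm ▸ hx.1, (hc.setX v).mem_sol.2
    ⟨fun j t => y' t j, c2, fun t s a => (hs.wt.cone_smul hs.inv a (b2 t)).2⟩⟩,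
    Prod.ext rfl (W.ext (fun _ => rfl) (fun _ => rfl) rfl fun j => ?_)⟩
  by_cases hj : j ∈ T
  exacts [(kill_X' hj).trans (det_zero h hx hj).symm, (kill_X hj).trans (c1 j hj)]

theorem det_inj (hf : ch.Fits F' e) (hx : x ∈ ch.solF ν κ F') (v : ch.Fm T ch.hf)
    (hv : dT F' e T x v ∈ vanM F' e x) : v = 0 :=
  funext fun j => ContinuousLinearMap.ext fun μ => gr_inj hx.2.1 fun z hz => by
    obtain ⟨y, a1, a2⟩ := exists_cone hx hz
    obtain ⟨k, d⟩ := h.dq j.2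
    obtain ⟨ζ, b⟩ := det_ne h hf hz.1 a2 j.2 (d.ne _ a1)
    obtain ⟨m, hm⟩ := tvZ_ne (ch := ch) hz.1 j.1
    have c := (mem_vanM.1 hv).2 z hz
    have f := eq_of_kos (Y := uZ z v j) hm fun n => congrFun (congrFun (congrArg Prod.fst c) j) _
    have g := (d.dEq (fun i => uZ_not v z) ζ).symm.trans
      (congrFun (congrFun (congrArg Prod.snd c) k) ζ)
    rw [f, LinearMap.smul_apply, smul_eq_mul, mul_left_comm] at g
    rw [(mul_eq_zero.1 g).resolve_right b, zero_smul] at f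
    exact (uZ_mem v z j.2 μ).symm.trans (LinearMap.congr_fun f μ)

theorem det_pt (hf : ch.Fits F' e) (hx : x ∈ ch.solF ν κ F') (hz : z ∈ gr x.2) {w : ch.P K'}
    (hw : w ∈ obsM F' e x) (h0 : evZ z (BT T φ w) = 0) :
    ∃ Y, (∀ j ∉ T, Y j = 0) ∧ (pd F' e x z).dEq pwT Y = evZ z w := by
  obtain ⟨y, a1, a2⟩ := exists_cone hx hz
  obtain ⟨Y, b1, b2⟩ := PD.mem_Im.1 ((mem_obsM.1 hw).2 z hz)
  obtain ⟨η, c1, c2⟩ := PD.exists_eta (d := pd F' e x z) (pw := pwT) (mov := F.mov) (Y := zY T Y)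
    (fun j _ => tvZ_ne hz.1 j) (fun j hj => by
      by_cases c : j ∈ T
      exacts [zY_mem Y c, (zY_not Y c).trans (b1 j ((det_not h).2 ⟨hj, c⟩))]) (funext fun j => by
      change kos _ (zY T Y j) = 0
      by_cases c : j ∈ T
      · rw [zY_mem Y c]
        exact funext kos_zero
      · rw [zY_not Y c]
        exact (congrFun (congrArg Prod.fst b2) j).trans ((congrFun (BT_not (φ := φ) w c) z).symm.trans
          (congrFun (congrArg Prod.fst h0) j)))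
  obtain ⟨ζ, d⟩ := exists_Zt (ch := ch) hz.1
  obtain ⟨η', f1, f2⟩ := h.tan _ a1 η c1 fun k => by
    have := (det_dEq h Y k ζ).symm.trans ((congrFun (congrFun (congrArg Prod.snd b2) _) ζ).trans
      (congrFun (congrFun (congrArg Prod.snd h0) k) ζ))
    rw [c2, (hf.rel a2).dEq_tv fun j hj => c1 j ((det_not h).1 hj).1] at this
    simpa [PD.nrm, pd, d] using this
  refine ⟨Y - fun j => η' j • (pd F' e x z).tv j, fun j hj => sub_eq_zero.2 ?_, ?_⟩
  · exact (zY_not Y hj).symm.trans ((congrFun c2 j).trans (congrArg (· • _) (f1 j hj).symm))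
  · rw [map_sub, (hf.rel a2).dEq_tv fun j hj => (f1 j ((det_not h).1 hj).2).trans
      (c1 j ((det_not h).1 hj).1), funext f2, b2]
    exact sub_eq_self.2 (map_zero _)

theorem det_ker (hs : ch.Std F' e K₀' ℓ) (hx : x ∈ ch.solF ν κ F') {w : ch.P K'}
    (hw : w ∈ obsM F' e x) (h0 : BT T φ w ∈ vanM F (fun k => e (φ k)) (zr T x)) :
    ∃ v, w - dT F' e T x v ∈ vanM F' e x := by
  obtain ⟨X, _, _, _, Q, N, A, π, u, p, ξ, hc⟩ := exists_cr hx.1.2.1
  choose Y a b using fun t => det_pt h hs.fits hx (hc.gr t) hw ((mem_vanM.1 h0).2 _ (hc.gr t))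
  have c : ∀ j : T, ∃ v : ch.Th j →L[ℂ] ch.E (some j), ∀ t μ, u t (some j) (v μ) = Y t j μ :=
    fun j =>
      let ⟨k, d⟩ := h.dq j.2
      hs.exists_div hc hw.1 (k := k) (fun t => (congrFun (congrArg Prod.fst (b t)) j).symm)
        (fun t ζ => (congrFun (congrFun (congrArg Prod.snd (b t)) k) ζ).symm.trans (d.dEq (a t) ζ))
        fun t =>
          let ⟨_, f, g⟩ := exists_cone hx (hc.gr t)
          det_ne h hs.fits (hc.gr t).1 g j.2 (d.ne _ f)
  choose v c using c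
  refine ⟨v, (mem_vanM_iff hs.inv hs.fits hc).2 ⟨sub_mem hw.1 (dT_mem hs.fits x v),
    ext_evG fun t => ?_⟩⟩
  rw [evG_resC, map_sub, ← b t, map_zero, sub_eq_zero]
  refine congrArg ((pd F' e x (π t, u t)).dEq pwT) (funext fun j => ?_)
  by_cases hj : j ∈ T
  · exact LinearMap.ext fun μ => (c ⟨j, hj⟩ t μ).symm.trans (uZ_mem (z := (π t, u t)) v hj μ).symm
  · exact (a t j hj).trans (uZ_not _ _ hj).symm

/-- the fields in `T` of a solution depend continuously on the other data -/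
theorem det_tendsto (hc : ch.Cuts) {α : Type} {l : Filter α} {y : α → ch.WF ν κ Λ}
    (hy : ∀ᶠ a in l, y a ∈ ch.solF ν κ F') (hx : x ∈ ch.solF ν κ F')
    (h1 : Tendsto (fun a => zr T (y a)) l (𝓝 (zr T x))) :
    Tendsto (fun a => qF T (y a)) l (𝓝 (qF T x)) := by
  refine tendsto_pi_nhds.2 fun j => ?_
  obtain ⟨k, d⟩ := h.dq j.2
  refine tendsto_clm_pt fun μ => tendsto_of_tests (u₀ := fun z : gr x.2 => z.1.2 (some j))
    (fun _ a => gr_inj hx.2.1 fun z b => a ⟨z, b⟩) fun z₀ => ?_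
  obtain ⟨z, a, b⟩ := hc.exists_gr (x := fun a => (zr T (y a)).2) (x₀ := (zr T x).2)
    (hy.mono fun _ a => a.2.1) hx.2.1 h1.snd_nhds z₀.2
  obtain ⟨c₀, c1, c2⟩ := exists_cone hx z₀.2
  obtain ⟨c, f⟩ := skolem.1 ((hy.and a).mono fun _ c => exists_cone c.1 c.2)
  have g : ∀ {x : ch.WF ν κ Λ} {z : ch.Pt} {c : J → ℂ}, (∀ i, yv x.2 z i = c i • tvZ z.1 i) →
      ∀ i, yv (zr T x).2 z i = zc T c i • tvZ z.1 i := fun a i => by
    by_cases b : i ∈ T
    · rw [yv_zr' _ b, zc_mem _ b, zero_smul]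
    · rw [yv_zr _ b, zc_not _ b, a]
  have t := tendsto_coef h1 b z₀.2.1 (f.mono fun _ a => g a.2) (g c2)
  have t' := ((((Fam.continuous_eqn (F := F') k).tendsto _).comp t).neg.div
    (((Fam.continuous_jac (F := F') k j).tendsto _).comp t) (d.val j.2 c1).1).mul
      (tendsto_tvZ b j μ)
  refine ⟨fun a => (z a).2 (some j), tendsto_pi_nhds.1 b.snd_nhds _, ?_⟩
  rw [show z₀.1.2 (some j) (qF T x j μ) = _ from LinearMap.congr_fun (c2 j) μ, (d.val j.2 c1).2]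
  exact t'.congr' (f.mono fun _ a => (congrArg (· * _) (d.val j.2 a.1).2.symm).trans
    (LinearMap.congr_fun (a.2 j) μ).symm)

theorem det_bij (hs : ch.Std F' e K₀' ℓ) : BijOn (zr T) (ch.solF ν κ F') (ch.solF ν κ F) :=
  ⟨det_maps h, det_injOn h, det_surjOn h hs⟩

theorem det_ζ (hx : x ∈ ch.solF ν κ F') : ζT T F' (zr T x) = qF T x :=
  congrArg (qF T) ((det_injOn h).leftInvOn_invFunOn hx)

theorem det_lift (hs : ch.Std F' e K₀' ℓ) (hx : zr T x ∈ ch.solF ν κ F) :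
    zr T x + ιF T (ζT T F' (zr T x)) ∈ ch.solF ν κ F' := by
  obtain ⟨y, a, b⟩ := det_surjOn h hs hx
  rwa [← b, det_ζ h a, zr_add]

theorem det_cont (hs : ch.Std F' e K₀' ℓ) : ContinuousOn (ζT T F') (ch.solF ν κ F) := fun _ hx =>
  have a := (det_bij h hs).invOn_invFunOn.2
  have b := (det_surjOn h hs).mapsTo_invFunOn
  det_tendsto h hs.cuts (eventually_mem_nhdsWithin.mono fun _ c => b c) (b hx)
    ((a hx).symm ▸ (tendsto_id.mono_left nhdsWithin_le_nhds).congr'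
      (eventually_mem_nhdsWithin.mono fun _ c => (a c).symm))

/-- the data of the comparison -/
theorem det_tt (hs : ch.Std F' e K₀' ℓ) (S₀ O : Set (ch.WF ν κ Λ)) :
    KD.Tt (ch.kd ν κ F' e) (ch.kd ν κ F fun k => e (φ k)) (actF F.toWt) (ρT F.toWt T) (zr T) (qF T)
      (ch.solF ν κ F' ∩ zr T ⁻¹' S₀) (ch.solF ν κ F ∩ S₀) O (BT T φ) (dT F' e T) (ζT T F') := by
  refine ⟨det_lin h O, fun x => ⟨fun a => ⟨⟨det_maps h a.1, a.2⟩, (det_ζ h a.1).symm⟩,
    fun a => ⟨?_, a.1.2⟩⟩, (det_cont h hs).mono inter_subset_left, fun x _ => dT_mem hs.fits x,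
    fun v => (continuous_dT v).continuousOn, fun x _ s a v => h.wt ▸ dT_act hs.inv a v,
    fun x hx v w y c u a1 a2 a3 a4 => ?_, fun x a => det_inj h hs.fits a.1,
    fun x a w => det_ker h hs a.1⟩
  · have := det_lift h hs a.1.1
    rwa [← a.2, zr_add] at this
  have p : ∀ᶠ n in atTop, c n • sctF F' e (y n) + u n ∈ ch.polF F' e :=
    .of_forall fun n => add_mem (Submodule.smul_mem _ _ (hs.fits.sctF_mem _)) (a1 n).2.2.1
  have p0 : w ∈ ch.polF F' e := isClosed_polS.mem_of_tendsto a4 p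
  refine mem_vanM.2 ⟨sub_mem p0 (dT_mem hs.fits x v), fun z₀ hz => ?_⟩
  obtain ⟨z, b1, b2⟩ := hs.cuts.exists_gr (x := fun n => (y n).2)
    (.of_forall fun n => (a1 n).2.1.1.2.1) hx.1.2.1 a2.snd_nhds hz
  have t1 := (continuous_kill (T := T).tendsto x).comp a2
  have t2 : Tendsto (fun n => ζT T F' (zr T (y n))) atTop (𝓝 (qF T x)) :=
    det_ζ h hx.1 ▸ (det_cont h hs _ (det_maps h hx.1)).tendsto.comp
      (tendsto_nhdsWithin_iff.2 ⟨t1, .of_forall fun n => (a1 n).2.1.1⟩)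
  have t3 := t1.add (((ιF T : _ →L[ℂ] ch.WF ν κ Λ).continuous.tendsto _).comp t2)
  rw [zr_add] at t3
  have t4 := (((qF T : ch.WF ν κ Λ →L[ℂ] _).continuous.tendsto x).comp a2).sub t2
  rw [sub_self] at t4
  rw [map_sub, sub_eq_zero]
  refine tendsto_nhds_unique_of_eventuallyEq (tendsto_evZ p p0 a4 b2) (tendsto_dT t3 b2 t4 a3)
    (b1.mono fun n b => ?_)
  have f := (mem_vanM.1 (sctF_mem_vanM hs.fits (det_lift h hs (a1 n).2.1.1))).2 _
    (show z n ∈ gr _ from ⟨b.1, fun l μ => (congrArg (fun q => (z n).2 l (q μ))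
      (add_zero ((y n).2.Q l))).trans (b.2 l μ)⟩)
  simp only [comp_apply, map_add, map_sub, map_smul, (mem_vanM.1 (a1 n).2.2).2 _ b, f,
    add_add_sub_cancel, zr_add, add_zero, sub_zero]

open Classical in
theorem det_rk (hs : ch.Std F (fun k => e (φ k)) K₀ ℓ) (hr : ch.rk F' ℓ K₀' = ch.rk F ℓ K₀ +
      ∑ j with j ∈ T, finrank ℂ (ch.Th j) * ch.eu fun i => ch.a (some j) i)
    (hx : x ∈ ch.solF ν κ F') :
    (ch.rk F' ℓ K₀').toNat = finrank ℂ (ch.Fm T ch.hf) + (ch.rk F ℓ K₀).toNat := by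
  let _ := Fintype.ofFinite T
  have a : finrank ℂ (ch.Fm T ch.hf) = ∑ j : T, finrank ℂ (ch.Th j) * ch.hf j :=
    (finrank_pi_clm (fun j : T => ch.Th j) fun j => ch.E (some j)).trans (by simp)
  have b := hs.rk_nonneg (det_maps h hx)
  have c : ∑ j with j ∈ T, finrank ℂ (ch.Th j) * ch.eu (fun i => ch.a (some j) i) =
      finrank ℂ (ch.Fm T ch.hf) := by
    rw [a, Finset.sum_subtype (p := (· ∈ T)) _ (by simp), Nat.cast_sum]
    exact Finset.sum_congr rfl fun j _ => by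
      rw [Nat.cast_mul, h_eq₁ hx.2.1 (hs.cuts.ne _)]
      rfl
  omega

variable (hs : ch.Std F (fun k => e (φ k)) K₀ ℓ) (hs' : ch.Std F' e K₀' ℓ)
include hs hs'

theorem det_bijOn : BijOn (zr T) (ch.solF ν κ F') (ch.solF ν κ F) := det_bij h hs'

open Classical in
/-- **determined fields do not change the virtual class** -/
theorem det_isW (hr : ch.rk F' ℓ K₀' = ch.rk F ℓ K₀ +
      ∑ j with j ∈ T, finrank ℂ (ch.Th j) * ch.eu fun i => ch.a (some j) i)
    (hA : S₀ ⊆ ch.adm ν κ F) (hi : Ivt (actF F.toWt) S₀) (hl : IsLocallyClosed S₀) {d : ℕ}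
    [Nice (ModS F S₀)] {v : BM (ModS F S₀)}
    (hv : (ch.kd ν κ F fun k => e (φ k)).IsW (actF F.toWt) _ S₀ d v) :
    IsHomeomorph (det_eqM h S₀).map ∧ ∃ d', (ch.kd ν κ F' e).IsW (actF F.toWt) _ (zr T ⁻¹' S₀) d'
      (res (det_eqM h S₀).map v) := by
  obtain ⟨_, a⟩ := hs.reg' hA hi hl
  obtain ⟨_, b⟩ := hs'.reg' (S₀ := zr T ⁻¹' S₀) (fun _ b => (det_adm h hs'.inv).2 (hA b))
    (h.wt ▸ fun s c x b => (mem_of_eq_of_mem (kill_actF s) (hi s c _ b) :))
    (hl.preimage continuous_kill)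
  rw [h.wt] at b
  exact (hv.tot (spt F.toWt T) (fun x c => funext fun j => (hA c).2.2.2.1 j (h.sub j.2)) b a
    (det_tt h hs' S₀ _) (fun ⟨_, c⟩ => det_rk h hs hr c.1) fun _ => rfl).imp_right fun c => ⟨_, c⟩

end Ch

end Vale.Agent.P269
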