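import Vale.Agent.P287Q.G.Map.DD
import Vale.Agent.P287Q.G.Map.Ind
import Vale.Agent.P287Q.G.Vir.RD

set_option linter.all false

/-!
# The index class does not depend on the thickening
-/

namespace Vale.Agent.P269

open Set Function Topology Filter Module P291Z Base Vir MvPolynomial Cv

section pt

variable {J Z : Type} [Fintype J] [DecidableEq J] {Θ : J → Type} [∀ j, AddCommGroup (Θ j)]
  [∀ j, Module ℂ (Θ j)] {d : PD Unit Z Θ} {pw : Z → ∀ j, Θ j} {g : Unit → J → ℂ} {j j' : J}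
  {mov : Set J}

theorem Vir.Jac.ne (h : Jac g {j'} univ) : g () j' ≠ 0 := fun e => by
  obtain ⟨η, a, b⟩ := h.ind 1
  have := b () trivial
  rw [Finset.sum_eq_single j' (fun i _ c => by rw [a i c, mul_zero]) (by simp), e, zero_mul] at this
  exact zero_ne_one this

theorem Vir.PD.Reg.single_inj (h : d.Reg pw {j'} univ g) {Y : Θ j' →ₗ[ℂ] ℂ}
    (e : d.dEq pw (Pi.single j' Y) = 0) : Y = 0 := by
  obtain ⟨η, a, b⟩ := PD.exists_eta (pw := pw) h.tv_ne (Y := Pi.single j' Y)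
    (fun i c => Pi.single_eq_of_ne c _) (congrArg Prod.fst e)
  have c := congrFun (PD.nrm_injective h.tot_ne (((h.rel.dEq_tv a).symm.trans (b ▸ e)).trans
    (map_zero _).symm)) ()
  rw [Finset.sum_eq_single j' (fun i _ c => by rw [a i c, mul_zero]) (by simp)] at c
  have := congrFun b j'
  rwa [Pi.single_eq_same, (mul_eq_zero.1 c).resolve_left h.jac.ne, zero_smul] at this

theorem Vir.PD.Reg.mem_Im (h : d.Reg pw {j'} univ g) (h' : d.Reg pw mov univ g)
    (hm : ∀ i, i ∈ mov ↔ i = j ∨ i = j') {κ : Fib Θ Unit Z} (hκ : κ ∈ d.Im pw mov)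
    (h0 : κ.1 j = 0) : κ ∈ d.Im pw {j'} := by
  obtain ⟨Y, a, rfl⟩ := PD.mem_Im.1 hκ
  obtain ⟨m, b⟩ := h'.tv_ne j ((hm j).2 (.inl rfl))
  obtain ⟨t, c⟩ : ∃ t : ℂ, Y j = t • d.tv j := ⟨_, eq_of_kos b fun n => congrFun h0 (n, m)⟩
  have e := h'.rel.dEq_tv (η := Pi.single j t) fun i c =>
    Pi.single_eq_of_ne (fun f => c ((hm i).2 (.inl f))) _
  rw [← sub_add_cancel Y _, map_add, e]
  refine add_mem ⟨_, fun i f => ?_, rfl⟩ (h.rel.nrm_mem ((h.jac.ind _).imp fun _ f =>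
    ⟨f.1, fun k => f.2 k trivial⟩))
  rcases eq_or_ne i j with rfl | k
  · simp [c]
  · simp [k, a i fun l => ((hm i).1 l).elim k f]

theorem eval_single {α : J →₀ ℕ} (h : α j ≤ 1) (c t : ℂ) (v : J → ℂ) :
    eval (v + Pi.single j t) (monomial α c) - eval v (monomial α c) =
      eval v (pderiv j (monomial α c)) * t := by
  simp only [pderiv_monomial, eval_monomial, Finsupp.prod_fintype _ _ fun _ => pow_zero _,
    ← Finset.mul_prod_erase _ _ (Finset.mem_univ j)]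
  rw [Finset.prod_congr rfl (g := fun i => v i ^ α i) fun i e => by
    simp [Finset.ne_of_mem_erase e], Finset.prod_congr rfl
      (f := fun i => v i ^ (α - Finsupp.single j 1 : J →₀ ℕ) i) (g := fun i => v i ^ α i)
      fun i e => by simp [Finset.ne_of_mem_erase e]]
  rcases Nat.le_one_iff_eq_zero_or_eq_one.1 h with e | e <;> simp [e]
  ring

end pt

namespace Ch

variable {S Λ R J K ι ν κ : Type} [Fintype S] [Fintype Λ] [Fintype R] [Fintype J] [Fintype K]
  [Fintype ι] [DecidableEq ι] [Fintype ν] [Fintype κ] {ch : Ch ι J}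

section obs

variable {F : Fam S Λ R J K} {e : K → ι → ℕ} {K₀ : RD R} {ℓ : R → ι → ℤ} {x : ch.WF ν κ Λ}
  {j : J}

variable (ch ν κ F e) in
/-- the obstruction bundle -/
@[reducible] noncomputable def sdO : SD (ch.AF ν κ S) (ch.WF ν κ Λ) (ch.P K) :=
  ⟨ρF F, ch.polF F e, obsM F e, vanM F e⟩

theorem Std.okO (h : ch.Std F e K₀ ℓ) : ∃ r v, (ch.sdO ν κ F e).Ok (actF F.toWt) (ch.solF ν κ F) r v ∧
    ((ch.solF ν κ F).Nonempty → (r : ℤ) = v + ch.rk F ℓ K₀) := by
  obtain ⟨v, hv⟩ := exists_rank_van (ν := ν) (κ := κ) h.inv h.fits h.cuts.ne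
  refine ⟨v + (ch.rk F ℓ K₀).toNat, v, ⟨fin_polF, isRepOn_ρF, ⟨fun _ _ => inf_le_left,
    isClosed_of_closure_subset fun z hz => ?_, fun x hx => ?_,
    fun _ _ _ hs _ => obsM_actF h.inv hs⟩, ⟨fun _ _ => inf_le_left,
    h.cuts.isClosed_van fun _ a => a.2.1, fun x hx => hv x hx.2.1, fun _ _ _ hs _ => vanM_actF hs⟩,
    fun _ _ => vanM_le_obsM⟩, fun ⟨_, a⟩ => by rw [Nat.cast_add, Int.toNat_of_nonneg (h.rk_nonneg a)]⟩
  · haveI := mem_closure_iff_nhdsWithin_neBot.1 hz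
    exact h.cuts.obs_lim (l := 𝓝[_] z) (x := fun y : ch.solF ν κ F × ch.P K => y.1.1) h.inv h.reg
      h.fits (.of_forall fun y => y.1.2) z.1.2 ((continuous_subtype_val.comp continuous_fst).tendsto z
        |>.mono_left nhdsWithin_le_nhds) self_mem_nhdsWithin
      (continuous_snd.tendsto z |>.mono_left nhdsWithin_le_nhds)
  · have := finrank_obsM h.inv h.reg h.fits h.wt h.cuts.ne hx
    have := h.rk_nonneg hx
    have := hv x hx.2.1
    change finrank ℂ (obsM F e x) = _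
    omega

open Classical in
/-- changing one field -/
noncomputable def adX (x : ch.WF ν κ Λ) (j : J) (X : ch.Th j →L[ℂ] ch.E (some j)) : ch.WF ν κ Λ :=
  (x.1, W.mk' x.2.Q x.2.p x.2.Ξ fun i => x.2.X i +
    Pi.single (M := fun i => ch.Th i →L[ℂ] ch.E (some i)) j X i)

theorem continuous_adX (X : ch.Th j →L[ℂ] ch.E (some j)) :
    Continuous fun x : ch.WF ν κ Λ => adX x j X :=
  (continuous_id.add (continuous_const (y := adX 0 j X))).congr fun x => Prod.ext (add_zero _)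
    (W.ext (fun _ => add_zero _) (fun _ => add_zero _) (add_zero _) fun i =>
      congrArg (x.2.X i + ·) (zero_add _))

theorem adX_actF (F : Wt S Λ R J) (s : ch.AF ν κ S) (X : ch.Th j →L[ℂ] ch.E (some j)) :
    adX (actF F s x) j (ρX F j s X) = actF F s (adX x j X) :=
  Prod.ext rfl (W.ext (fun _ => rfl) (fun _ => rfl) rfl fun i => by
    classical
    rw [actF_X]
    rcases eq_or_ne i j with rfl | a
    · ext; simp [adX, actF_X, ρX, Wt.cS]
    · simp [adX, actF_X, Pi.single_eq_of_ne a])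

open Classical in
variable (F e) in
/-- the derivative of the section in the direction of the field `j` -/
noncomputable def dsc (x : ch.WF ν κ Λ) (j : J) : (ch.Th j →L[ℂ] ch.E (some j)) →ₗ[ℂ] ch.P K where
  toFun X := (fun i z => ((pd F e x z).dEq pwT (Pi.single j (z.2 _ ∘L X).toLinearMap)).1 i,
    fun k z => ((pd F e x z).dEq pwT (Pi.single j (z.2 _ ∘L X).toLinearMap)).2 k)
  map_add' X Y := by
    simp only [ContinuousLinearMap.comp_add, ContinuousLinearMap.coe_add, Pi.single_add, map_add]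
    rfl
  map_smul' c X := by
    simp only [ContinuousLinearMap.comp_smul, ContinuousLinearMap.coe_smul, Pi.single_smul, map_smul]
    rfl

open Classical in
theorem evZ_dsc (X : ch.Th j →L[ℂ] ch.E (some j)) (z : ch.Pt) : evZ z (dsc F e x j X) =
    (pd F e x z).dEq pwT (Pi.single j (z.2 _ ∘L X).toLinearMap) := rfl

theorem dsc_eq (h : ∀ k, ∀ α ∈ (F.G k).support, α j ≤ 1) (X : ch.Th j →L[ℂ] ch.E (some j)) :
    dsc F e x j X = sctF F e (adX x j X) - sctF F e x := by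
  classical
  have a : ∀ z i, yv (adX x j X).2 z i = yv x.2 z i +
      Pi.single (M := fun i => ch.Th i →ₗ[ℂ] ℂ) j (z.2 _ ∘L X).toLinearMap i := fun z i => by
    rcases eq_or_ne i j with rfl | a
    · ext; simp [adX, yv]
    · simp [adX, yv, Pi.single_eq_of_ne a]
  refine P_ext (fun i z m => ?_) fun k z ζ => ?_
  · change _ = kos (tvZ z.1 i) (yv (adX x j X).2 z i) m - kos (tvZ z.1 i) (yv x.2 z i) m
    rw [a, kos_add, add_sub_cancel_left]
    rfl
  · change ∑ i, _ = (evZ z (sctF F e (adX x j X))).2 k ζ - (evZ z (sctF F e x)).2 k ζ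
    rw [Finset.sum_eq_single j (fun i _ b => by simp [Pi.single_eq_of_ne b]) (by simp),
      evZ_sctF, evZ_sctF, Pi.single_eq_same]
    simp only [pd, hp, map_sum, Finset.sum_mul, ← Finset.sum_sub_distrib]
    refine Finset.sum_congr rfl fun α b => ((congrArg (MvPolynomial.eval · _ - _)
      (_root_.funext fun i => ?_)).trans
      (eval_single (h k α b) _ _ _)).symm
    rcases eq_or_ne i j with rfl | c
    · simp [a]
    · simp [a, Pi.single_eq_of_ne c]

theorem dsc_actF (hF : F.Inv) (h : ∀ k, ∀ α ∈ (F.G k).support, α j ≤ 1) {s : ch.AF ν κ S}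
    (hs : IsUnit s) (X : ch.Th j →L[ℂ] ch.E (some j)) :
    dsc F e (actF F.toWt s x) j (ρX F.toWt j s X) = ρF F s (dsc F e x j X) := by
  rw [dsc_eq h, dsc_eq h, adX_actF, sctF_actF hF hs, sctF_actF hF hs]
  exact P_ext (fun _ _ _ => (mul_sub _ _ _).symm) fun _ _ _ => (mul_sub _ _ _).symm

theorem eq_zero_of_gr (hx : x.2 ∈ ch.base _) {X : ch.Th j →L[ℂ] ch.E (some j)}
    (h : ∀ z ∈ gr x.2, (z.2 _ ∘L X).toLinearMap = 0) : X = 0 :=
  let ⟨_, _, _, _, _, _, _, _, _, _, _, a⟩ := exists_cr hx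
  ContinuousLinearMap.ext fun m => a.u_inj fun y => LinearMap.congr_fun (h _ (a.gr y)) m

end obs

section two

variable {G : Fam S Λ R J Unit} {e : Unit → ι → ℕ} {ℓ : R → ι → ℤ} {j j' : J} {x : ch.WF ν κ Λ}

theorem ncard_unit (a : j ∈ G.mov) : (univ : Set Unit).ncard ≤ G.mov.ncard := by
  rw [ncard_univ, Nat.card_unique]
  exact (ncard_pos (toFinite _)).2 ⟨_, a⟩

theorem rk_unit (w : ch.HasWt G ℓ) (a : j ∈ G.mov) (T : Finset J) (h : ∀ i, i ∈ G.mov ↔ i ∈ T) :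
    ch.rk G ℓ (G.rd univ) = ∑ i ∈ T, (finrank ℂ (ch.Th i) * ch.eu (fun r => ch.a (some i) r) -
      ch.eu (ch.wd i)) + ch.eu (G.dk ℓ ()) :=
  (rk_rd w (ncard_unit a)).trans (congrArg₂ (· + ·)
    (Finset.sum_congr (Finset.ext fun i => by simp [h]) fun _ _ => rfl) (by simp))

theorem Std.at_unit (h : ch.Std G e (G.rd univ) ℓ) (a : j ∈ G.mov) {z} (hz : z ∈ G.cone) :
    G.RegAt univ z := by
  obtain ⟨K₁, b⟩ := h.reg.loc z hz
  have c := h.reg.n_add h.inv b hz
  have d := ncard_unit a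
  exact eq_of_subset_of_ncard_le (subset_univ K₁) (by simp only [Fam.rd] at c; omega) ▸ b

variable (h : ch.Std { G with mov := {j'} } e (Fam.rd { G with mov := {j'} } univ) ℓ)
include h

theorem Std.rk_one (hx : x ∈ ch.solF ν κ G) :
    ch.rk { G with mov := {j'} } ℓ (Fam.rd { G with mov := {j'} } univ) =
      finrank ℂ (ch.Th j') * ch.h (some j') := by
  obtain ⟨X, _, _, _, Q, N, A, π, u, p, ξ, hc⟩ := exists_cr hx.1.2.1
  obtain ⟨s, a, b⟩ := hc.mem_sol.1 hx.2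
  have k : ∀ y, (x.1, fun j => s j y) ∈ Fam.cone { G with mov := {j'} } := fun y =>
    ⟨hx.1.1, show _ ∈ (G.fib x.1).cone by simpa using b y 1 fun _ => one_ne_zero⟩
  have ok := cd_ok (s := s) h.inv h.reg h.fits h.wt hc a k
  classical
  have c := deg_of_ne (ok.g_mem () (j := j') rfl).1 fun y =>
    ((h.at_unit rfl (k y)).jac h.inv (k y)).ne
  have d := (chiN_bz hc _).symm.trans ((congrArg (· + 1 - _) (sub_eq_zero.1
    ((deg_div _ _).symm.trans c))).trans (chiN_bz hc _))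
  rw [rk_unit h.wt rfl {j'} (by simp), Finset.sum_singleton, d, h_eq₁ hx.2.1 (h.cuts.ne _)]
  exact sub_add_cancel _ _

variable (h' : ch.Std G e (G.rd univ) ℓ) (hm : ∀ i, i ∈ G.mov ↔ i = j ∨ i = j') (hj : j ≠ j')
include h' hm hj

theorem Std.rk_two (hx : x ∈ ch.solF ν κ G) :
    ch.rk G ℓ (G.rd univ) = finrank ℂ (ch.Th j') * ch.h (some j') + ch.rkO j := by
  classical
  rw [← h.rk_one hx, rkO_eq h.cuts.ne hx.2.1, h_eq₁ hx.2.1 (h.cuts.ne _),
    rk_unit h'.wt ((hm j).2 (.inl rfl)) {j, j'} (by simp [hm]), rk_unit h.wt rfl {j'} (by simp),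
    Finset.sum_pair hj,
    Finset.sum_singleton, add_assoc, add_comm]
  rfl

theorem Std.mem_obs_two (hx : x ∈ ch.solF ν κ G) {f : ch.P Unit} :
    f ∈ obsM { G with mov := {j'} } e x ↔ f ∈ obsM G e x ∧ ∀ z ∈ gr x.2, f.1 j z = 0 := by
  classical
  refine ⟨fun a => ⟨mem_obsM.2 ⟨a.1, fun z hz => ?_⟩, fun z hz => ?_⟩,
    fun a => mem_obsM.2 ⟨a.1.1, fun z hz => ?_⟩⟩
  · exact ((mem_obsM.1 a).2 z hz).imp fun _ b => ⟨fun i c => b.1 i fun d => c ((hm i).2 (.inr d)), b.2⟩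
  · obtain ⟨Y, b, c⟩ := PD.mem_Im.1 ((mem_obsM.1 a).2 z hz)
    exact (congrFun (congrArg Prod.fst c) j).symm.trans (_root_.funext fun m =>
      (congrArg (kos _ · m) (b j hj)).trans (kos_zero m))
  · obtain ⟨y, b, c⟩ := exists_cone hx hz
    exact (h.fits.regAt h.inv hz.1 c b (h.at_unit rfl b)).mem_Im (h'.fits.regAt h'.inv hz.1 c b
      (h'.at_unit ((hm j).2 (.inl rfl)) b)) hm ((mem_obsM.1 a.1).2 z hz) (a.2 z hz)

/-- **the two field problem** -/
theorem Std.ch_two (hl : ∀ k, ∀ α ∈ (G.G k).support, α j' ≤ 1) {Z : Set (ch.WF ν κ Λ)}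
    [Holo.IsAct (actF G.toWt) Z] (ho : Orb.Orb (ch.AF ν κ S)ˣ (Holo.Sp (actF G.toWt) Z)) {T : Set J}
    (hZ : ∀ x ∈ Z, zr T x ∈ ch.solF ν κ G) :
    ((ch.sdO ν κ G e).pb id (zr T)).ch (actF G.toWt) Z =
      (ch.sdX ν κ G.toWt j').ch (actF G.toWt) Z * (ch.sdK ν κ G.toWt j).ch (actF G.toWt) Z := by
  classical
  obtain ⟨r, v, a, b⟩ := h'.okO (ν := ν) (κ := κ)
  have c : ∀ x ∈ Z, x.2 ∈ ch.base _ := fun x d => (hZ x d).2.1
  let L : ch.P Unit →ₗ[ℂ] ch.P Empty := ch.sgK j ∘ₗ LinearMap.proj j ∘ₗ LinearMap.fst ℂ _ _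
  have l1 : ∀ f, (L f).1 j = f.1 j := fun f => sgK_same _
  have l2 : ∀ f ∈ ch.polF G e, L f ∈ ch.polK j := fun f d => sgK_mem ((mem_polS.1 d).1 j)
  have l3 : ∀ x, ∀ f ∈ obsM G e (zr T x), L f ∈ (ch.sdK ν κ G.toWt j).B x := fun x f d =>
    mem_sdK_B.2 ⟨l2 f d.1, fun z hz =>
      let ⟨y, _, k, _⟩ := (mem_obsF.2 d).2 z hz
      ⟨y j, fun m => l1 f ▸ k j m⟩⟩
  have l4 : ∀ x, ∀ f ∈ ch.polF G e, L f ∈ (ch.sdK ν κ G.toWt j).N x ↔ ∀ z ∈ gr x.2, f.1 j z = 0 :=
    fun x f d => by rw [mem_sdK_N, l1, and_iff_right (l2 f d)]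
  have l5 : ∀ (x : ch.WF ν κ Λ) X, dsc G e x j' X ∈ ch.polF G e := fun x X => by
    rw [dsc_eq hl]
    exact sub_mem (h'.fits.sctF_mem _) (h'.fits.sctF_mem _)
  have l6 : Continuous (zr T : ch.WF ν κ Λ → _) := ContinuousLinearMap.continuous _
  have l7 : ∀ f ∈ ch.polF G e, ∀ s : ch.AF ν κ S, L (ρF G s f) = ρK G.toWt s (L f) := fun f d s =>
    ext_polK (l2 _ (ρF_mem d)) (ρK_polK (l2 f d)) (by
      rw [l1, ρK_eq (j := j)]
      exact funext₂ fun z m => by rw [ρF_fst, ρF_fst, l1])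
  refine (a.pb (.same hZ l6.continuousOn fun s _ x _ => zr_actF x _ s)).exact ho
    (okX Z j') (h.cuts.okK c j) (L₁ := fun x => dsc G e (zr T x) j') (L₂ := fun _ => L)
    ⟨fun X _ => ?_, fun x _ X _ => mem_obsM.2 ⟨l5 _ X, fun z _ => ⟨_, fun i d =>
      Pi.single_eq_of_ne (fun k => d ((hm i).2 (.inr k))) _, rfl⟩⟩, fun x _ X d => ?_,
      fun x _ s hs X _ => ?_⟩
    ⟨fun _ _ => continuousOn_const, fun x _ => l3 x, fun x _ f d => (l4 x f d.1).2 fun z hz =>
      congrFun (congrArg Prod.fst ((mem_vanM.1 d).2 z hz)) j, fun x _ s _ f d =>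
        (sub_eq_zero.2 (l7 f d.1 s)).symm ▸ zero_mem _⟩
    (fun x hx X _ d => eq_zero_of_gr (c x hx) fun z hz => ?_) (fun x hx w d => ?_)
    (fun x _ X _ => (l4 x _ (l5 _ X)).2 fun z _ => _root_.funext fun m =>
      (congrArg (kos _ · m) (Pi.single_eq_of_ne hj _)).trans (kos_zero m)) fun ⟨x, hx⟩ => ?_
  · simp only [dsc_eq hl]
    exact (((continuous_sctF.comp (continuous_adX X)).sub continuous_sctF).comp l6).continuousOn
  · obtain rfl : X = 0 := d
    exact (map_zero (dsc G e (zr T x) j')).symm ▸ zero_mem _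
  · exact (sub_eq_zero.2 ((congrArg (dsc G e · j' _) (zr_actF x _ s)).trans
      (dsc_actF h'.inv hl hs X))).symm ▸ zero_mem _
  · obtain ⟨y, k, l⟩ := exists_cone (hZ x hx) hz
    exact (h.fits.regAt h.inv hz.1 l k (h.at_unit rfl k)).single_inj ((mem_vanM.1 d).2 z hz)
  · haveI : FiniteDimensional ℂ (obsM G e (zr T x)) := Submodule.finiteDimensional_inf_left _ _
    let N := (ch.sdK ν κ G.toWt j).N x
    have k1 := finrank_map_add (N.mkQ ∘ₗ L) (U := obsM G e (zr T x)) fun f =>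
      (h.mem_obs_two h' hm hj (hZ x hx)).trans (and_congr_right fun k =>
        (l4 x f k.1).symm.trans (Submodule.Quotient.mk_eq_zero N).symm)
    have k2 := finrank_map_add N.mkQ (U := (ch.sdK ν κ G.toWt j).B x) (W := N) fun f =>
      ⟨fun k => ⟨sdK_le k, (Submodule.Quotient.mk_eq_zero N).2 k⟩,
        fun k => (Submodule.Quotient.mk_eq_zero N).1 k.2⟩
    have k3 := finrank_obsM h.inv h.reg h.fits h.wt h.cuts.ne (hZ x hx)
    have k4 := finrank_obsM h'.inv h'.reg h'.fits h'.wt h.cuts.ne (hZ x hx)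
    rw [h.rk_one (hZ x hx)] at k3
    rw [h.rk_two h' hm hj (hZ x hx)] at k4
    rw [finrank_sdK_N h.cuts.ne (c x hx), finrank_sdK_B h.cuts.ne (c x hx)] at k2
    obtain ⟨f, k5, k6⟩ := (Submodule.eq_of_le_of_finrank_eq (S₁ := (obsM G e (zr T x)).map
      (N.mkQ ∘ₗ L)) (S₂ := ((ch.sdK ν κ G.toWt j).B x).map N.mkQ) (by
        rintro _ ⟨f, k, rfl⟩
        exact ⟨_, l3 x f k, rfl⟩) (by
        change _ = (finrank ℂ (vanM G e (zr T x)) : ℤ) + _ at k3
        omega)).ge ⟨w, d, rfl⟩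
    exact ⟨f, k5, (Submodule.Quotient.eq N).1 k6⟩
  · have := b ⟨_, hZ x hx⟩
    rw [h.rk_two h' hm hj (hZ x hx)] at this
    omega

end two

section lnk

variable (ch) in
/-- the family with one binomial equation -/
@[reducible] noncomputable def lnkF (F : Wt S Λ R J) (α β : J →₀ ℕ) (T A : Set J) :
    Fam S Λ ι J Unit where
  w := ch.wd
  wt := F.wt
  wl := F.wl
  θ := 0
  χ _ r := ∑ i, α i * ch.wd i r
  wk _ r := ∑ i, α i * F.wt i r
  G _ := monomial α 1 - monomial β 1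
  B := univ
  U := {z | ∀ i ∉ T, z.2 i ≠ 0}
  E := univ
  mov := A
  zer := ∅

variable {F : Wt S Λ R J} {α β γ : J →₀ ℕ} {T A : Set J} {a : J}

theorem mem_bin (h : γ ∈ (monomial α (1 : MvPolynomial Λ ℂ) - monomial β 1).support) :
    γ = α ∨ γ = β := by
  classical
  by_contra c
  push Not at c
  simp [coeff_monomial, c.1.symm, c.2.symm] at h

theorem coeff_bin {δ : Λ →₀ ℕ}
    (h : δ ∈ (coeff γ (monomial α (1 : MvPolynomial Λ ℂ) - monomial β 1)).support) : δ = 0 := by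
  classical
  by_contra c
  simp only [coeff_sub, coeff_monomial, MvPolynomial.mem_support_iff] at h
  split_ifs at h <;> simp [coeff_one] at h <;> exact c (by simp [h])

theorem lnkF_jac (z : (Λ → ℂ) × (J → ℂ)) : (ch.lnkF F α β T A).jac z () a =
    α a * ∏ i, z.2 i ^ (α - Finsupp.single a 1 : J →₀ ℕ) i -
      β a * ∏ i, z.2 i ^ (β - Finsupp.single a 1 : J →₀ ℕ) i := by
  simp [Fam.jac, Fam.fib, eval_monomial, Finsupp.prod_fintype _ _ fun _ => pow_zero _]

theorem prod_ne {y : J → ℂ} (hy : ∀ i ∉ T, y i ≠ 0) (h1 : α a = 1) (h2 : ∀ i ∈ T, i ≠ a → α i = 0) :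
    ∏ i, y i ^ (α - Finsupp.single a 1 : J →₀ ℕ) i ≠ 0 :=
  Finset.prod_ne_zero_iff.2 fun i _ => by
    rcases eq_or_ne i a with rfl | b
    · simp [h1]
    by_cases c : i ∈ T
    · simp [h2 i c b]
    · exact pow_ne_zero _ (hy i c)

theorem Cuts.lnkF_std (hc : ch.Cuts) (h1 : ∀ r, ∑ i, β i * ch.wd i r = ∑ i, α i * ch.wd i r)
    (h2 : ∀ r, ∑ i, β i * F.wt i r = ∑ i, α i * F.wt i r) (ha : a ∈ A)
    (h : ∀ z ∈ (ch.lnkF F α β T A).U, (ch.lnkF F α β T A).jac z () a ≠ 0) :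
    ch.Std (ch.lnkF F α β T A) (fun _ r => ∑ i, α i * ch.b i r + ∑ i, β i * ch.b i r + 1)
      ((ch.lnkF F α β T A).rd univ) fun r => Pi.single r 1 := by
  classical
  have w := oneF_wt (ch := ch) (F := F) (j := a)
  refine (fun I => ⟨I, Fam.reg_univ I fun z b c => ⟨Pi.single a
      (c () / (ch.lnkF F α β T A).jac z () a), fun i d => Pi.single_eq_of_ne (ne_of_mem_of_not_mem
        ha d).symm _, fun k => ?_⟩, ⟨⟨_, w⟩, fun _ γ b r => ?_,
      fun _ b => absurd (congrFun b ch.o) (Nat.succ_ne_zero _)⟩, hc, w⟩ : _ → _)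
    ⟨fun _ γ b r => ?_, fun _ γ b δ c r => ?_, ?_, fun t b z c i d => ?_, isClosed_univ,
    fun _ _ _ _ => trivial, fun _ _ _ _ _ => trivial, empty_disjoint _, isOpen_univ.isLocallyClosed,
    fun _ _ _ _ => trivial⟩
  · rw [Finset.sum_eq_single a (fun i _ d => by simp [d]) (by simp), Pi.single_eq_same]
    exact mul_div_cancel₀ _ (h z b.2.1.1)
  · rcases mem_bin b with rfl | rfl <;> omega
  · rcases mem_bin b with rfl | rfl
    exacts [rfl, h1 r]
  · obtain rfl := coeff_bin c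
    rcases mem_bin b with rfl | rfl <;> simp [h2]
  · simp only [setOf_forall]
    exact isOpen_iInter_of_finite fun i => isOpen_iInter_of_finite fun _ =>
      isOpen_ne_fun (by fun_prop) continuous_const
  · exact mul_ne_zero (mul_ne_zero (Finset.prod_ne_zero_iff.2 fun r _ => zpow_ne_zero _
      (isUnit_pi_iff.1 (Prod.isUnit_iff.1 b).1 r)) (Finset.prod_ne_zero_iff.2 fun r _ =>
        zpow_ne_zero _ (isUnit_pi_iff.1 (Prod.isUnit_iff.1 b).2 r))) (c i d)

variable {Z : Set (ch.WF ν κ Λ)} {j j' : J} [Holo.IsAct (actF F) Z]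
  (ho : Orb.Orb (ch.AF ν κ S)ˣ (Holo.Sp (actF F) Z)) (hc : ch.Cuts)
  (hZ : ∀ x ∈ Z, x.2 ∈ ch.base _)
include ho hc hZ

/-- **independence of the thickening**: the bundles of `j` and `j'` differ by a monomial in fields
that are nowhere vanishing sections -/
theorem indC_link {n : J → ℤ} (h1 : ch.wd j' = ch.wd j + ∑ i, n i • ch.wd i)
    (h2 : F.wt j' = F.wt j + ∑ i, n i • F.wt i)
    (h3 : ∀ x ∈ Z, ∀ i, n i ≠ 0 → ∀ c ∈ crv x.2, ∃ y ≠ 0, Val x.2 i c y)
    (h4 : n j = 0 ∧ n j' = 0) (h5 : ∀ x ∈ Z, x ∈ ch.baseF ν κ univ ∧ ∀ i, n i ≠ 0 → ∀ q : κ,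
      fld x.2 (x.2.p (.inr (q, false))) i = fld x.2 (x.2.p (.inr (q, true))) i) :
    indC F Z j' = indC F Z j := by
  classical
  rcases eq_or_ne j j' with rfl | hj
  · rfl
  let α : J →₀ ℕ := Finsupp.single j' 1 + Finsupp.equivFunOnFinite.symm fun i => (-n i).toNat
  let β : J →₀ ℕ := Finsupp.single j 1 + Finsupp.equivFunOnFinite.symm fun i => (n i).toNat
  have a : ∀ {ρ : Type} (w : J → ρ → ℤ), w j' = w j + ∑ i, n i • w i →
      ∀ r, ∑ i, β i * w i r = ∑ i, α i * w i r := fun w b r => by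
    have c := congrFun b r
    simp only [Pi.add_apply, Finset.sum_apply, Pi.smul_apply, smul_eq_mul] at c
    simp only [α, β, Finsupp.add_apply, Nat.cast_add, add_mul, Finset.sum_add_distrib,
      Finsupp.single_apply, Nat.cast_ite, ite_mul, Finset.sum_ite_eq, Finset.mem_univ, if_true,
      Finsupp.coe_equivFunOnFinite_symm, Nat.cast_one, Nat.cast_zero, one_mul, zero_mul]
    rw [c, add_assoc, ← Finset.sum_add_distrib]
    exact congrArg _ (Finset.sum_congr rfl fun i _ => by rw [← add_mul]; congr 1; omega)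
  have a1 : α j' = 1 ∧ α j = 0 ∧ β j = 1 ∧ β j' = 0 := by simp [α, β, h4, hj, hj.symm]
  have s := fun (A : Set J) i (hi : i ∈ A) =>
    hc.lnkF_std (T := {i | n i = 0}) (a _ h1) (a _ h2) hi
  have s1 := fun A hi => s A j' hi fun z b => by
    rw [lnkF_jac, a1.1, a1.2.2.2, Nat.cast_one, Nat.cast_zero, one_mul, zero_mul, sub_zero]
    exact prod_ne b a1.1 fun i c d => by simp [α, d, show n i = 0 from c]
  have s2 := fun A hi => s A j hi fun z b => by
    rw [lnkF_jac, a1.2.1, a1.2.2.1, Nat.cast_one, Nat.cast_zero, one_mul, zero_mul, zero_sub]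
    exact neg_ne_zero.2 (prod_ne b a1.2.2.1 fun i c d => by simp [β, d, show n i = 0 from c])
  have b : ∀ x ∈ Z, zr {i | n i = 0} x ∈ ch.solF ν κ (ch.lnkF F α β {i | n i = 0} {j, j'}) :=
    fun x hx => ⟨(h5 x hx).1, hZ x hx, fun z hz => by
      choose! y b c using fun i d => h3 x hx i d _ ⟨z, hz, rfl⟩
      refine ⟨zc {i | n i = 0} y, ⟨⟨fun i d => (zc_not y d).trans_ne (b i d), trivial, nofun⟩,
        fun _ => ?_⟩, fun i μ => ?_⟩
      · simp only [Fam.fib, map_sub, map_monomial, eval_monomial,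
          Finsupp.prod_fintype _ _ fun _ => pow_zero _]
        rw [Finset.prod_eq_zero (Finset.mem_univ j') (by rw [zc_mem (T := {i | n i = 0}) _ h4.2, a1.1, pow_one]),
          Finset.prod_eq_zero (Finset.mem_univ j) (by rw [zc_mem (T := {i | n i = 0}) _ h4.1, a1.2.2.1, pow_one]), sub_self]
      · by_cases d : n i = 0
        · simp [zr_X_mem x (T := {i | n i = 0}) d, zc_mem (T := {i | n i = 0}) y d]
        · rw [zr_X_not x (T := {i | n i = 0}) d, zc_not (T := {i | n i = 0}) y d]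
          exact c i d _ hz μ⟩
  haveI : Holo.IsAct (actF (ch.lnkF F α β {i | n i = 0} {j, j'}).toWt) Z := ‹_›
  have c := ((s1 {j'} rfl).ch_two (s1 {j, j'} (.inr rfl)) (fun _ => Iff.rfl) hj (fun _ γ c => by
    rcases mem_bin c with rfl | rfl <;> omega) ho b).symm.trans ((s2 {j} rfl).ch_two
      (s1 {j, j'} (.inr rfl)) (fun _ => or_comm) hj.symm (fun _ γ c => by
        rcases mem_bin c with rfl | rfl <;> omega) ho b)
  change (ch.sdX ν κ F j').ch (actF F) Z * (ch.sdK ν κ F j).ch (actF F) Z =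
    (ch.sdX ν κ F j).ch (actF F) Z * (ch.sdK ν κ F j').ch (actF F) Z at c
  have d := fun i => PowerSeries.mul_invOfUnit _ 1 (((hc.okK hZ i).constCoeff ho :
    PowerSeries.constantCoeff ((ch.sdK ν κ F i).ch (actF F) Z) = 1))
  rw [indC_eq, indC_eq]
  linear_combination ((ch.sdK ν κ F j).ch (actF F) Z).invOfUnit 1 *
    ((ch.sdK ν κ F j').ch (actF F) Z).invOfUnit 1 * c - (ch.sdX ν κ F j').ch (actF F) Z *
      ((ch.sdK ν κ F j').ch (actF F) Z).invOfUnit 1 * d j + (ch.sdX ν κ F j).ch (actF F) Z *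
        ((ch.sdK ν κ F j).ch (actF F) Z).invOfUnit 1 * d j'

end lnk

end Ch

end Vale.Agent.P269
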