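import Vale.Agent.P287Q.G.Map.Defs
import Vale.Agent.P269.Pt.Std

/-!
# The restriction map between charts, pointwise
-/

set_option linter.unusedSectionVars false

namespace Vale.Agent.P269

open Set Function Topology Filter Base Cv

variable {ι ι' J J' ν X : Type} [Fintype ι] [Fintype ι'] [Fintype J] [Fintype J'] [DecidableEq ι]
  [DecidableEq ι'] [Fintype ν] [TopologicalSpace X] [T2Space X] [CompactSpace X] {R : RS X}
  {N : Finset (X × X)} {A : ι' → LB R}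

section

variable {M : ι' → ℕ} {o o' : ι'} {C : Set (V M)} {π : X → V M} {g : ℤ} {m : ι' → ℤ} {σ : ι → ι'}

theorem Base.Loc.tangent {c : V M} {δ : Bool → ℂ → V M} (l : Loc o' C c δ) {γ : ℂ → V M}
    (hγ : IsBranch o C γ) (e : γ 0 = c) : ∃ (j : Bool) (a : ℂ) (b : ι' → ℂ), a ≠ 0 ∧
      ∀ i, deriv γ 0 i = b i • c i + a • deriv (δ j) 0 i := by
  obtain ⟨j, s, ψ, -, -, -, -, -, d⟩ := l.lift hγ.holo hγ.mem e
  refine ⟨j, deriv ψ 0, deriv s 0, fun a => one_ne_zero ((li_pair_iff.1 hγ.imm).2 1 (deriv s 0 o) ?_),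
    fun i => by rw [d, add_comm]; rfl⟩
  rw [d, a, zero_smul, zero_add, one_smul, e]
  rfl

theorem IsBranch.of_nod (h' : Nod o' C) {γ : ℂ → V M} (hγ : IsBranch o C γ) :
    IsBranch o' C γ := by
  obtain ⟨δ, l⟩ := h'.exists_loc hγ.mem.self_of_nhds
  obtain ⟨j, a, b, ha, d⟩ := l.tangent hγ rfl
  refine ⟨hγ.holo, hγ.mem, li_pair_iff.2 ⟨l.ne _, fun e s k => (mul_eq_zero.1
    ((li_pair_iff.1 (l.br j).imm).2 (e * a) (s - e * b o') ?_)).resolve_right ha⟩⟩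
  rw [l.zero, sub_smul, ← k, d]
  module

theorem IsCross.of_nod (h' : Nod o' C) {c : V M} {γ₁ γ₂ : ℂ → V M}
    (hγ : IsCross o C c γ₁ γ₂) : IsCross o' C c γ₁ γ₂ := by
  obtain ⟨b1, b2, e1, e2, li⟩ := hγ
  obtain ⟨δ, l⟩ := h'.exists_loc (e1 ▸ b1.mem.self_of_nhds : c ∈ C)
  obtain ⟨j, a, b, ha, d⟩ := l.tangent b1 e1
  obtain ⟨j', a', b', ha', d'⟩ := l.tangent b2 e2
  have ne : δ j ≠ δ j' := fun e => not_li_triple _ _ _ _ _ _ (by rwa [d, d', e] at li)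
  have k := li_triple_iff.1 (l.alt.resolve_left fun e => ne (by cases j <;> cases j' <;> simp [e]))
  refine ⟨b1.of_nod h', b2.of_nod h', e1, e2, li_triple_iff.2 ⟨l.ne _, fun e e' s q => ?_⟩⟩
  rw [d, d'] at q
  have : e * a = 0 ∧ e' * a' = 0 := by
    cases j <;> cases j'
    · exact (ne rfl).elim
    · exact (k.2 (e' * a') (e * a) (s - e * b o' - e' * b' o') (by
        rw [sub_smul, sub_smul, ← q]; module)).symm
    · exact k.2 (e * a) (e' * a') (s - e * b o' - e' * b' o') (by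
        rw [sub_smul, sub_smul, ← q]; module)
    · exact (ne rfl).elim
  simpa [ha, ha'] using this

theorem Cv.Par.of_nod (h : Par o C N A π) (h' : Nod o' C) : Par o' C N A π :=
  ⟨h.nd, h.sec, h.ne, h.img, h.inj, fun x => br_zero (A := A) (π := π) x ▸
    ((h.isBranch x).of_nod h').imm, fun _ hn => ((h.isCross hn).of_nod h').2.2.2.2⟩

theorem IsCurve.of_nod (h : IsCurve o g m C) (h' : Nod o' C) : IsCurve o' g m C :=
  let ⟨_, _, _, _, _, _, _, _, p⟩ := h.isNodal.exists_par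
  (p.of_nod h').isCurve_iff.2 (p.isCurve_iff.1 h)

theorem isNode_of_nod (h : Nod o C) (h' : Nod o' C) {c : V M} : IsNode o C c ↔ IsNode o' C c :=
  ⟨fun ⟨_, _, a⟩ => ⟨_, _, a.of_nod h'⟩, fun ⟨_, _, a⟩ => ⟨_, _, a.of_nod h⟩⟩

/-- the distinguished factor embeds the curve -/
theorem Cv.Par.inj_o (h : Par o C N A π) (hC : IsCurve o g m C) {x y : X} {t : ℂ}
    (e : π y o = t • π x o) : x = y ∨ Jn N x y := by
  obtain ⟨n, hn⟩ := exists_ge (omega R N ∅)⁻¹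
  by_contra k
  obtain ⟨s, a, b, d⟩ := exists_sep (L := A o ^ (n + 3)) h.nd (by
    rw [div_eq_mul_inv]
    exact ((h.ge_one.pow _).mul hn).mono (by push_cast; omega)) k
  have c : (fun i => ((Pi.single o (n + 3) : ι' → ℕ) i : ℤ)) = Pi.single o (n + 3 : ℕ) :=
    funext fun i => by by_cases q : i = o <;> simp [q]
  obtain ⟨μ, f⟩ := mem_PP.1 (h.le_PP hC (a := Pi.single o (n + 3))
    (fun q => by simpa using congrFun q o) (x := s) (by rwa [c, bz_single, zpow_natCast]))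
  refine d ?_
  have : val μ (π y) = val μ ((fun _ : ι' => t) • π x) := congrArg μ (funext fun ⟨i, r⟩ => by
    obtain rfl : i = o := by_contra fun q => by simpa [q] using r.2
    exact e)
  rw [f, this, Base.val_smul, ← f, b, mul_zero]

theorem bz_psh (A : ι' → LB R) (a : ι → ℤ) : bz A (psh σ a) = bz (fun i => A (σ i)) a := by
  rw [psh, bz_sum]
  exact Finset.prod_congr rfl fun i _ => bz_single _ _ _

theorem br_rV (x : X) : br (fun i => A (σ i)) (fun y => rV σ (π y)) x = fun t => rV σ (br A π x t) :=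
  rfl

theorem deriv_rV {γ : ℂ → V M} {t : ℂ} (h : AnalyticAt ℂ γ t) :
    deriv (fun z => rV σ (γ z)) t = rV σ (deriv γ t) :=
  ((rV σ).hasFDerivAt.comp_hasDerivAt t h.differentiableAt.hasDerivAt).deriv

theorem exists_ext (hσ : Injective σ) {t : ι → ℂ} (ht : ∀ i, t i ≠ 0) :
    ∃ s : ι' → ℂ, (∀ i, s i ≠ 0) ∧ (fun i => s (σ i)) = t := by
  obtain ⟨s, a, b⟩ := exists_dep' (E := fun _ => ℂ) hσ (fun _ => 1) t
  refine ⟨s, fun i => ?_, funext a⟩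
  by_cases e : i ∈ range σ
  · obtain ⟨i, rfl⟩ := e
    exact a i ▸ ht i
  · exact b i e ▸ one_ne_zero

theorem Cv.Par.res {o : ι} (h : Par (σ o) C N A π) (hC : IsCurve (σ o) g m C) (hσ : Injective σ) :
    Par o (rV σ '' C) N (fun i => A (σ i)) (fun y => rV σ (π y)) ∧
      IsCurve o g (fun i => m (σ i)) (rV σ '' C) := by
  have p : Par o (rV σ '' C) N (fun i => A (σ i)) (fun y => rV σ (π y)) := by
    refine ⟨h.nd, fun i => h.sec _, fun x i => h.ne x _, fun c => ⟨?_, ?_⟩,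
      fun x y t e => h.inj_o hC (congrFun e o), fun x => ?_, fun n hn => ?_⟩
    · rintro ⟨c, a, rfl⟩
      obtain ⟨x, t, b, rfl⟩ := (h.img c).1 a
      exact ⟨x, _, fun i => b _, rV_smul _ _⟩
    · rintro ⟨x, t, b, rfl⟩
      obtain ⟨s, a, rfl⟩ := exists_ext hσ b
      exact ⟨_, h.smul_mem x a, rV_smul _ _⟩
    · rw [br_rV, deriv_rV (an_br h.sec x)]
      exact h.imm x
    · rw [br_rV, br_rV, deriv_rV (an_br h.sec _), deriv_rV (an_br h.sec _)]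
      exact h.cross n hn
  refine ⟨p, p.isCurve_iff.2 fun a ha => ?_⟩
  obtain ⟨b, e, k⟩ := exists_dep' (E := fun _ => ℕ) hσ (fun _ => 0) a
  obtain rfl : (fun i => b (σ i)) = a := funext e
  have := h.isCurve_iff.1 hC b fun q => ha (q ▸ rfl)
  rw [← psh_eq hσ (b := fun i => (b i : ℤ)) (fun i q => by rw [k i q]; rfl), bz_psh,
    ← sum_sup hσ fun i q => by rw [k i q]; simp] at this
  refine ⟨fun s hs => ?_, this.2⟩
  obtain ⟨μ, d⟩ := this.1 s hs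
  obtain ⟨μ, rfl⟩ := (rx hσ k).surjective μ
  exact ⟨μ, d⟩

end

theorem Cv.eq_of_gen {L : LB R} {s s' : X → ℂ} (a : s ∈ L.Γ) (b : s' ∈ L.Γ) (N : Finset (X × X))
    (P : Finset X) (e : ∀ y, Sm N y ∧ y ∉ P → s y = s' y) (y : X) : s y = s' y := by
  have := R.neBot y
  refine sub_eq_zero.1 (((a y).sub (b y)).zero_or_ne.elim (fun k => k.self_of_nhds) fun k => ?_)
  obtain ⟨z, c, d⟩ := (k.and (Xi.ev_sm N P y)).exists
  exact (c (sub_eq_zero.2 (e z d))).elim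

section

variable {ch : Ch ι' J'} {x : ch.W ν} {π : X → V ch.M} {u : X → ∀ l, ch.E l →L[ℂ] ℂ} {p : ν → X}
  {ξ : X → ℂ} (c : Cr N A x π u p ξ)
include c

open Classical in
theorem Cv.Cr.spc_iff (y : X) {t : ι' → ℂ} (ht : ∀ i, t i ≠ 0) :
    Ch.Spc x (t • π y) ↔ ¬(Sm N y ∧ y ∉ Finset.univ.image p) :=
  Xi.cond_iff c.par (mem_image_iff c.par c.sm c.mark) y ht

open Classical in
theorem Cv.Cr.leadAt {y : X} (hy : Sm N y ∧ y ∉ Finset.univ.image p) :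
    Ch.LeadAt x (π y) (deriv (br A π y) 0) (ξ y) := fun w hw μ => by
  rw [Ch.gr_unique hw (c.gr y) (c.mem.1 _), c.Xi, wsec, if_pos hy, one_pow, one_mul]

open Classical in
/-- a branch through an ordinary point -/
theorem Cv.Cr.exists_leadAt {γ : ℂ → V ch.M} (hγ : IsBranch ch.o (Ch.crv x) γ)
    (hs : ¬Ch.Spc x (γ 0)) : ∃ (y : X) (t b : ι' → ℂ) (a : ℂ), (∀ i, t i ≠ 0) ∧ a ≠ 0 ∧
      (Sm N y ∧ y ∉ Finset.univ.image p) ∧ γ 0 = t • π y ∧
      (∀ i, deriv γ 0 i = b i • π y i + (t i * a) • deriv (br A π y) 0 i) ∧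
      ∀ ρ, Ch.LeadAt x (γ 0) (deriv γ 0) ρ ↔ ρ = (∏ i, t i ^ ch.χ i) * ξ y / a ^ ch.k := by
  obtain ⟨y, s, φ, a1, a2, a3, a4, a5, a6⟩ := c.par.factor_branch hγ
  have d := c.par.deriv_factor a1 a3 a4 a6
  have e := (d ch.o).1
  have hy := not_not.1 fun k => hs (e ▸ (c.spc_iff y a2).2 k)
  have k : Ch.LeadAt x (γ 0) (deriv γ 0)
      ((∏ i, s 0 i ^ ch.χ i) * ξ y / deriv φ 0 ^ ch.k) := fun w hw μ => by
    rw [e] at hw ⊢
    rw [Ch.gr_unique hw (Ch.gr_smul (c.gr y) a2) (c.mem.1 _), _root_.smul_apply,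
      c.leadAt hy _ (c.gr y), Ch.wedge_smul μ _ _ _ _ ((d ch.o).2.trans (add_comm _ _)),
      chr_χ _ a2, smul_eq_mul]
    simp only [mul_pow]
    field_simp
  refine ⟨y, s 0, deriv s 0, _, a2, a5, hy, e, fun i => (d i).2.trans (add_comm _ _), fun ρ =>
    ⟨fun q => ?_, fun q => q ▸ k⟩⟩
  obtain ⟨μ, hμ⟩ := Ch.exists_wedge_ne (Ch.crv_ne hγ.mem.self_of_nhds) hγ.imm
  obtain ⟨w, hw⟩ := Ch.mem_crv.1 hγ.mem.self_of_nhds
  exact mul_right_cancel₀ hμ ((q w hw μ).symm.trans (k w hw μ))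

end

namespace Ch.Res

variable {ch' : Ch ι' J'} (D : ch'.Res ι J) {x : ch'.W ν} {ν' : Type} [Fintype ν']

theorem prod_cmb {t : ι' → ℂ} (ht : ∀ i, t i ≠ 0) (a : ι → ℤ) (b : J' → ℤ) (c : ℤ) :
    ∏ i, t i ^ D.cmb a b c i = (∏ i, t (D.σ i) ^ a i) * (∏ j, (∏ i, t i ^ ch'.wd j i) ^ b j) *
      (∏ i, t i ^ ch'.χ i) ^ c := by
  simp only [cmb, Pi.add_apply, zpow_add₀ (ht _), Finset.prod_mul_distrib, prod_psh D.σ_inj,
    Finset.sum_apply, zpow_sum_ne (ht _), Pi.smul_apply, smul_eq_mul, ← Finset.prod_zpow,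
    ← zpow_mul, mul_comm c, mul_comm (b _)]
  rw [Finset.prod_comm (s := (Finset.univ : Finset J'))]

theorem bz_cmb (A : ι' → LB R) (a : ι → ℤ) (b : J' → ℤ) (c : ℤ) : bz A (D.cmb a b c) =
    bz (fun i => A (D.σ i)) a * (∏ j, bz A (ch'.wd j) ^ b j) * bz A ch'.χ ^ c := by
  simp only [cmb, bz_add, bz_psh, bz_sum, bz_smul]

theorem chr_a (l : Option J) (t : ι' → ℂ) :
    chr (D.ch.a l) (fun i => t (D.σ i)) = chr (ch'.a (D.τ l)) t := chr_sup D.σ_inj (D.sup l) t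

theorem gr_mkW {z : ch'.Pt} (h : z ∈ gr x) (Ξ : Tn D.ch.M D.ch.slot →L[ℂ] D.ch.E none) :
    D.pt z ∈ gr (D.mkW x Ξ) := ⟨fun _ => h.1 _, fun l μ => h.2 _ (D.ra l μ)⟩

theorem surj_mkW (hx : x ∈ ch'.base ν) (Ξ : Tn D.ch.M D.ch.slot →L[ℂ] D.ch.E none) (l : Option J) :
    Surjective ((D.mkW x Ξ).Q l) := (hx.1 _).comp (D.ra l).surjective

theorem mkW_scl (a : J' → ℂ) (Ξ : Tn D.ch.M D.ch.slot →L[ℂ] D.ch.E none) :
    D.mkW (scl a x) Ξ = scl (fun j => a (D.φ j)) (D.mkW x Ξ) := rfl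

theorem mkW_act (s : ch'.A ν) (Ξ : Tn D.ch.M D.ch.slot →L[ℂ] D.ch.E none) :
    D.mkW (act s x) (act (D.θ s) (D.mkW x Ξ)).Ξ = act (D.θ s) (D.mkW x Ξ) := rfl

variable {D}

theorem par_res {π : X → V ch'.M} (hx : x ∈ ch'.base ν) (h : Nod (D.σ D.o) (crv x))
    (p : Par ch'.o (crv x) N A π) :
    Par D.o (rV D.σ '' crv x) N (fun i => A (D.σ i)) (fun y => rV D.σ (π y)) ∧
      IsCurve D.o ch'.g (fun i => ch'.m (D.σ i)) (rV D.σ '' crv x) :=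
  (p.of_nod h).res (hx.2.2.1.of_nod h) D.σ_inj

theorem crv_mkW (hc : D.ch.Cuts) (hx : x ∈ ch'.base ν) (h : Nod (D.σ D.o) (crv x))
    (Ξ : Tn D.ch.M D.ch.slot →L[ℂ] D.ch.E none) : crv (D.mkW x Ξ) = rV D.σ '' crv x := by
  obtain ⟨X, _, _, _, R, N, A, π, p⟩ := hx.2.2.1.isNodal.exists_par
  obtain ⟨l, hl⟩ := hc.cut
  refine crv_eq (ch := D.ch) (par_res hx h p).1 (par_res hx h p).2 (fun l μ => ⟨fun a => ?_,
    fun a => hx.2.1 _ _ fun c b => a _ ⟨c, b, rfl⟩⟩) (l := l) (fun i => (hl i).trans' (by norm_num))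
    ((hl _).trans' (by norm_num))
  rintro _ ⟨c, b, rfl⟩
  exact (mem_crv_iff.1 b).2 _ (D.ra l μ) a

theorem Rel.crv {x' : ch'.W ν'} {x : D.ch.W ν} (r : D.Rel x' x) : crv x = rV D.σ '' crv x' :=
  Set.ext fun _ => ⟨fun ⟨z, a, e⟩ => let ⟨w, b, d⟩ := r.onto z a; ⟨_, ⟨w, b, rfl⟩, e ▸ d ▸ rfl⟩,
    fun ⟨_, ⟨z, a, d⟩, e⟩ => ⟨_, r.into z a, e ▸ d ▸ rfl⟩⟩

theorem Rel.val_iff {x' : ch'.W ν'} {x : D.ch.W ν} (r : D.Rel x' x) {j : J}
    (hQ : Surjective (x.Q (some j))) {c : V ch'.M} (a : c ∈ Ch.crv x') {y : ℂ} :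
    Val x j (rV D.σ c) y ↔ Val x' (D.φ j) c y := by
  refine ⟨fun b w hw μ => ?_, fun b w hw μ => ?_⟩
  · obtain ⟨μ, rfl⟩ := (D.rb j).surjective μ
    exact r.X j μ ▸ b _ (r.into _ hw) μ
  · obtain ⟨v, hv⟩ := mem_crv.1 a
    rw [gr_unique hw (r.into _ hv) hQ, r.X]
    exact b v hv _

theorem Rel.fld {x' : ch'.W ν'} {x : D.ch.W ν} (r : D.Rel x' x) {j : J}
    (hQ : Surjective (x.Q (some j))) {c : V ch'.M} (a : c ∈ Ch.crv x') :
    fld x (rV D.σ c) j = fld x' c (D.φ j) :=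
  congrArg Classical.epsilon (funext fun _ => propext (r.val_iff hQ a))

namespace Lnk

variable {L : D.Lnk} {π : X → V ch'.M} {u : X → ∀ l, ch'.E l →L[ℂ] ℂ} {p : ν → X} {ξ : X → ℂ}

theorem mem_I {j : J'} (h : L.n j ≠ 0) : j ∈ L.I := by_contra fun e => h (L.n_sup j e)

theorem prod_χ (L : D.Lnk) {t : ι' → ℂ} (ht : ∀ i, t i ≠ 0) : ∏ i, t (D.σ i) ^ D.ch.χ i =
    (∏ j, (∏ i, t i ^ ch'.wd j i) ^ L.n j) * (∏ i, t i ^ ch'.χ i) ^ L.r := by
  have := D.prod_cmb ht (-D.ch.χ) L.n L.r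
  simp only [L.rel, Pi.zero_apply, zpow_zero, Finset.prod_const_one, Pi.neg_apply, zpow_neg,
    Finset.prod_inv_distrib, zpow_natCast, mul_assoc] at this
  exact (eq_inv_mul_iff_mul_eq₀ (prod_zpow_ne (fun i => ht _) _)).1 this ▸ (mul_one _).symm

theorem bz_χ (L : D.Lnk) (A : ι' → LB R) : bz (fun i => A (D.σ i)) D.ch.χ =
    (∏ j, bz A (ch'.wd j) ^ L.n j) * bz A ch'.χ ^ L.r := by
  have := D.bz_cmb A (-D.ch.χ) L.n L.r
  rw [L.rel, bz_zero, ← neg_one_smul ℤ, bz_smul, zpow_neg_one, mul_assoc, zpow_natCast] at this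
  exact (mul_one _).symm.trans (eq_inv_mul_iff_mul_eq.1 this)

theorem Dom.ind (h : L.Dom x) (c : Cr N A x π u p ξ) {j : J'} (hj : j ∈ L.I) :
    Ind x π u j fun y => fld x (π y) j := fun y =>
  (c.val_iff' y).1 (val_fld (h.sec j hj _ (c.par.mem y)))

theorem IsXi.unique (hx : x ∈ ch'.base ν) {Ξ Ξ' : Tn D.ch.M D.ch.slot →L[ℂ] D.ch.E none}
    (h : L.IsXi x Ξ) (h' : L.IsXi x Ξ') : Ξ = Ξ' := by
  classical
  obtain ⟨X, _, _, _, R, N, A, π, u, p, ξ, c⟩ := exists_cr hx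
  refine ContinuousLinearMap.ext fun μ => c.u_ext (l := D.l₀) (eq_of_gen (c.u_mem _ _).1
    (c.u_mem _ _).1 N (Finset.univ.image p) fun y hy => ?_)
  have a : ¬Spc x (br A π y 0) := fun k => (c.spc_iff y (t := 1) fun _ => one_ne_zero).1
    (by rwa [one_smul, ← br_zero (A := A) (π := π)]) hy
  have b : LeadAt x (br A π y 0) (deriv (br A π y) 0) (ξ y) := (br_zero (A := A) y).symm ▸ c.leadAt hy
  have d : (br A π y 0, u y) ∈ gr x := (br_zero (A := A) y).symm ▸ c.gr y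
  exact (h _ _ (c.par.isBranch y) a b _ d μ).trans (h' _ _ (c.par.isBranch y) a b _ d μ).symm

theorem Dom.fld_smul (h : L.Dom x) {c : V ch'.M} (hc : c ∈ crv x) {t : ι' → ℂ} (ht : ∀ i, t i ≠ 0) :
    ∏ j, fld x (t • c) j ^ L.n j =
      (∏ j, (∏ i, t i ^ ch'.wd j i) ^ L.n j) * ∏ j, fld x c j ^ L.n j := by
  rw [← Finset.prod_mul_distrib]
  refine Finset.prod_congr rfl fun j _ => ?_
  by_cases e : L.n j = 0
  · simp [e]
  · rw [fld_eq (crv_smul hc ht) ((val_fld (h.sec j (mem_I e) c hc)).smul ht), mul_zpow]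

open Classical in
theorem Dom.isXi_of (h : L.Dom x) (c : Cr N A x π u p ξ)
    {Ξ : Tn D.ch.M D.ch.slot →L[ℂ] D.ch.E none}
    (e : ∀ y μ, u y D.l₀ (Ξ μ) = (ξ y ^ L.r * ∏ j, fld x (π y) j ^ L.n j) *
      wsec (ch := D.ch) (fun i => A (D.σ i)) (fun y => rV D.σ (π y)) N (Finset.univ.image p) μ y) :
    L.IsXi x Ξ := fun γ ρ hγ hs hρ w hw μ => by
  obtain ⟨y, t, b, a, ht, ha, hy, e0, e1, k⟩ := c.exists_leadAt hγ hs
  rw [(k ρ).1 hρ]
  rw [e0] at hw ⊢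
  rw [gr_unique hw (gr_smul (c.gr y) ht) (c.mem.1 _), _root_.smul_apply, e, wsec, if_pos hy, br_rV,
    deriv_rV (an_br c.par.sec y), rV_smul, h.fld_smul (c.par.mem y) ht,
    wedge_smul (ch := D.ch) μ _ _ (rV D.σ (deriv (br A π y) 0)) _ (e1 _), ← D.chr_a none,
    chr_χ (ch := D.ch) _ fun _ => ht _, L.prod_χ ht, smul_eq_mul]
  simp only [L.k_eq, mul_pow, div_pow, ← pow_mul, mul_comm L.r, one_pow]
  generalize wedge (ch := D.ch) μ _ _ = W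
  generalize (∏ j, fld x (π y) j ^ L.n j) = P
  generalize (∏ j, (∏ i, t i ^ ch'.wd j i) ^ L.n j) = P'
  generalize (∏ i, t i ^ ch'.χ i) = P''
  field_simp

open Classical in
theorem Dom.xi_mem (h : L.Dom x) (c : Cr N A x π u p ξ) :
    (fun y => ξ y ^ L.r * ∏ j, fld x (π y) j ^ L.n j) ∈
      H0 N ((omega R N (Finset.univ.image p) ^ D.k)⁻¹ * bz (fun i => A (D.σ i)) D.ch.χ) := by
  have a := H0.mul_mem (H0.pow_mem c.xi L.r) (H0.prod_mem (T := Finset.univ)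
    (A := fun j => bz A (ch'.wd j) ^ L.n j) (u := fun j y => fld x (π y) j ^ L.n j) fun j _ => by
      by_cases e : L.n j = 0
      · simp only [e, zpow_zero]
        exact H0.one_mem
      · exact H0.zpow_mem (c.ind_mem (h.ind c (mem_I e))) (fun y => h.ne' j e _ (c.par.mem y)) _)
  rw [mul_pow, inv_pow, ← pow_mul, mul_comm ch'.k, ← L.k_eq, mul_assoc, mul_comm (bz _ _ ^ _),
    ← L.bz_χ] at a
  rwa [Finset.prod_fn] at a

variable (hc : D.ch.Cuts) (h : L.Dom x)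
include hc h

theorem Dom.crv_f : crv (L.f x) = rV D.σ '' crv x := crv_mkW hc h.mem h.nod _

/-- **restriction of a presentation** -/
theorem Dom.cr (c : Cr N A x π u p ξ) :
    Cr N (fun i => A (D.σ i)) (L.f x) (fun y => rV D.σ (π y)) (fun y l => u y (D.τ l)) p
      fun y => ξ y ^ L.r * ∏ j, fld x (π y) j ^ L.n j := by
  classical
  obtain ⟨a, b⟩ := par_res h.mem h.nod c.par
  obtain ⟨Ξ, e⟩ := Par.exists_Xi (ch := D.ch) (x := D.mkW x 0) ((crv_mkW hc h.mem h.nod 0).symm ▸ a)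
    c.sm_image (fun s hs => mem_PP.1 (a.le_PP b (hc.ne none) hs)) (h.xi_mem c)
  have k := h.isXi_of c fun y => e y _ (D.gr_mkW (c.gr y) 0)
  rw [← h.crv_f hc] at a b
  refine .of a (D.surj_mkW h.mem _) (fun l μ q => h.mem.2.1 _ _ (c.par.val_eq_zero.2 q)) b
    (fun y => D.gr_mkW (c.gr y) _) c.sm c.inj (fun n => ?_) (h.xi_mem c) (fun y => mul_ne_zero
      (pow_ne_zero _ (c.ne y)) (Finset.prod_ne_zero_iff.2 fun j _ => ?_)) fun y μ => ?_
  · obtain ⟨t, d, q⟩ := c.mark n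
    exact ⟨_, fun i => d _, (congrArg (rV D.σ) q).trans (rV_smul _ _)⟩
  · by_cases q : L.n j = 0
    · simp [q]
    · exact zpow_ne_zero _ (h.ne' j q _ (c.par.mem y))
  · rw [← e y _ (D.gr_mkW (c.gr y) 0) μ, IsXi.unique h.mem k (Classical.epsilon_spec ⟨Ξ, k⟩)]
    rfl

theorem Dom.isXi : L.IsXi x (L.f x).Ξ :=
  let ⟨_, _, _, _, _, _, _, _, _, _, _, c⟩ := exists_cr h.mem
  h.isXi_of c (h.cr hc c).Xi

theorem Dom.mem_base : L.f x ∈ D.ch.base ν :=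
  let ⟨_, _, _, _, _, _, _, _, _, _, _, c⟩ := exists_cr h.mem
  (h.cr hc c).mem

theorem Dom.rel : D.Rel x (L.f x) := by
  refine ⟨fun _ _ => rfl, fun z a => D.gr_mkW a _, fun z a => ?_⟩
  obtain ⟨_, ⟨w, b, rfl⟩, e⟩ : z.1 ∈ rV D.σ '' crv x := h.crv_f hc ▸ ⟨z, a, rfl⟩
  exact ⟨w, b, Prod.ext e (funext fun l => gr_unique (c := z.1) (e ▸ D.gr_mkW b _) a
    (D.surj_mkW h.mem _ l))⟩

theorem Dom.orb {c c' : V ch'.M} (a : c ∈ crv x) (a' : c' ∈ crv x)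
    (e : Orb (rV D.σ c) (rV D.σ c')) : Orb c c' := by
  obtain ⟨X, _, _, _, R, N, A, π, u, p, ξ, k⟩ := exists_cr h.mem
  obtain ⟨y, t, b, rfl⟩ := (k.par.img c).1 a
  obtain ⟨y', t', b', rfl⟩ := (k.par.img c').1 a'
  obtain ⟨s, -, e⟩ := e
  rw [rV_smul, rV_smul, smul_smul] at e
  rw [k.par.π_eq ((h.cr hc k).par.fibre (fun i => b' _) e)]
  exact (Orb.symm ⟨t, b, rfl⟩).trans ⟨t', b', rfl⟩

theorem Dom.val_iff {c : V ch'.M} (a : c ∈ crv x) {j : J} {y : ℂ} :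
    Val (L.f x) j (rV D.σ c) y ↔ Val x (D.φ j) c y :=
  (h.rel hc).val_iff (D.surj_mkW h.mem _ _) a

theorem Dom.fld_f {c : V ch'.M} (a : c ∈ crv x) (j : J) :
    fld (L.f x) (rV D.σ c) j = fld x c (D.φ j) := (h.rel hc).fld (D.surj_mkW h.mem _ _) a

theorem Dom.branch {γ : ℂ → V ch'.M} (a : IsBranch ch'.o (crv x) γ) :
    IsBranch D.o (crv (L.f x)) fun z => rV D.σ (γ z) :=
  ⟨((rV (M := ch'.M) D.σ).analyticAt _).comp a.holo, a.mem.mono fun _ b => h.crv_f hc ▸ ⟨_, b, rfl⟩,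
    (deriv_rV (σ := D.σ) a.holo).symm ▸ (a.of_nod h.nod).imm⟩

theorem Dom.lift_branch {γ : ℂ → V D.ch.M} (a : IsBranch D.o (crv (L.f x)) γ) :
    ∃ γ', IsBranch ch'.o (crv x) γ' ∧ ∀ᶠ z in 𝓝 0, γ z = rV D.σ (γ' z) := by
  obtain ⟨X, _, _, _, R, N, A, π, u, p, ξ, k⟩ := exists_cr h.mem
  obtain ⟨y, s, φ, a1, a2, a3, a4, -, a6⟩ := (h.cr hc k).par.factor_branch a
  obtain ⟨r, b1, b2⟩ := exists_dep' (E := fun _ => ℂ → ℂ) D.σ_inj (fun _ _ => 1) fun i t => s t i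
  have b : ∀ i, AnalyticAt ℂ (r i) 0 ∧ r i 0 ≠ 0 := fun i => by
    by_cases e : i ∈ range D.σ
    · obtain ⟨i, rfl⟩ := e
      exact b1 i ▸ ⟨analyticAt_pi_iff.1 a1 i, a2 i⟩
    · exact b2 i e ▸ ⟨analyticAt_const, one_ne_zero⟩
  have d : AnalyticAt ℂ (fun t => (fun i => r i t) • br A π y (φ t)) 0 :=
    Dict.an_smul (analyticAt_pi_iff.2 fun i => (b i).1) ((an_br k.par.sec y).comp_of_eq a3 a4)
  have e : ∀ᶠ z in 𝓝 0, γ z = rV D.σ ((fun i => r i z) • br A π y (φ z)) := a6.mono fun z e => by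
    rw [e, rV_smul]
    exact congrArg₂ _ (funext fun i => (congrFun (b1 i) z).symm) rfl
  refine ⟨_, IsBranch.of_nod (o := D.σ D.o) k.cur.nod ⟨d, (eventually_all.2 fun i =>
    (b i).1.continuousAt.eventually_ne (b i).2).mono fun z q =>
      k.par.cone _ q _ (k.par.br_mem y _), ?_⟩, e⟩
  have := a.imm
  rwa [e.self_of_nhds, EventuallyEq.deriv_eq e, deriv_rV d] at this

theorem Dom.isNode_iff {c : V ch'.M} (a : c ∈ crv x) :
    IsNode D.o (crv (L.f x)) (rV D.σ c) ↔ IsNode ch'.o (crv x) c := by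
  obtain ⟨X, _, _, _, R, N, A, π, u, p, ξ, k⟩ := exists_cr h.mem
  obtain ⟨y, t, b, rfl⟩ := (k.par.img c).1 a
  rw [k.par.isNode_iff b, rV_smul]
  exact (h.cr hc k).par.isNode_iff fun i => b _

theorem Dom.orb_p {c : V ch'.M} (a : c ∈ crv x) (n : ν) :
    (∃ s : ι → ℂ, rV D.σ c = s • (L.f x).p n) ↔ ∃ s : ι' → ℂ, c = s • x.p n :=
  ⟨fun ⟨_, e⟩ => (h.orb hc (h.mem.2.2.2.1 n).1 a (.of_smul (fun _ => crv_ne a _) e)).imp
    fun _ b => b.2, fun ⟨s, e⟩ => ⟨_, (congrArg _ e).trans (rV_smul s _)⟩⟩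

theorem Dom.spc_iff {c : V ch'.M} (a : c ∈ crv x) : Spc (L.f x) (rV D.σ c) ↔ Spc x c :=
  or_congr (h.isNode_iff hc a) (exists_congr (h.orb_p hc a))

omit hc in
theorem Dom.act {s : ch'.A ν} (hs : IsUnit s) : L.Dom (act s x) := by
  refine ⟨Cv.act_mem_base h.mem hs, ?_, fun j hj c a => ?_, fun j hj c a b => ?_, fun j hj c a => ?_⟩
  · rw [Cv.crv_act hs]
    exact (Cv.IsCurve.lin (h.mem.2.2.1.of_nod h.nod) fun i =>
      (ContinuousLinearMap.isUnit_iff_bijective.1 (isUnit_fst hs i)).1).nod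
  all_goals
    replace a := (mem_crv_act hs).1 a
    obtain ⟨c, a, rfl⟩ := a
  · exact (h.sec j hj c a).imp fun _ => (val_act hs).2
  · rw [fld_act hs]
    exact h.ne j hj c a fun n t e => let ⟨t, e⟩ := (orb_act hs n).2 ⟨t, e⟩; b n t e
  · rw [fld_act hs]
    exact h.ne' j hj c a

theorem Dom.f_act {s : ch'.A ν} (hs : IsUnit s) : L.f (Ch.act s x) = Ch.act (D.θ s) (L.f x) := by
  obtain ⟨X, _, _, _, R, N, A, π, u, p, ξ, c⟩ := exists_cr h.mem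
  have a := (h.act hs).cr hc (c.act hs)
  have b := (h.cr hc c).act (D.θ_isUnit hs)
  simp only [fld_act hs] at a
  exact (congrArg (D.mkW _) (ContinuousLinearMap.ext fun μ =>
    a.u_ext fun y => (a.Xi y μ).trans (b.Xi y μ).symm)).trans (D.mkW_act s _)

omit hc in
theorem Dom.fld_scl (a : J' → ℂ) {j : J'} (hj : j ∈ L.I) {c : V ch'.M} (b : c ∈ crv x) :
    fld (Ch.scl a x) c j = a j * fld x c j :=
  fld_eq (x := Ch.scl a x) b ((val_fld (h.sec j hj c b)).scl a)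

omit hc in
theorem Dom.scl {a : J' → ℂ} (ha : ∀ j, a j ≠ 0) : L.Dom (scl a x) :=
  ⟨h.mem, h.nod, fun j hj c b => (h.sec j hj c b).imp' _ fun _ e => e.scl a,
    fun j hj c b e => h.fld_scl a hj b ▸ mul_ne_zero (ha j) (h.ne j hj c b e),
    fun j hj c b => h.fld_scl a (mem_I hj) b ▸ mul_ne_zero (ha j) (h.ne' j hj c b)⟩

theorem Dom.f_scl {a : J' → ℂ} (ha : ∀ j, a j ≠ 0) (e : ∏ j, a j ^ L.n j = 1) :
    L.f (Ch.scl a x) = Ch.scl (fun j => a (D.φ j)) (L.f x) := by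
  obtain ⟨X, _, _, _, R, N, A, π, u, p, ξ, c⟩ := exists_cr h.mem
  have b := (h.scl ha).cr hc (c.setX _)
  refine (congrArg (D.mkW _) (ContinuousLinearMap.ext fun μ => b.u_ext fun y => (b.Xi y μ).trans
    (.trans (congrArg (fun z => _ * z * _) ?_) ((h.cr hc c).Xi y μ).symm))).trans (D.mkW_scl a _)
  rw [← one_mul (∏ j, fld x _ j ^ _), ← e, ← Finset.prod_mul_distrib]
  refine Finset.prod_congr rfl fun j _ => ?_
  by_cases q : L.n j = 0
  · simp [q]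
  · rw [h.fld_scl a (mem_I q) (c.par.mem y), mul_zpow]

end Lnk

end Ch.Res

end Vale.Agent.P269
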