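import Vale.Agent.P287Q.G.Map.NdA
import Vale.Agent.P287Q.G.Bas.Dg
import Vale.Agent.P287Q.G.Glu.Diag
import Vale.Agent.P269.Loc.Lam

set_option linter.unusedSectionVars false
set_option linter.style.haveILetI false

/-!
# The invariants as integrals over the matched solutions
-/

namespace Vale.Agent.P269

open P291Z Set Function Topology Filter Base Holo

variable {S Λ R J K ι ν κ I : Type} [Fintype S] [Fintype Λ] [Fintype R] [Fintype J] [Fintype K]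
  [Fintype ι] [DecidableEq ι] [Fintype ν] [Fintype κ] [Fintype I] [DecidableEq I]

namespace Ch

variable {ch : Ch ι J} {F : Fam S Λ R J K} {e : K → ι → ℕ} {K₀ : RD R} {ℓ : R → ι → ℤ} {b : ℕ}
  {U Z O : Set (ch.WF ν κ Λ)} {n r : ℕ}

/-- the values at the branches of the persistent nodes -/
theorem GZ.eqM_nd (hO : GZ F ℓ O) : EqM (actF F.toWt) (F.actD κ) O (F.cD κ)
    (fun s q => θv ℓ (.inr (q, false)) s) fun x q => vl2 x (.inr (q, false)) (.inr (q, true)) :=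
  have a : Tq.Hm fun (s : ch.AF ν κ S) q => θv ℓ (.inr (q, false)) s :=
    ⟨funext fun _ => (hm_θv ℓ _).one, fun a b ha hb => funext fun _ => (hm_θv ℓ _).mul a b ha hb,
      fun a ha => continuousAt_pi.2 fun _ => (hm_θv ℓ _).cont a ha⟩
  ⟨⟨a.ρ.toMonoidHom, a.ρ.continuous_toFun, fun _ => rfl⟩, fun _ hx q _ => (hO.eqh_nd q).maps hx,
    continuousOn_pi.2 fun q => (hO.eqh_nd q).cont,
    fun a ha x hx => funext fun q => (hO.eqh_nd q).eqv a ha x hx⟩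

theorem GZ.vr_kdQ' [DecidableEq R] (hF : F.Good) (hR : F.Reg K₀) (hO : GZ F ℓ O)
    (h : (ch.kdQ ν κ F).Gd (actF F.toWt) Z O n r) : haveI := hO.nice
    supp (δ (F.dgT O)) = ∅ ∧ supp (F.dgT O) ⊆ range (Quo.incl _ h.dom.sub) ∧
      (ch.kdQ ν κ F).vr (actF F.toWt) Z O = gys (Quo.incl _ h.dom.sub) (F.dgT O) := by
  haveI := hO.nice
  have a := hO.eqM_nd
  have b := KD.Gd.mk (Z := Z) ⟨h.dom.sub, h.dom.opn, h.dom.isAct, h.dom.orb, fun x hx =>
    ((Fam.kdg_zero (F := F)).trans (show _ ↔ Dia x from forall_congr' fun _ => ⟨fun g => Prod.ext rfl g,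
      fun g => (congrArg Prod.snd g :)⟩)).trans (kdQ_zero.symm.trans (h.dom.zero x hx))⟩
    ((Fam.ok_kdg hF.toInv hR).pb' a)
  have c := Fam.vr_diag hF hR a b (ev := fun q => (hO.eqh_nd q).toEqv.qm) (fun _ _ => rfl)
    Finset.univ.nodup_toList fun q => Finset.mem_toList.2 (Finset.mem_univ q)
  rw [← List.map_congr_left fun q _ => hO.evN_eq q F.diag] at c
  refine ⟨c.1, c.2.1, Eq.trans (Eq.symm ?_) c.2.2⟩
  rcases Z.eq_empty_or_nonempty with rfl | ⟨x, hx⟩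
  · haveI : IsEmpty (Quo (actF F.toWt) (∅ : Set (ch.WF ν κ Λ))) := ⟨fun z => z.out.2⟩
    exact LinearMap.ext fun _ => Orb.BM_eq_of_isEmpty _ _
  have d := h.dom.sub hx
  have f := (h.dom.zero x d).2 hx
  obtain rfl : Fintype.card κ * F.dv K₀ = r := Nat.add_left_cancel ((congrArg (· + _)
    ((h.ok.fam.rank x d).symm.trans (b.ok.fam.rank x d))).trans
      ((b.ok.obs_rank x d f).symm.trans (h.ok.obs_rank x d f)))
  refine b.vr_congr h (B := fun _ => .id) ⟨fun _ _ _ _ => trivial, fun _ _ => continuousOn_const,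
    fun _ _ s hs w _ => funext₂ fun q j =>
      congrArg (fun z => (∏ i, s.1 i ^ F.wt j i) * z * w q j) ?_, fun _ _ _ g => g,
    fun _ _ => mem_of_eq_of_mem (sub_self _) (zero_mem _), fun _ _ _ _ g => g⟩ fun _ _ _ _ g => g
  have g := (Cv.isUnit_iff.1 (isUnit_dupF hs)).2.2 (.inr (q, false))
  change ∏ r, (∏ i, (dup s.2).2.2 (.inr (q, false)) i ^ ℓ r i) ^ F.w j r =
    ∏ i, (dup s.2).2.2 (.inr (q, false)) i ^ ch.wd j i
  simp only [hO.wt, ← Finset.prod_zpow, ← zpow_mul, zpow_sum_ne (g _), mul_comm]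
  exact Finset.prod_comm

/-- the matching conditions cut out the diagonals -/
theorem GZ.vr_kdQ [DecidableEq R] (hF : F.Good) (hR : F.Reg K₀) {O : Set (ch.WF ν κ Λ)}
    (hO : GZ F ℓ O) {n r : ℕ} (h : (ch.kdQ ν κ F).Gd (actF F.toWt) Z O n r) : haveI := hO.nice
    (ch.kdQ ν κ F).vr (actF F.toWt) Z O = gys (Quo.incl _ h.dom.sub) (F.dgT O) :=
  (hO.vr_kdQ' hF hR h).2.2

/-- integrals over the matched solutions -/
theorem GZ.intg_kdQ [DecidableEq R] (hF : F.Good) (hR : F.Reg K₀) (hO : GZ F ℓ O)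
    (h : (ch.kdQ ν κ F).Gd (actF F.toWt) Z O n r) [CompactSpace (Quo (actF F.toWt) Z)]
    (v : BM (Quo (actF F.toWt) O)) (c : H (Quo (actF F.toWt) O)) :
    F.itg v c = Loc.intg ((ch.kdQ ν κ F).vr (actF F.toWt) Z O v)
      (H.map (EqM.incl (act := actF F.toWt) h.dom.sub).map c) := by
  haveI := hO.nice
  obtain ⟨a, ha, rfl⟩ := hcls_surj c
  obtain ⟨h1, h2, h3⟩ := hO.vr_kdQ' hF hR h
  have h4 := Orb.ev_lgys h.isClosedEmbedding (Orb.LCo.of_supp h1 h2) (cap (hcls a) v) (a := 1)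
    (fun _ => supp_eq_empty.1 cocycle_one _) ((isClosed_supp _).preimage
      h.isClosedEmbedding.continuous).isCompact h2
    fun _ => mem_of_eq_of_mem (by rw [one_mul, sub_self]) (zero_mem _)
  rw [map_one, Orb.lgys_eq_gys h.isClosedEmbedding h1 h2, ← h3, h.vr_cap ha, ev_eq (cap _ v)] at h4
  rw [H.map_hcls _ ha, Loc.intg_eq]
  exact h4.symm

theorem GZ.cn_incl (h : GZ F ℓ O) (hd : F.IsDiag F.diag) (h' : GZ F ℓ Z) (e : Z ⊆ O)
    {f : Fac F.toWt ν κ} (hf : f.At O) :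
    H.map (EqM.incl (act := actF F.toWt) e).map (F.cn O f) = F.cn Z f := by
  cases f
  exacts [(h.cl_incl hd h' e hf).symm, (h.cl_incl hd h' e hf).symm, (h.cl_incl hd h' e hf).symm,
    map_one _, (h.cl_incl hd h' e hf).symm]

/-- the virtual class over the main stratum -/
theorem Ok.isW_main (h : ch.Ok F e K₀ ℓ b U) (hE : F.PolE) {φ : I → J} {m ψ} (hs : F.Sh 0 φ m ψ) :
    ∃ d, (ch.kd ν κ F e).IsW (actF F.toWt) _ (ch.main κ F 0) d
      (virF F e (ch.cyc κ F (0 : ν → J → ℕ))) := by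
  have a : Gr ch F (0 : ν → J → ℕ) φ m ψ := h.lat.gr h.inv hs (0 : ν → ℕ)
  have c : _ = ch.solF ν κ F ∩ ch.main κ F 0 :=
    h.cuts.sol_cyc h.inv fun j a b => hs.ne j a b rfl
  have d := lev_main (ch := ch) (κ := κ) h.inv (0 : ν → J → ℕ)
  have f := h.toStd.dom_lev h.pr d (h.num.lc_main h.inv h.sm)
  obtain ⟨_, g⟩ := h.toStd.gd d.adm f
  obtain ⟨V, k, l⟩ := f.opn
  have p : ch.main κ F 0 ∩ U ∩ ch.dom ν κ F e = ch.main κ F 0 ∩ U ∩ V :=
    Set.ext fun _ => ⟨fun q => ⟨q.1, (l.le q).2⟩, fun q => l.ge ⟨q.1.1, q.2⟩⟩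
  exact ⟨_, ((((h.vd a (locAn_main h.cuts h.wt hE _)).isV_iff h.toStd).2 rfl).congr
    (lev_cyc h.inv h.cuts _).inv d.inv fun x hx => (NdA.eventually_main (c.le hx).2).mono
      fun y q => ⟨fun s => q (h.cuts.cyc_subset_adm h.inv _ s),
        fun s => ⟨subset_closure s, s.1.1⟩⟩).isW (c ▸ g :) ⟨V, k, l⟩ (p ▸ (h.pr.str d
          fun _ q => (h.num.mfd_main h.sm a q).2).inter k (p ▸ g.ivt))⟩

theorem Std.exists_isD [DecidableEq R] (hs : ch.Std F e K₀ ℓ) (hF : F.Good) (hl : ch.Lat F.toWt ℓ)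
    (hO : O = ch.zM ν κ F) {v : BM (Quo (actF F.toWt) O)}
    (hv : (ch.kd ν κ F e).IsW (actF F.toWt) O (ch.main κ F 0) n v)
    (hc : IsCompact (dia F.toWt O)) : ∃ w : BM (Quo (actF F.toWt) (ch.zD ν κ F)),
      IsD F e (actF F.toWt) _ w ∧ CompactSpace (Quo (actF F.toWt) (ch.zD ν κ F)) ∧
      ∀ (P : AM Λ R J ν κ → Prop) (fs : List (Fac F.toWt ν κ)), AM.Ivt F.toWt P →
        IsClopen (selQ F.toWt ℓ O P) → (∀ f ∈ fs, f.At O) →
        IsClopen (selQ F.toWt ℓ (ch.zD ν κ F) P) ∧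
        F.itg v (hcls (ind (selQ F.toWt ℓ O P)) * (fs.map (F.cn O)).prod) = Loc.intg w
          (hcls (ind (selQ F.toWt ℓ (ch.zD ν κ F) P)) * (fs.map (F.cn _)).prod) := by
  subst hO
  obtain ⟨_, _, _, k, -⟩ := id hv
  haveI := k.isActZ
  have a := hs.gz inter_subset_left (fun _ a => a.2.1) k.orbZ
  have c := hs.gd_kdQ (fun _ a => ⟨a.1, a.2.1⟩) k.orbZ
  have d := a.mono c.dom.sub c.ivtZ c.lcZ
  haveI : CompactSpace (Quo (actF F.toWt) (ch.zD ν κ F)) :=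
    ⟨(c.isClosedEmbedding.isCompact_preimage hc).of_isClosed_subset isClosed_univ fun z _ =>
      Quot.inductionOn z fun x => GZ.dia_eq.ge (mem_iInter.2 fun q =>
        (a.mk_mem_diq (x := ⟨x.1, x.2.1⟩)).2 (x.2.2 q))⟩
  refine ⟨_, ⟨_, _, _, v, hv, c, rfl⟩, ‹_›, fun P fs hP h1 h2 => ?_⟩
  have f : selQ F.toWt ℓ (ch.zD ν κ F) P = Quo.incl _ c.dom.sub ⁻¹' selQ F.toWt ℓ _ P :=
    selQ_ext hl d.sol hP fun x m g => mem_selQ (x := ⟨x.1, x.2.1⟩) hl.wd a.base hP g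
  refine ⟨f ▸ h1.preimage c.isClosedEmbedding.continuous, (a.intg_kdQ hF hs.reg c v _).trans
    (congrArg _ ?_)⟩
  rw [map_mul, H.map_hcls _ (cocycle_ind' h1), pull_ind, map_list_prod, List.map_map, f]
  exact congrArg (_ * List.prod ·) (List.map_congr_left fun f hf =>
    a.cn_incl (Fam.isDiag_diag hF hs.reg) d c.dom.sub (h2 f hf))

end Ch

namespace Fam

variable [DecidableEq R] {F : Fam S Λ R J K} {k D : ℕ}

variable (ν κ) in
/-- **the virtual class of the matched solutions** -/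
theorem Nice.exists_isD (hN : F.Nice 0) (hc : F.Cp) (hk : F.Big k) (hD : F.BigD k D) (g : ℤ)
    (d : R → ℤ) : ∃ w : BM (Quo (Ch.actF F.toWt) ((F.sch ν κ k D g d).zD ν κ F)),
      Ch.IsD F (F.tdeg (F.sch ν κ k D g d)) (Ch.actF F.toWt) _ w ∧
      CompactSpace (Quo (Ch.actF F.toWt) ((F.sch ν κ k D g d).zD ν κ F)) ∧
      ∀ (P : AM Λ R J ν κ → Prop) (fs : List (Fac F.toWt ν κ)), AM.Ivt F.toWt P →
        F.Lvl k D g d 0 P fs → (fs.filterMap Fac.dq).Nodup →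
        IsClopen (Ch.selQ F.toWt ℓs ((F.sch ν κ k D g d).zD ν κ F) P) ∧
        F.intg (F.vir κ k D g d 0) P fs = Loc.intg w
          (hcls (ind (Ch.selQ F.toWt ℓs ((F.sch ν κ k D g d).zD ν κ F) P)) *
            (fs.map (F.cn _)).prod) := by
  obtain ⟨K₀, a⟩ := hN.reg
  obtain ⟨b, c⟩ := hN.sm
  obtain ⟨_, φ, m, ψ, s⟩ := hN.sh
  obtain ⟨U, h⟩ := hN.toGood.ok' ν κ a c hk hD g d
  obtain ⟨n, hv⟩ := h.isW_main hN.pol s
  obtain ⟨w, h1, h2, h3⟩ := h.toStd.exists_isD hN.toGood h.lat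
    (h.cuts.sol_cyc h.inv fun j a b => s.ne j a b rfl) hv (hN.toGood.isCompact_dia hc hk hD 0)
  refine ⟨w, h1, h2, fun P fs hP L hn => ?_⟩
  obtain ⟨h4, h5, -⟩ := St.dg F K₀ hN.toGood a
  rw [L.intg_eq h4 h5, clL_eq hn]
  exact h3 P fs hP L.clo L.fac

end Fam

end Vale.Agent.P269
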