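import Vale.Agent.P287Q.G.Bas.Supp
import Vale.Agent.P287Q.G.Vir.RD

/-!
# Independence of the presentation: the case of an empty target
-/

set_option linter.unusedSectionVars false

namespace Vale.Agent.P269

open P291Z Set Function Topology Filter MvPolynomial

variable {S Λ R J K ν κ : Type} [Fintype S] [Fintype Λ] [Fintype R] [Fintype J] [Fintype K]
  [Fintype ν] [Fintype κ]

/-- The empty family in which exactly the fields in `Z` are base fields. -/
@[reducible] def Fam.emp (F : Fam S Λ R J K) (Z : Set J) : Fam S Λ R J K :=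
  { F with U := ∅, E := univ, mov := Zᶜ, zer := Z }

theorem Fam.emp_cone (F : Fam S Λ R J K) (Z : Set J) : (F.emp Z).cone = ∅ :=
  eq_empty_of_forall_notMem fun _ h => h.2.1.1

namespace Ch

variable {ι : Type} [Fintype ι] [DecidableEq ι] {ch : Ch ι J} {F : Fam S Λ R J K}

theorem crv_of_empty (h : F.cone = ∅) {x : ch.WF ν κ Λ} (hx : x ∈ ch.solF ν κ F) : crv x.2 = ∅ :=
  eq_empty_of_forall_notMem fun c hc => (h.subset ((mem_solF.1 hx).2 c hc).2).elim

theorem gr_empty (ht : ch.Tight) [Nonempty ι] {ν' : Type} [Fintype ν'] {x₀ : ch.W ν'}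
    (h₀ : x₀ ∈ ch.base ν') (h : crv x₀ = ∅) (x : ch.W ν') : gr x = ∅ := by
  obtain ⟨i⟩ := ‹Nonempty ι›
  have a := h₀.2.2.1.hilbert (Pi.single i 1) (by simp)
  have : IsEmpty (crv x₀) := isEmpty_coe_sort.2 h
  rw [Module.finrank_zero_of_subsingleton, Finset.sum_eq_single i (fun j _ e => by simp [e])
    (by simp)] at a
  have b : ch.M i = 0 := by
    rw [ht i]
    simp only [Pi.single_eq_same, Nat.cast_one, one_mul, Nat.cast_zero] at a
    rw [← a]; rfl
  refine eq_empty_of_forall_notMem fun z hz => hz.1 i (funext fun s => ?_)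
  exact (b ▸ s : Fin 0).elim0

section

variable (hg : ∀ x : ch.W (Mk ν κ), gr x = ∅)
include hg

theorem notMem_crv (x : ch.W (Mk ν κ)) (c : V ch.M) : c ∉ crv x := fun ⟨_, a, _⟩ =>
  ((hg x).subset a).elim

theorem solF_of_gr : ch.solF ν κ F = ch.baseF ν κ F.B :=
  Set.ext fun _ => mem_solF.trans (and_iff_left fun c a => (notMem_crv hg _ c a).elim)

theorem cyc_of_gr (u : ν → J → ℕ) : ch.cyc κ F u = ch.baseF ν κ F.B := by
  refine inter_eq_right.2 fun x hx => subset_closure ⟨⟨hx, fun _ _ c a => (notMem_crv hg _ c a).elim,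
    fun c a => (notMem_crv hg _ c a).elim, fun j _ => ContinuousLinearMap.ext fun μ => ?_,
    fun _ _ q => (notMem_crv hg _ _ (hx.2.1.2.2.2.1 (.inr (q, true))).1).elim⟩,
    fun _ _ _ γ a => (notMem_crv hg _ _ a.mem.self_of_nhds).elim⟩
  obtain ⟨μ', e⟩ := hx.2.1.1 (some j) (x.2.X j μ)
  exact e.symm.trans (hx.2.1.2.1 _ μ' fun c a => (notMem_crv hg _ c a).elim)

theorem isExt_emp (Z : Set J) {e O N r} : IsExt (F.emp Z) e O N r ↔ IsExt (ch := ch) (ν := ν)
    (κ := κ) F e O N r := by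
  have a : ch.solF ν κ (F.emp Z) = ch.solF ν κ F := (solF_of_gr hg).trans (solF_of_gr (F := F) hg).symm
  have b : ∀ x : ch.WF ν κ Λ, obsF (F.emp Z) e x = obsF F e x := fun x => Set.ext fun _ =>
    and_congr Iff.rfl (iff_of_true (fun _ h => ((hg _).subset h).elim)
      fun _ h => ((hg _).subset h).elim)
  exact ⟨fun h => ⟨h.inv, h.lc, h.t2, h.t2', h.van_le, h.le_pol, h.rank, a ▸ h.zero, h.equi,
    h.closed, fun x p q => b x ▸ h.disj x p (a ▸ q), fun x p q => b x ▸ h.span x p (a ▸ q)⟩,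
    fun h => ⟨h.inv, h.lc, h.t2, h.t2', h.van_le, h.le_pol, h.rank, a ▸ h.zero, h.equi,
    h.closed, fun x p q => b x ▸ h.disj x p (a ▸ q), fun x p q => b x ▸ h.span x p (a ▸ q)⟩⟩

end

variable (F) in
/-- `IsVirF` for a variable set of solutions. -/
def IsV0 (e : K → ι → ℕ) (S₀ Z : Set (ch.WF ν κ Λ)) (v : BM (Quo (actF F.toWt) Z)) : Prop :=
  ∃ (O : Set (ch.WF ν κ Λ)) (hO : Z ⊆ O) (N : ch.WF ν κ Λ → Submodule ℂ (ch.P K))
    (r : ℕ) (β : BM (Quo (actF F.toWt) O))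
    (t : Coch (Tot (actF F.toWt) (ρF F) O (fun _ => ch.polF F e) N)),
    (∃ O', IsOpen O' ∧ O = S₀ ∩ O') ∧ IsExt F e O N r ∧ IsFund (actF F.toWt) O β ∧
    IsThomOf (actF F.toWt) (ρF F) O (fun _ => ch.polF F e) N t ∧
    Gys (Quo.incl (actF F.toWt) hO)
      (pull (sec (actF F.toWt) (ρF F) O (fun _ => ch.polF F e) N (sctF F e)) t) β v

theorem virF_eq0 (e : K → ι → ℕ) (S₀ : Set (ch.WF ν κ Λ)) :
    virF F e S₀ = Classical.epsilon (IsV0 F e S₀ (ch.solF ν κ F ∩ S₀)) := rfl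

theorem int_emp (hg : ∀ x : ch.W (Mk ν κ), gr x = ∅) (hκ : IsEmpty κ) (Z : Set J) (e : K → ι → ℕ)
    (ℓ : R → ι → ℤ) (u : ν → J → ℕ) (P : AM Λ R J ν κ → Prop) (fs : List (Fac F.toWt ν κ)) :
    ev (virF (F.emp Z) e (ch.cyc κ (F.emp Z) u))
      (ind (selQ F.toWt ℓ _ P) * (fs.map ((F.emp Z).coch _)).prod) =
    ev (virF F e (ch.cyc κ F u)) (ind (selQ F.toWt ℓ _ P) * (fs.map (F.coch _)).prod) := by
  have b : ∀ (S₁ S₂ Y₁ Y₂ : Set (ch.WF ν κ Λ)), S₁ = S₂ → Y₁ = Y₂ →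
      ev (Classical.epsilon (IsV0 (F.emp Z) e S₁ Y₁))
        (ind (selQ F.toWt ℓ Y₁ P) * (fs.map ((F.emp Z).coch Y₁)).prod) =
      ev (Classical.epsilon (IsV0 F e S₂ Y₂))
        (ind (selQ F.toWt ℓ Y₂ P) * (fs.map (F.coch Y₂)).prod) := by
    rintro S₁ _ Y₁ _ rfl rfl
    refine congrArg₂ ev (congrArg _ (funext fun v => propext ?_))
      (congrArg (fun c => _ * (fs.map c).prod) (funext ?_))
    · exact exists_congr fun _ => exists_congr fun _ => exists_congr fun _ => exists_congr fun _ =>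
        exists_congr fun _ => exists_congr fun _ => and_congr_right fun _ =>
          and_congr_left fun _ => isExt_emp hg Z
    · rintro (_ | _ | _ | q | _)
      exacts [rfl, rfl, rfl, isEmptyElim q, rfl]
  rw [virF_eq0, virF_eq0]
  exact b _ _ _ _ (by simp only [cyc_of_gr hg]) (by simp only [cyc_of_gr hg, solF_of_gr hg])

end Ch

namespace Fam

variable {F : Fam S Λ R J K} [DecidableEq R] {k D : ℕ} {g : ℤ} {d : R → ℤ} {u u' : ν → J → ℕ}
  {P : AM Λ R J ν κ → Prop} {fs : List (Fac F.toWt ν κ)} (h : F.cone = ∅) (Z : Set J)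
include h

theorem empty_cases (ν κ : Type) [Fintype ν] [Fintype κ] (k D : ℕ) (g : ℤ) (d : R → ℤ) :
    ((F.sch ν κ k D g d).solF ν κ F = ∅ ∧ (F.sch ν κ k D g d).solF ν κ (F.emp Z) = ∅) ∨
      (IsEmpty κ ∧ ∀ x : (F.sch ν κ k D g d).W (Ch.Mk ν κ), Ch.gr x = ∅) := by
  have a : ∀ {F' : Fam S Λ R J K} {x}, F'.cone = ∅ → x ∈ (F.sch ν κ k D g d).solF ν κ F' →
      IsEmpty κ ∧ ∀ x : (F.sch ν κ k D g d).W (Ch.Mk ν κ), Ch.gr x = ∅ := fun a b =>
    have c := Ch.gr_empty (fun _ => rfl) b.1.2.1 (Ch.crv_of_empty a b)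
    ⟨⟨fun q => Ch.notMem_crv c _ _ (b.1.2.1.2.2.2.1 (.inr (q, true))).1⟩, c⟩
  by_contra b
  rw [not_or, not_and_or] at b
  rcases b.1 with c | c <;> obtain ⟨x, e⟩ := nonempty_iff_ne_empty.2 c
  exacts [b.2 (a h e), b.2 (a (F.emp_cone Z) e)]

theorem sol_emp : (F.sch ν κ k D g d).solF ν κ (F.emp Z) ∩ (F.sch ν κ k D g d).cyc κ (F.emp Z) u' =
    (F.sch ν κ k D g d).solF ν κ F ∩ (F.sch ν κ k D g d).cyc κ F u := by
  rcases empty_cases h Z ν κ k D g d with a | a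
  · rw [a.1, a.2, empty_inter, empty_inter]
  · simp only [Ch.solF_of_gr a.2, Ch.cyc_of_gr a.2]

theorem Sel.emp (a : F.Sel k g d u P) : (F.emp Z).Sel k g d u' P :=
  ⟨a.1, a.2.mono fun D b => by
    have c : ∀ Y Y' : Set ((F.sch ν κ k D g d).WF ν κ Λ), Y = Y' → IsClopen (Ch.selQ F.toWt ℓs Y' P) →
        IsClopen (Ch.selQ F.toWt ℓs Y P) := fun _ _ e => e ▸ id
    exact c _ _ (sol_emp h Z) b⟩

theorem intg_emp : (F.emp Z).intg ((F.emp Z).vir κ k D g d u) P fs =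
    F.intg (F.vir κ k D g d u) P fs := by
  rcases empty_cases h Z ν κ k D g d with a | a
  · rw [intg_of_empty, intg_of_empty] <;> refine eq_empty_of_forall_notMem fun y _ => ?_
    exacts [a.1.subset (Quo.out y).2.1, a.2.subset (Quo.out y).2.1]
  · exact Ch.int_emp a.2 a.1 Z (F.tdeg (F.sch ν κ k D g d)) ℓs u P fs

theorem inv_emp : (F.emp Z).inv k g d u P fs = F.inv k g d u P fs := by
  simp only [inv, intg_emp h Z]

omit h in
theorem Nice.emp {δ : J → ℕ} (a : F.Nice δ) (hZ : Zᶜ.Nonempty) : (F.emp Z).Nice 0 := by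
  have e : ∀ {z}, z ∉ (F.emp Z).cone := fun b => b.2.1.1
  obtain ⟨θ₀, N, b⟩ := a.ample
  exact ⟨⟨⟨a.hom, a.homS, isOpen_empty, fun _ _ _ => id, isClosed_univ, fun _ _ _ => id,
    fun _ _ _ _ => id, disjoint_compl_right, a.lcB, a.invB⟩, a.deg, a.freeB, a.properB,
    fun _ _ _ c => (e c).elim, fun _ _ _ _ c => (e c).elim,
    fun _ _ _ => ⟨∅, empty_subset _, isCompact_empty, fun _ c => (e c).elim⟩,
    ⟨θ₀, N, b.1, b.2.1, fun _ _ _ c => (e c).elim⟩, hZ⟩,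
    ⟨⟨0, 0⟩, reg_of_empty fun _ => e⟩, a.sm,
    ⟨∅, nofun, (eq_univ_of_forall fun _ _ e => nomatch e).symm⟩,
    ⟨0, nofun, 0, 1, nofun, linearIndependent_empty_type, nofun, fun _ a b => (a b).elim,
      fun _ _ _ => ⟨analyticAt_const, one_ne_zero⟩, fun _ a b => (a b).elim,
      fun _ a b => (a b).elim, fun _ _ _ _ _ => iff_of_true trivial fun _ a b => (a b).elim,
      fun _ _ => rfl⟩⟩

end Fam

/-- Links never vanish on a nonempty target, and for an empty target only the empty curve counts. -/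
theorem St.pres_of (H : St.PresZ) : St.Pres := by
  intro S Λ R R' J J' K K' I _ _ _ _ _ _ _ _ _ _ _ F F' φ s M σ k k' P P' Θ A h hz hl hF hF' hc hk
    hk' he he' hs hA j l₁ l₂
  rcases F'.cone.eq_empty_or_nonempty with h0 | ⟨z', hz'⟩
  · have a : ∀ j, φ j ∈ φ '' F.zer ↔ j ∈ F.zer := fun _ => h.inj.mem_set_image
    have b : ∀ j, φ j ∈ (φ '' F.zer)ᶜ ↔ j ∈ F.mov := fun j => (not_congr (a j)).trans
      ⟨fun c => by_contra fun e => c (hz e), fun c e => disjoint_left.1 hF.zer_base e c⟩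
    have c := H F (F'.emp (φ '' F.zer)) φ s M σ k k' P P' Θ (A := A)
      ⟨h.inj, h.wl, h.B, h.σ_φ, h.σ_s, h.hom, h.homS, h.lat_inj, h.lat_ker, h.lat_onto,
        fun z => by rw [← h.cone, h0, F'.emp_cone], b, a, h.E, fun _ _ c => .inl (not_not.1 c),
        fun _ _ _ _ _ => iff_of_true trivial ⟨1, isUnit_one, fun _ _ c e => (c e).elim⟩⟩
      hz (.of_abs (compl_compl _).subset _) (fun i ⟨j, _, e⟩ => by
        simpa using congrArg constantCoeff
          ((h.σ_φ j).symm.trans ((congrArg σ e).trans (h.σ_s i)))) hF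
      (hF'.emp _ (hF.mov_ne.imp' _ fun j => (b j).2)) hc hk
      (hk'.imp fun _ c => c.imp fun _ c => ⟨⟨c.1.1, c.1.2.1, fun _ _ _ e => e.2.1.1.elim⟩, c.2⟩) he
      ⟨fun ν κ _ _ g d u => (he'.sel ν κ g d u).emp h0 _, he'.re, he'.sub, he'.ev⟩ hs
      ((F'.emp_cone _).subset.trans (empty_subset _)) j l₁ l₂
    exact ⟨fun d => (Fam.inv_emp h0 _).symm.trans (c.1 d),
      fun d e => (Fam.inv_emp h0 _).symm.trans (c.2 d e)⟩
  · refine H F F' φ s M σ k k' P P' Θ h hz hl (fun i a => ?_) hF hF' hc hk hk' he he' hs hA j l₁ l₂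
    obtain ⟨t, ht, z, -, e⟩ := (h.cone z').1 hz'
    have b := hz'.2.1.2.2 _ a
    simp only [e, Wt.actT, evσ, evz, h.σ_s, map_one, mul_one, Pi.one_apply, one_zpow,
      Finset.prod_const_one, one_mul] at b
    exact prod_zpow_ne (isUnit_pi_iff.1 ht) _ b

end Vale.Agent.P269
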