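import Vale.Agent.P287Q.G.Map.Chn
import Vale.Agent.P287Q.G.Map.Nd
import Vale.Agent.P287Q.G.Map.IndL
import Vale.Agent.P287Q.G.Map.Well
import Vale.Agent.P287Q.G.Map.PresE
import Vale.Agent.P287Q.G.Prj.PresH
import Vale.Agent.P287Q.G.Bas.FibV
import Vale.Agent.P287Q.G.Bas.NumB
import Vale.Agent.P287Q.G.Bas.BC
import Vale.Agent.P287Q.G.Bas.Ok

set_option linter.unusedSectionVars false
set_option linter.style.haveILetI false

/-!
# The invariants do not depend on the presentation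
-/

namespace Vale.Agent.P269

open P291Z Set Function Topology Filter Base Holo MvPolynomial Pc Ch
open scoped Classical

theorem intg_res {X Y : Type} [TopologicalSpace X] [TopologicalSpace Y] [Nice X] [Nice Y]
    [CompactSpace X] [CompactSpace Y] {Φ : C(X, Y)} (h : IsHomeomorph Φ) (w : BM Y) (a : H Y) :
    Loc.intg w a = Loc.intg (res Φ w) (H.map Φ a) := by
  rw [← Loc.intg_push, push_res_homeo h]

variable {S Λ R R' J J' K K' I ν κ : Type} [Fintype S] [Fintype Λ] [Fintype R] [Fintype R']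
  [Fintype J] [Fintype J'] [Fintype K] [Fintype K'] [Fintype I] [Fintype ν] [Fintype κ]
  [DecidableEq R] [DecidableEq R'] [DecidableEq I] {F : Fam S Λ R J K} {F' : Fam S Λ R' J' K'}
  {P : PD Λ R R' J J' I} {Q : AM Λ R J ν κ → Prop} {Q' : AM Λ R' J' ν κ → Prop} {fs : List (Fac F.toWt ν κ)}
  {fs' : List (Fac F'.toWt ν κ)}

namespace Pc

variable {c : Pc J J' R R'} {b : ℕ} {K₀ : RD R} {K₀' : RD R'}

namespace Cp

variable {Z₁ : Set (c.D₁.ch.WF ν κ Λ)} {Z₂ : Set (c.D₂.ch.WF ν κ Λ)} {f₁ f₂}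
  (h : c.Cp F F' P Z₁ Z₂ f₁ f₂) (hc : c.Ok P F F') (hP : P.Ok F F') (z₁ : GZ F ℓs Z₁)
  (z₂ : GZ F' ℓs Z₂)
include h hc hP

theorem indC (j : J) : indC (P.W F F') (c.ch.zD ν κ (P.g1 F F')) (y1 j) =
    indC (P.W F F') (c.ch.zD ν κ (P.g1 F F')) (y2 (P.φ j)) := by
  obtain ⟨n, a1, a2, a3, a4⟩ := hP.exists_ex j
  haveI := h.gz.act
  refine indC_link h.gz.orb h.gz.cuts h.gz.base (n := n) (funext fun i => ?_) a2
    (fun x hx i hi y hy => ?_) a4 fun x hx => ⟨⟨trivial, hx.1.1.1.2⟩, fun i _ q =>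
      congrFun (congrArg Prod.snd (hx.2 q)) i⟩
  · simp only [Pi.add_apply, Finset.sum_apply, Pi.smul_apply, smul_eq_mul, hc.wt, a1, add_mul,
      Finset.sum_add_distrib, Finset.sum_mul, Finset.mul_sum, mul_assoc]
    exact congrArg _ Finset.sum_comm
  · obtain ⟨b1, b2⟩ := (mem_solF.1 hx.1.1).2 y hy
    exact ⟨_, a3 i hi _ (hP.cone_g1 ▸ b2), val_fld (b1 i)⟩

include z₁ z₂

theorem cn {f : Fac F.toWt ν κ} {f' : Fac F'.toWt ν κ} (e : P.FR F F' f f') :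
    H.map h.r₁.toEqM.map (F.cn Z₁ f) = H.map h.r₂.toEqM.map (F'.cn Z₂ f') := by
  have o := h.gz.toOZ
  cases e with
  | psi n => exact (h.r₁.psi o z₁.toOZ n).symm.trans (h.r₂.psi o z₂.toOZ n)
  | ev n A a hA =>
    have k : Tq.Eqv F.actT F'.actT F.cone A (evσ P.σ) :=
      hP.toPres.prs.hol.toEqh.toEqv.comp (.incl hA)
    change H.map _ (F.cl Z₁ _) = H.map _ (F'.cl Z₂ _)
    rw [z₁.cl_ev n fun x hx => vl_mem (z₁.sol hx) n, z₂.cl_ev n fun x hx => hA (vl_mem (z₂.sol hx) n),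
      Wt.pb_eq k, H.map_map, H.map_map, H.map_map]
    refine congrArg (H.map · a) (ContinuousMap.ext fun z => Quot.inductionOn z fun x => ?_)
    obtain ⟨-, b1, b2, -, b3⟩ : vl x.1 n ∈ P.cone F F' := hP.cone_g1 ▸ vl_mem x.2.1.1 n
    have b4 := (h.r₂.vl_eq o z₂.toOZ x.2 n).trans (b3.trans (congrArg
      (fun z => F'.actT (1, P.tor (vl x.1 n).2) (evσ P.σ z)) (h.r₁.vl_eq o z₁.toOZ x.2 n).symm))
    exact Quot.sound ⟨_, PN.isUnit_one (PD.tor_unit (fun _ => b1 _) b2), b4⟩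
  | par =>
    change H.map _ (F.cl Z₁ _) = H.map _ (F'.cl Z₂ _)
    rw [z₁.cl_par_one fun _ _ => mem_univ _, z₂.cl_par_one fun _ _ => mem_univ _, map_one, map_one]
  | dg q => exact (map_one _).trans (map_one _).symm
  | tw Θ =>
    change H.map _ (F.cl Z₁ _) = H.map _ (F'.cl Z₂ _)
    rw [h.r₁.cl_tw o z₁.toOZ, h.r₂.cl_tw o z₂.toOZ, aeval_rename]
    simp only [h.indC hc hP]
    rfl

omit hc hP in
theorem sel (hQ : AM.Ivt F.toWt Q) (hQ' : AM.Ivt F'.toWt Q')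
    (e : ∀ m, m.Sol F → (Q m ↔ Q' (m.ext P.M P.σ))) :
    h.r₁.toEqM.map ⁻¹' selQ F.toWt ℓs Z₁ Q = h.r₂.toEqM.map ⁻¹' selQ F'.toWt ℓs Z₂ Q' :=
  Set.ext fun z => by
    obtain ⟨x, m, rfl, a1, a2, a3⟩ := h.rep z
    exact (mem_selQ z₁.wt z₁.base hQ a2).trans ((e m a1).trans (mem_selQ z₂.wt z₂.base hQ' a3).symm)

end Cp

theorem Ok.valD (hc : c.Ok P F F') (hP : P.Ok F F') (hB : F.Sm b)
    (hs : c.D₁.ch.Std F (F.tdeg c.D₁.ch) K₀ ℓs) (hs' : c.D₂.ch.Std F' (F'.tdeg c.D₂.ch) K₀' ℓs)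
    (hn : ∀ x ∈ c.ch.solF ν κ (P.u1 F F'), Nod (.inl none) (crv x.2))
    {Gd : AM Λ R J ν κ → Prop} (hl : ∀ m, m.Sol F → Gd m →
      ∃ (x : c.ch.WF ν κ Λ) (B π u s : _), RepD c.ℓ univ x (P.jm m) B π u s)
    (g₁ : ∀ x ∈ c.D₁.ch.solF ν κ F, ∀ m, Rep ℓs univ x m → Gd m)
    (g₂ : ∀ x ∈ c.D₂.ch.solF ν κ F', ∀ m m', Rep ℓs univ x m' → m.Sol F →
      AM.Iso F'.toWt univ (m.ext P.M P.σ) m' → Gd m) (hQ : AM.Ivt F.toWt Q)
    (hQ' : AM.Ivt F'.toWt Q') (e : ∀ m, m.Sol F → (Q m ↔ Q' (m.ext P.M P.σ)))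
    (hf : List.Forall₂ (P.FR F F') fs fs')
    (h₁ : ∃ w, IsD F (F.tdeg c.D₁.ch) (actF F.toWt) (c.D₁.ch.zD ν κ F) w) {z : ℂ}
    (h₂ : c.D₂.ch.ValD F' ℓs Q' fs' z) : c.D₁.ch.ValD F ℓs Q fs z := by
  obtain ⟨w₁, h₁⟩ := h₁
  obtain ⟨w₂, h₂, a1, a2, rfl⟩ := h₂
  obtain ⟨f₁, f₂, h, a3⟩ := hc.chain hP hB hs hs' hn hl g₁ g₂ h₁ h₂
  have z₁ := h₁.gz hs
  have z₂ := h₂.gz hs'
  haveI := h₁.nice
  haveI := h₂.nice
  haveI := h.gz.nice
  haveI := h.h₂.homeomorph.symm.compactSpace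
  haveI := h.h₁.homeomorph.compactSpace
  have a4 := h.sel z₁ z₂ hQ hQ' e
  have a5 := h.h₁.isQuotientMap.isClopen_preimage.1 (a4 ▸ a2.preimage h.h₂.continuous)
  refine ⟨w₁, h₁, ‹_›, a5, ?_⟩
  rw [intg_res h.h₁, intg_res h.h₂, a3, map_mul (H.map _), map_mul (H.map _), H.map_hcls _ (cocycle_ind' a2),
    H.map_hcls _ (cocycle_ind' a5), pull_ind, pull_ind, a4, map_list_prod, map_list_prod,
    List.map_map, List.map_map]
  refine congrArg (fun l => Loc.intg _ (_ * List.prod l)) ?_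
  exact List.forall₂_eq_eq_eq.le _ _ (List.forall₂_map_left_iff.2 (List.forall₂_map_right_iff.2
    (hf.imp fun _ _ a => (h.cn hc hP z₁ z₂ a).symm).flip))

end Pc

theorem Ch.ValD.unique {ι : Type} [Fintype ι] [DecidableEq ι] {ch : Ch ι J} {ℓ : R → ι → ℤ}
    {z z' : ℂ} (h : ch.ValD F ℓ Q fs z) (h' : ch.ValD F ℓ Q fs z') : z = z' := by
  obtain ⟨_, a, -, -, rfl⟩ := h
  obtain ⟨_, a', -, -, rfl⟩ := h'
  rw [a.unique a']

theorem Fam.Iv.valD {k : ℕ} {g : ℤ} {d : R → ℤ} {u : ν → ℕ} (h : F.Iv 0 k g d u Q fs)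
    (hn : (fs.filterMap Fac.dq).Nodup) : ∃ D, F.BigD k D ∧
      (F.sch ν κ k D g d).ValD F ℓs Q fs (F.inv k g d (fun n => u n • 0) Q fs) := by
  obtain ⟨D, a1, a2⟩ := (h.lvl.and (h.well St.well)).exists
  obtain ⟨w, b1, b2, b3⟩ := h.nice.exists_isD ν κ h.cp h.big a1.big g d
  rw [show (fun n => u n • (0 : J → ℕ)) = 0 from funext fun _ => smul_zero _] at a1 a2 ⊢
  exact ⟨D, a1.big, w, b1, b2, (b3 Q fs h.sel.1 a1 hn).imp_right a2.trans⟩

namespace PD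

theorem FR.triv {f : Fac F.toWt ν κ} {f' : Fac F'.toWt ν κ} (h : P.FR F F' f f') :
    (triv : PD Λ R R J J Empty).FR F F f f := by
  cases h with
  | psi n => exact .psi n
  | ev n A a hA =>
    generalize F.pb F'.toWt (evσ P.σ) F.cone a = a
    have k := FR.ev (ν := ν) (κ := κ) (P := (PD.triv : PD Λ R R J J Empty)) (F := F) n _ a subset_rfl
    rwa [show evσ (PD.triv : PD Λ R R J J Empty).σ = id from funext evσ_X, Wt.pb_id subset_rfl,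
      Wt.rs_self] at k
  | par => exact .par
  | dg q => exact .dg q
  | tw Θ =>
    have k := FR.tw (ν := ν) (κ := κ) (P := (PD.triv : PD Λ R R J J Empty)) (F := F) (F' := F) Θ
    rwa [show Prod.map (PD.triv : PD Λ R R J J Empty).φ (id : ℕ → ℕ) = id from rfl,
      rename_id_apply] at k

theorem FR.triv' (h : List.Forall₂ (P.FR F F') fs fs') :
    List.Forall₂ ((PD.triv : PD Λ R R J J Empty).FR F F) fs fs := by
  induction h with
  | nil => exact .nil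
  | cons a _ b => exact .cons a.triv b

namespace Ok

variable (hP : P.Ok F F') (hF : F.Nice 0) (hF' : F'.Nice 0) (hc : F.Cp) {k k' : ℕ} {g : ℤ}
  {d : R → ℤ} {u u' : ν → ℕ}
include hP

include hF hF' hc in
theorem valD (hk : F'.Big k) (hQ : AM.Ivt F.toWt Q) (hQ' : AM.Ivt F'.toWt Q')
    (e : ∀ m, m.Sol F → (Q m ↔ Q' (m.ext P.M P.σ))) (hf : List.Forall₂ (P.FR F F') fs fs') {D' z}
    (hD' : F'.BigD k D') (hz : (F'.sch ν κ k D' g (P.dM d)).ValD F' ℓs Q' fs' z) :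
    ∀ᶠ t in atTop, ∀ D, F.BigD (t * k) D → (F.sch ν κ (t * k) D g d).ValD F ℓs Q fs z := by
  obtain ⟨θ₀, N, a⟩ := hF.ample
  obtain ⟨K₀, a1⟩ := hF.reg
  obtain ⟨K₀', a2⟩ := hF'.reg
  obtain ⟨b, a3⟩ := hF.sm
  filter_upwards [Pc.lift ν κ hP hF.toGood hF'.toGood k g d, eventually_ge_atTop (10 * N + 20)]
    with t a4 a5 D hD
  have a6 : F.Big (t * k) := ⟨θ₀, N, a, a5.trans (Nat.le_mul_of_pos_right _
    (let ⟨_, _, _, a⟩ := hk; by omega))⟩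
  obtain ⟨c, rfl, h⟩ := Pc.exists_st ν κ hP a6 hk hD hD' g d
  rw [← h.e₁]
  refine h.toOk.valD hP a3 (K₀ := K₀) (K₀' := K₀') ?_ ?_ (fun _ => h.nod₁ hP hF.toGood)
    (Gd := fun m => m.Stable F.θ ∧ m.Typ g d)
    (fun m b1 b2 => a4 c D D' rfl h m b1 b2.1 b2.2) ?_ ?_ hQ hQ' e hf ?_ (h.e₂ ▸ hz)
  · exact h.e₁ ▸ Fam.chart_std hF.toGood a1 hD
  · exact h.e₂ ▸ Fam.chart_std hF'.toGood a2 hD'
  · rw [h.e₁]
    exact fun x hx m a => ⟨Fam.rep_stable hD a hx.1.2.1, Fam.rep_typ a hx.1.2.1⟩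
  · rw [h.e₂]
    exact fun x hx m m' a b1 b2 => ⟨(hP.ext_stable hF.toGood hF'.toGood b1).1
      (b2.symm.stable (Fam.rep_stable hD' a hx.1.2.1)),
      hP.typ_of_ext (b2.symm.typ (Fam.rep_typ a hx.1.2.1))⟩
  · rw [h.e₁]
    exact (hF.exists_isD ν κ hc a6 hD g d).imp fun _ => And.left

theorem inv_eq (h : F.Iv 0 k g d u Q fs) (h' : F'.Iv 0 k' g (P.dM d) u' Q' fs')
    (hn : (fs.filterMap Fac.dq).Nodup) (hn' : (fs'.filterMap Fac.dq).Nodup)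
    (e : ∀ m, m.Sol F → (Q m ↔ Q' (m.ext P.M P.σ))) (hf : List.Forall₂ (P.FR F F') fs fs') :
    F'.inv k' g (P.dM d) (fun n => u' n • 0) Q' fs' = F.inv k g d (fun n => u n • 0) Q fs := by
  obtain ⟨D, a1, a2⟩ := h.valD hn
  obtain ⟨D', b1, b2⟩ := h'.valD hn'
  have p : ∀ {n N : ℕ}, 10 * N + 20 ≤ n → Tendsto (· * n) atTop atTop := fun a =>
    tendsto_id.atTop_mul_const' (by omega)
  obtain ⟨_, _, -, a3⟩ := id h.big
  obtain ⟨_, _, -, b3⟩ := id h'.big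
  have a4 := (triv_ok hP.inv hP.abs hP.E).valD h.nice h.nice h.cp h.big h.sel.1 h.sel.1
    (fun m _ => by rw [triv_ext]) (d := d) (FR.triv' hf) a1 (by rw [triv_dM]; exact a2)
  have b4 := hP.valD h.nice h'.nice h.cp h'.big h.sel.1 h'.sel.1 e hf b1 b2
  obtain ⟨t, a5, b5⟩ := (((p b3).eventually a4).and ((p a3).eventually b4)).exists
  obtain ⟨D₁, c1⟩ := (F.eventually_bigD (t * k * k')).exists
  rw [mul_right_comm] at a5
  exact Ch.ValD.unique (b5 D₁ c1) (a5 D₁ c1)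

end Ok

end PD

/-- **independence of the presentation** -/
theorem St.presZ : St.PresZ := by
  intro S Λ R R' J J' K K' I _ _ _ _ _ _ _ _ _ _ _ F F' φ s M σ k k' P P' Θ A h hz hl hs hF hF' hc hk
    hk' he he' hP hA j l₁ l₂
  obtain ⟨c, nn, a⟩ := h.exists_ok hz hl hs hF.toInv hF'.toInv
  have hc' : F'.Cp := by
    change CompactSpace (Quo F'.actL F'.B)
    rw [h.B, show F'.actL = F.actL from funext₂ fun _ _ => funext fun _ => by
      simp only [Wt.actL, h.wl]]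
    exact hc
  refine ⟨fun d => ?_, fun d' e => by_contra fun b => ?_⟩
  · have n : ∀ {n : ℕ} {α : Type} (v : Fin n → α), ((List.ofFn fun i => (i, v i)).map Prod.fst).Nodup :=
      fun v => by rw [List.map_ofFn]; exact List.nodup_ofFn.2 injective_id
    rw [F'.cor_eq_corF (c := 0) _ _ _ _ _ _ _ rfl rfl rfl,
      show ([] : List (ℕ × H (F.X F.cone))) = ([] : List (ℕ × H (F'.X A))).map
        (Prod.map id (F.pb F'.toWt (evσ σ) F.cone)) from rfl, F.cor_map]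
    refine a.inv_eq (Fam.iv_fsC hF hc hk he subset_rfl (fun _ b => b.1) _ _)
      (Fam.iv_fsC hF' hc' hk' he' hA (fun _ b => hA b.1) _ _) ?_ ?_ (hP _ _) ?_
    · rw [Wt.fsC_eq_fsW, Wt.dq_fsW]
      exact n _
    · rw [Wt.fsC_eq_fsW, Wt.dq_fsW]
      exact n _
    · exact forall₂_fsC (.tw Θ) .par .psi .dg (fun _ => .ev _ _ _ hA) fun _ => .ev _ _ _ hA
  · obtain ⟨⟨m, b1, -, b2⟩, -⟩ := Fam.cor_supp St.supp hF' hk' b
    obtain ⟨d, b3⟩ := a.typ_dM b1 b2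
    exact e d b3

/-- **independence of the presentation** -/
theorem St.pres : St.Pres := St.pres_of St.presZ

end Vale.Agent.P269
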