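import Vale.Agent.P287Q.G.Map.Rig
import Vale.Agent.P269.Base.MainS
import Vale.Agent.P269.Base.Mfd
import Vale.Agent.P269.Holo.Etale

/-!
# The restriction map is a principal bundle over an open set
-/

set_option linter.unusedSectionVars false

namespace Vale.Agent.P269.Ch.Res.Lnk

open Set Function Topology Filter Base Cv Holo Module

variable {S Λ R R' K ι ι' J J' ν κ I : Type} [Fintype S] [Fintype Λ] [Fintype R] [Fintype R']
  [Fintype K] [Fintype ι] [Fintype ι'] [Fintype J] [Fintype J'] [DecidableEq ι] [DecidableEq ι']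
  [Fintype ν] [Fintype κ] [Fintype I] [DecidableEq I] {ch' : Ch ι' J'} {D : ch'.Res ι J}
  {L : D.Lnk} {F' : Fam S Λ R' J' K} {u : ν → J' → ℕ} {x : ch'.WF ν κ Λ} {F : Wt S Λ R J}

theorem θF_surj : Surjective (D.θF : ch'.AF ν κ S → _) := fun s =>
  let ⟨a, h⟩ := D.θ_surj s.2
  ⟨(s.1, a), Prod.ext rfl h⟩

theorem eventually_T (hc' : ch'.Cuts) (hx : x ∈ T κ D F' u) :
    ∀ᶠ y in 𝓝 x, y ∈ T κ D F' u ↔ y ∈ ch'.main κ F' u :=
  (continuous_snd.continuousAt.eventually (eventually_nod hc' hx.1.1.1.2.1 hx.2)).mono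
    fun _ h => ⟨fun a => a.1, fun a => ⟨a, h a.1.1.2.1⟩⟩

variable (hA : L.Amb F' u) (hc : D.ch.Cuts) (hc' : ch'.Cuts) (hM : ch'.Tight)
include hA hc hc' hM

theorem Amb.rig (hx : x ∈ T κ D F' u) : Rig (actF F'.toWt) (T κ D F' u) D.θF x := by
  intro y a h h1 h2
  have e : ∀ n, (a n).1 = 1 := fun n => congrArg Prod.fst (h n).2.2
  have k := (hA.dom hx).rig hc hc' hM (y := fun n => (y n).2) (a := fun n => dup (a n).2)
    (fun n => hA.dom (h n).1) (fun n => isUnit_dupF (h n).2.1)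
    (fun n => (D.θ_dup _).trans (congrArg (fun s => dup s.2) (h n).2.2))
    (continuous_snd.continuousAt.tendsto.comp h1)
    ((continuous_snd.continuousAt.tendsto.comp h2).congr fun n => by
      simp only [comp, actF_snd, e, Pi.one_apply, one_zpow, Finset.prod_const_one]
      exact congrArg _ (scl_one _))
  have c : Continuous fun s : ch'.A (Mk ν κ) => (((1 : S → ℂ), s.1, s.2.1,
      fun n => s.2.2 (n.map id fun q => (q, false))) : ch'.AF ν κ S) := by fun_prop
  refine (c.continuousAt.tendsto.comp k).congr fun n => Prod.ext (e n).symm ?_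
  exact Prod.ext rfl (Prod.ext rfl (funext fun m => by cases m <;> rfl))

variable (hw : ∀ j, F.wt j = F'.wt (D.φ j)) (hl : F.wl = F'.wl)
include hw hl

theorem Amb.et : Et (actF F'.toWt) (actF F) (T κ D F' u) (D.ch.baseF ν κ F'.B) D.θF L.fF where
  one := rfl
  mul _ _ := rfl
  surj := θF_surj
  usurj := exists_unit_of_surj rfl (fun _ _ => rfl) θF_surj
  maps _ := hA.maps hc
  hol x hx := by
    obtain ⟨Φ, h1, h2⟩ := (hA.dom hx).hol hc hc'
    refine ⟨fun y => (y.1, Φ y.2), analyticAt_fst.prod (h1.comp analyticAt_snd), ?_⟩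
    filter_upwards [nhdsWithin_le_nhds (continuous_snd.continuousAt.eventually h2),
      self_mem_nhdsWithin] with y a b
    exact Prod.ext rfl (a (hA.dom b))
  eqv _ ha _ hx := hA.eqv hc hw hl ha hx
  fib _ hx _ hy := hA.fib hc hc' hM hx hy
  free x hx a h1 h2 h3 := tendsto_nhds_unique tendsto_const_nhds
    (hA.rig hc hc' hM hx (fun _ => x) (fun _ => a) (fun _ => ⟨hx, h1, h2⟩) tendsto_const_nhds
      (by simpa only [h3] using tendsto_const_nhds))

open Classical in
omit hM in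
/-- **The restriction map is a principal bundle over an open subset of the smooth space.** -/
theorem Amb.bun (hN : Num₀ D.ch) (hN' : Num₀ ch') {φ : I → J'} {n : J' → I → ℤ}
    {ψ : J' → (Λ → ℂ) → ℂ} (hG : Gr ch' F' u φ n ψ)
    (hI : Fintype.card ι' = Fintype.card ι + Fintype.card I) {b : ℕ} (hB : F'.Sm b) :
    Bun (actF F'.toWt) (actF F) (T κ D F' u) (D.ch.baseF ν κ F'.B) D.θF L.fF := by
  have : IsAct (actF F'.toWt) (T κ D F' u) := isActF_of fun _ a _ => hA.actF_mem a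
  have : IsAct (actF F) (D.ch.baseF ν κ F'.B) := isActF_of fun s a x h =>
    actF_mem_baseF a h (by
      have := hA.inv.invB _ (isUnit_S a) _ h.1
      unfold Wt.actL at this ⊢
      rwa [hl])
  refine (hA.et hc hc' hN'.M_eq hw hl).bun (fun _ => hA.rig hc hc' hN'.M_eq) fun x => ?_
  have hx := x.val_mem
  have hy := hA.maps hc hx
  obtain ⟨l, a⟩ := hN.cut
  obtain ⟨l', a'⟩ := hN'.cut
  obtain ⟨N, e, m⟩ := hN.mfdAt hy.2.1
  obtain ⟨N', e', m'⟩ := hN'.mfdAt hx.1.1.1.2.1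
  obtain ⟨d, f, p⟩ := mfd_baseF a (fun h => hN.chi (by simp [h])) hy ⟨hy.1, hB ⟨_, hy.1⟩⟩ m
  obtain ⟨d', f', p'⟩ := mfd_main a' hN'.a_ne hG hx.1 ⟨hy.1, hB ⟨_, hy.1⟩⟩ m'
  refine ⟨d', d, (p'.congr ((eventually_T hc' hx).mono fun _ => Iff.symm)).2, p.2, ?_⟩
  have s : ∑ j, finrank ℂ (Tens ch'.M (ch'.b j)) * ch'.h (some j) =
      ∑ j, finrank ℂ (Tens D.ch.M (D.ch.b j)) * D.ch.h (some j) +
        ∑ j with j ∉ F'.mov, finrank ℂ (Tens ch'.M (ch'.b j)) * ch'.h (some j) := by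
    rw [← Finset.sum_filter_add_sum_filter_not _ (· ∈ F'.mov)]
    congr 1
    refine (Finset.sum_nbij D.φ (fun j _ => by simp [hA.mov]) D.φ_inj.injOn
      (fun j hj => by simpa [hA.mov] using hj) fun j _ => ?_).symm
    rw [(D.rb j).toLinearEquiv.finrank_eq]
  rw [dimB, finrank_A] at e e'
  rw [s] at e'
  rw [finrank_AF, finrank_AF]
  simp only [Fintype.card_sum, Fintype.card_prod, Fintype.card_bool, hI] at e e' ⊢
  zify at f ⊢
  push_cast at e e' f'
  linear_combination f' - f + e' - e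

end Vale.Agent.P269.Ch.Res.Lnk
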