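import Vale.Agent.P287Q.G.Map.E5
import Vale.Agent.P287Q.G.Vir.RD

set_option linter.unusedSectionVars false
set_option linter.style.haveILetI false

/-!
# Determined fields: the vertical tangent spaces
-/

namespace Vale.Agent.P269

open P291Z Set Function Topology Filter Base Holo

variable {S Λ R J K K' ι ν κ : Type} [Fintype S] [Fintype Λ] [Fintype R] [Fintype J] [Fintype K]
  [Fintype K'] [Fintype ι] [DecidableEq ι] [Fintype ν] [Fintype κ]

namespace Fam.Det

variable {F : Fam S Λ R J K} {F' : Fam S Λ R J K'} {T : Set J} {φ : K → K'} (h : F.Det F' T φ)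
  {l : Λ → ℂ} {y η : J → ℂ}
include h

theorem sum_jac (k : K) :
    ∑ j, F'.jac (l, y) (φ k) j * η j = ∑ j, F.jac (l, zc T y) k j * zc T η j := by
  refine (Vir.hasDerivAt_eval _ _ _).unique ((Vir.hasDerivAt_eval _ _ _).congr_of_eventuallyEq
    (.of_forall fun ε => ?_))
  simp only [fib, h.G, MvPolynomial.eval_eq']
  exact Finset.sum_congr rfl fun β hβ => congrArg _ (prod_pow_congr
    (h.free k β (MvPolynomial.support_map_subset _ _ hβ)) fun i a => by rw [zc_not y a, zc_not η a])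

theorem vert_zc (a : η ∈ F'.vert (l, y)) : zc T η ∈ F.vert (l, zc T y) :=
  RP.mem_vert.2 ⟨fun j b => by
    by_cases c : j ∈ T
    exacts [zc_mem η c, (zc_not η c).trans ((RP.mem_vert.1 a).1 j ((Ch.det_not h).2 ⟨b, c⟩))],
    fun k => (h.sum_jac k).symm.trans ((RP.mem_vert.1 a).2 _)⟩

theorem vert_inj (hy : (l, y) ∈ F'.cone) (a : η ∈ F'.vert (l, y)) (b : zc T η = 0) : η = 0 := by
  classical
  have c : ∀ j ∉ T, η j = 0 := fun j c => (zc_not η c).symm.trans (congrFun b j)
  refine funext fun j => by_contra fun d => ?_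
  have e : j ∈ T := by_contra fun e => d (c j e)
  obtain ⟨k, q⟩ := h.dq e
  refine mul_ne_zero (q.ne _ hy) d (((Finset.sum_eq_single j (fun i _ f => ?_) (by simp)).symm.trans
    ((RP.mem_vert.1 a).2 k)))
  by_cases g : i ∈ T
  · rw [jac, MvPolynomial.pderiv_eq_zero_of_notMem_vars fun a =>
      let ⟨β, b, c⟩ := (MvPolynomial.mem_vars_iff_mem_support _).1 a
      Finsupp.mem_support_iff.1 c (q.sup β (MvPolynomial.support_map_subset _ _ b) i g f),
      map_zero, zero_mul]
  · rw [c i g, mul_zero]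

theorem vert_srj (hF : F.Inv) (hy : (l, y) ∈ F'.cone) (a : η ∈ F.vert (l, zc T y)) :
    ∃ η' ∈ F'.vert (l, y), zc T η' = η := by
  obtain ⟨a1, a2⟩ := RP.mem_vert.1 a
  have b : ∀ {η'}, (∀ j ∉ T, η' j = η j) → zc T η' = η := fun {η'} e => funext fun j => by
    by_cases c : j ∈ T
    exacts [(zc_mem η' c).trans (a1 j (disjoint_left.1 hF.zer_base (h.sub c))).symm,
      (zc_not η' c).trans (e j c)]
  obtain ⟨η', c1, c2⟩ := h.tan _ hy η a1 fun k => by rw [h.sum_jac, b fun _ _ => rfl, a2]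
  exact ⟨η', RP.mem_vert.2 ⟨fun j d => (c1 j ((Ch.det_not h).1 d).2).trans
    (a1 j ((Ch.det_not h).1 d).1), c2⟩, b c1⟩

/-- determined fields do not change the regularity data -/
theorem reg {K₀ : RD R} (hF : F.Inv) (hF' : F'.Inv) (hR : F.Reg K₀)
    (loc : ∀ z ∈ F'.cone, ∃ K₁, F'.RegAt K₁ z) : F'.Reg K₀ := by
  refine hR.of_proj' hF' id (zc T) loc
    (fun z hz => h.down z hz _ (fun _ => zc_mem _) fun _ => zc_not _) (fun z hz =>
      ⟨fun _ => h.vert_zc, fun η a η' b c => sub_eq_zero.1 (h.vert_inj hz (sub_mem a b)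
        ((map_sub _ _ _).trans (sub_eq_zero.2 c))), fun _ a => h.vert_srj hF hz a⟩) fun t _ y j => ?_
  by_cases c : j ∈ T
  · rw [zc_mem _ c, zc_mem _ c, mul_zero]
  · rw [zc_not _ c, zc_not _ c, h.wt]

end Fam.Det

end Vale.Agent.P269
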