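import Vale.Agent.P287Q.G.Map.Trv
import Vale.Agent.P287Q.G.Map.CutB

set_option linter.unusedSectionVars false
set_option linter.style.haveILetI false

/-!
# Nowhere vanishing movable fields become base fields
-/

namespace Vale.Agent.P269

open P291Z Set Function Topology Filter Base Holo Module

namespace Ch.KD.MCut

variable {A W P P' : Type} [NormedRing A] [NormedAlgebra ℂ A] [NormedAddCommGroup W]
  [NormedSpace ℂ W] [AddCommGroup P] [Module ℂ P] [TopologicalSpace P] [IsTopologicalAddGroup P]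
  [ContinuousSMul ℂ P] [T2Space P] [AddCommGroup P'] [Module ℂ P'] [TopologicalSpace P']
  [IsTopologicalAddGroup P'] [ContinuousSMul ℂ P'] [T2Space P'] [FiniteDimensional ℂ A]
  [FiniteDimensional ℂ W] {act : A → W → W} {Z Z' S S₀ O O' : Set W} {D : KD A W P}
  {D' : KD A W P'} {d m n r n' r' : ℕ} {x : W}

theorem isEmpty_quo (h : Z = ∅) : IsEmpty (Quo act Z) :=
  ⟨fun z => Quot.inductionOn z fun x => (h.le x.2).elim⟩

/-- the virtual class of an empty problem -/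
theorem isW_empty (h : D.Ok act O n r) (h' : D'.Gd act Z' O' n' r') (hZ : Z = ∅) :
    D.IsW act Z S 0 0 := by
  have k := (h'.mono (empty_subset _) (fun _ _ _ a => a) isClosed_empty.isLocallyClosed
    (inter_empty _).symm).dom
  haveI := isEmpty_quo (act := act) hZ
  exact ⟨∅, n, r, ⟨⟨hZ.le, ⟨univ, isOpen_univ, (inter_univ _).symm⟩, k.isAct, k.orb,
    fun _ a => a.elim⟩, h.mono (empty_subset _)⟩, ⟨∅, isOpen_empty, (inter_empty _).symm⟩,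
    fun _ a => a.elim, Orb.BM_eq_of_isEmpty _ _⟩

theorem finrank_le [IsAct act univ] {v : BM (Quo act Z)} (hv : D.IsW act Z S d v) (hS : S₀ ⊆ S)
    (hi : Ivt act S₀) (hx : x ∈ Z) (hm : MfdAt S₀ m x) : finrank ℂ A ≤ m := by
  obtain ⟨O, n, r, k, ⟨U, a, b⟩, -⟩ := hv
  haveI := k.dom.isAct
  haveI := k.dom.orb.proper
  haveI := FiniteDimensional.complete ℂ A
  have c : S₀ ∩ U ⊆ O := fun y hy => b.ge ⟨hS hy.1, hy.2⟩
  exact ((prp_of_properSMul (act := act) (S := O)).mono c).finrank_le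
    (fun s hs y hy => ⟨hi s hs y hy.1, (b.le (k.ivt s hs y (c hy))).2⟩)
    (hm.inter' a (b.le (k.dom.sub hx)).2)

end Ch.KD.MCut

variable {S Λ R J K ι ν κ I : Type} [Fintype S] [Fintype Λ] [Fintype R] [Fintype J] [Fintype K]
  [Fintype ι] [DecidableEq ι] [Fintype ν] [Fintype κ] [Fintype I] [DecidableEq I]

namespace Ch

variable {ch : Ch ι J} {F : Fam S Λ R J K} {e : K → ι → ℕ} {K₀ : RD R} {ℓ : R → ι → ℤ} {T : Set J}
  {φ : I → J} {n : J → I → ℤ} {ψ : J → (Λ → ℂ) → ℂ} {b : ℕ} {Z : Set (ch.WF ν κ Λ)}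

namespace MCut

variable {x : ch.WF ν κ Λ}

/-- the dimension count -/
theorem dimM_eq (ha : ∀ l, ch.a l ≠ 0) (hℓ : ch.HasWt F ℓ)
    (hT : T ⊆ F.mov) (hx : x ∈ ch.secT ν κ F T) (c : ℕ) :
    ch.dimM ν κ F b c = ch.dimM ν κ (F.bas T) b (c + T.ncard) + Fintype.card κ * T.ncard +
      ch.rk (F.kos T) ℓ (.free F.w T) := by
  classical
  have a : ∀ j, ch.eu (fun i => ch.a (some j) i) = ch.h (some j) := fun j =>
    (h_eq₁ hx.1.1.1.2.1 (ha _)).symm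
  have a1 : (T.ncard : ℤ) * (1 - ch.g) = ∑ j, if j ∈ T then (1 - ch.g : ℤ) else 0 := by
    rw [← Finset.sum_filter, Finset.sum_const, nsmul_eq_mul, ← Set.ncard_coe_finset]
    exact congrArg (fun s : Set J => (s.ncard : ℤ) * (1 - ch.g)) (Set.ext fun j => by simp)
  have a2 : ch.rk (F.kos T) ℓ (.free F.w T) +
      ∑ j with j ∉ F.mov, (finrank ℂ (ch.Th j) * ch.h (some j) : ℤ) =
      ∑ j with j ∉ F.mov \ T, (finrank ℂ (ch.Th j) * ch.h (some j) : ℤ) - T.ncard * (1 - ch.g) := by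
    rw [rk_eq, euD_free hℓ, a1]
    simp only [a, Finset.sum_filter, ← Finset.sum_add_distrib, ← Finset.sum_sub_distrib]
    refine Finset.sum_congr rfl fun j _ => ?_
    by_cases hj : j ∈ T
    · rw [if_pos hj, if_pos hj, if_neg (not_not.2 (hT hj)), if_pos hj, if_pos fun c => c.2 hj,
        show ch.eu (fun i => ch.a (some j) i - ch.b j i) = _ from eu_wd hx.1.1.1.2.1 (hx.2 j hj)]
      ring
    · simp [hj]
  rw [dimM, dimM]
  push_cast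
  linear_combination -a2

variable (h : ch.Std F e K₀ ℓ) (hN : Num₀ ch) (hB : F.Sm b) (hT : F.Tor T)
  (hG : ch.GrT ν F T φ n ψ)
include h hN hB hT hG

/-- the first step: the Koszul equations of the fields in `T` are solved -/
theorem isW_secT {d : ℕ} {v : BM (Quo (actF F.toWt) (ch.solF ν κ F ∩ ch.main κ F 0))}
    (hv : (ch.kd ν κ F e).IsW (actF F.toWt) _ (ch.main κ F 0)
      (d + (ch.rk (F.kos T) ℓ (.free F.w T)).toNat) v) (hm : KD.Mf (ch.AF ν κ S) (ch.secT ν κ F T) d) :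
    (ch.kd ν κ (F.bas T) e).IsW (actF F.toWt) _ (ch.secT ν κ F T) d v := by
  classical
  have a1 : IsLocallyClosed (ch.main κ F (0 : ν → J → ℕ)) :=
    isLocallyClosed_of_mfd fun y => ⟨_, (hN.mfd_main hB hG.unbas y.2).2.2⟩
  obtain ⟨_, k⟩ := h.regS (S₀ := ch.main κ F (0 : ν → J → ℕ)) (fun _ a => a.1)
    (fun _ hs _ => actF_mem_main h.inv hs) a1
  obtain ⟨_, k₁⟩ := reg_kdK (T := T) h a1
  obtain ⟨_, k₀⟩ := reg_bas h hT hG.ivt
    (isLocallyClosed_of_mfd fun y : ch.secT ν κ F T => ⟨_, (hm y y.2).2⟩)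
  obtain ⟨U, a2, a3⟩ := cK_open (ν := ν) (κ := κ) h T
  have a4 : ch.solF ν κ F ∩ ch.main κ F 0 ⊆ cK F T := fun _ a => secT_cK (sol_secT hT a)
  have a5 : ch.secT ν κ F T ∩ cK F T = ch.secT ν κ F T := inter_eq_left.2 fun _ => secT_cK
  have a6 : (ch.solF ν κ F ∩ ch.main κ F 0).Nonempty → (ch.rk F ℓ K₀).toNat =
      (ch.rk (F.bas T) ℓ (K₀.sub (.free F.w T))).toNat + (ch.rk (F.kos T) ℓ (.free F.w T)).toNat := fun ⟨y, hy⟩ => by
    have b1 := (h.bas hT).rk_nonneg hy.1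
    have b2 := (h.kos T).rk_nonneg ((zr_sol hy.1.1).2 (sol_secT hT hy).2)
    have b3 := h.rk_bas hT hy.1
    omega
  refine hv.cut k k₁ a4 (fun _ a => a.1) k₀ lin_BT lin_bas (fun _ _ _ _ a => a)
    (KD.srj_of_rank k.ok k₀.ok k₁.ok lin_BT (fun y hy => ⟨k.sub hy, k₀.sub hy, a4 hy,
      (k.zero y (k.sub hy)).2 hy, (k₀.zero y (k₀.sub hy)).2 hy,
      (k₁.zero y (a4 hy)).2 ⟨sol_secT hT hy, a4 hy⟩, rfl⟩)
      (fun _ hy _ a c => obs_bas h.fits hT hy.1 a c) a6) (fun _ _ _ a => BT_obs_bas a) a6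
    (a5.symm ▸ hm) (fun y hy => ?_)
    fun y hy => (hG.sep_kdK hN hB hy.1).mono' inter_subset_left
  have := (hG.trv_kdK hN hB hy.1).mono (a2.mem_nhds (a3.le hy.2).2)
  rwa [← a3, show ch.secT ν κ F T ∩ U = ch.secT ν κ F T ∩ cK F T by
    rw [a3, ← inter_assoc, inter_eq_left.2 (show ch.secT ν κ F T ⊆ _ from fun _ a => a.1)]] at this

/-- the first two steps -/
theorem isW_bas {d : ℕ} {v : BM (Quo (actF F.toWt) (ch.solF ν κ F ∩ ch.main κ F 0))}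
    (hv : (ch.kd ν κ F e).IsW (actF F.toWt) _ (ch.main κ F 0) d v)
    (hx : x ∈ ch.solF ν κ (F.bas T) ∩ ch.main κ (F.bas T) 0) :
    (ch.kdT ν κ F T).Gd (actF F.toWt) (ch.solF ν κ (F.bas T) ∩ ch.main κ (F.bas T) 0)
      (ch.solF ν κ F ∩ ch.main κ F 0) 0 (Fintype.card κ * T.ncard) ∧
    ∃ d₀, (ch.kd ν κ (F.bas T) e).IsW (actF F.toWt) _ (ch.main κ (F.bas T) 0) d₀
      ((ch.kdT ν κ F T).vr (actF F.toWt) (ch.solF ν κ (F.bas T) ∩ ch.main κ (F.bas T) 0) _ v) := by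
  classical
  have s₀ : ch.main κ (F.bas T) 0 ⊆ ch.secT ν κ F T := fun _ a => (hG.mem_main.1 a).1
  have s₁ := inter_eq_left.2 s₀
  have x₁ : x ∈ ch.solF ν κ F ∩ ch.main κ F 0 := ⟨hx.1, (s₀ hx.2).1⟩
  have m₀ := fun y (hy : y ∈ ch.main κ (F.bas T) (0 : ν → J → ℕ)) =>
    hN.mfd_main (F := F.bas T) hB hG.gr hy
  obtain ⟨d₀, a1⟩ := Nat.exists_eq_add_of_le (KD.MCut.finrank_le hv (fun _ a => (s₀ a).1)
    (fun _ hs _ => actF_mem_main (h.bas hT).inv hs) x₁ (m₀ x hx.2).2)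
  have a2 := (m₀ x hx.2).1
  have a3 : KD.Mf (ch.AF ν κ S) (ch.secT ν κ F T) (d₀ + Fintype.card κ * T.ncard) := fun y hy => by
    obtain ⟨m, b1, b2⟩ := hG.mfd_secT hN hB hy
    rwa [show m = finrank ℂ (ch.AF ν κ S) + (d₀ + Fintype.card κ * T.ncard) by
      rw [← a2, a1] at b1
      rw [← add_assoc]
      exact_mod_cast b1] at b2
  have a4 : d = d₀ + Fintype.card κ * T.ncard + (ch.rk (F.kos T) ℓ (.free F.w T)).toNat := by
    obtain ⟨b1, b2⟩ := hN.mfd_main hB hG.unbas x₁.2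
    have b3 := hv.dim_eq x₁ b2
    have b4 := (h.kos T).rk_nonneg ((zr_sol hx.1.1).2 (s₀ hx.2).2)
    rw [b3, dimM_eq (ℓ := ℓ) h.cuts.ne h.wt hT.sub (s₀ hx.2), hG.card, ← a2, a1, ← Nat.cast_mul] at b1
    omega
  have a5 := isLocallyClosed_of_mfd fun y : ch.secT ν κ F T => ⟨_, (a3 y y.2).2⟩
  obtain ⟨_, k₀⟩ := reg_bas h hT hG.ivt a5
  have k := (isW_secT h hN hB hT hG (a4 ▸ hv) a3).cut' (S₀ := ch.main κ (F.bas T) 0)
    (Z₀ := ch.solF ν κ (F.bas T) ∩ ch.main κ (F.bas T) 0) k₀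
    ⟨inter_subset_right, ⟨univ, isOpen_univ, (inter_univ _).symm⟩, hG.ivt, a5,
      fun y hy => kdT_zero.trans ⟨fun a => ⟨hG.mem_main.2 ⟨hy, a⟩, hy⟩,
        fun a => (hG.mem_main.1 a.1).2⟩, ok_kdT h⟩ (fun _ => sol_secT hT) s₀
    (Set.ext fun _ => ⟨fun a => ⟨⟨a.1, (s₀ a.2).1⟩, a.2⟩, fun a => ⟨a.1.1, a.2⟩⟩)
    (s₁.symm ▸ fun y hy => a1 ▸ (m₀ y hy).2) (fun y hy => s₁.symm ▸ hG.trv_kdT hN hB hy.1)
    fun y hy => hG.sep_kdT hN hB hy.1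
  exact ⟨k.1, d₀, k.2⟩

end MCut

open MCut KD.MCut

/-- **nowhere vanishing movable fields become base fields** -/
theorem IsD.cut (h : ch.Std F e K₀ ℓ) (hN : Num₀ ch) (hB : F.Sm b) (hT : F.Tor T)
    (hG : ch.GrT ν F T φ n ψ) {w : BM (Quo (actF F.toWt) Z)} (hw : IsD F e (actF F.toWt) Z w) :
    IsD (F.bas T) e (actF F.toWt) Z w := by
  have hZ := hw.eq
  obtain ⟨d, _, _, v, hv, hQ, rfl⟩ := hw
  have g := h.bas hT
  have e₀ : Z = ch.solF ν κ (F.bas T) ∩ ch.main κ (F.bas T) 0 ∩ {x | Dia x} := hZ.trans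
    (Set.ext fun _ => ⟨fun a => ⟨⟨a.1.1, hG.mem_main.2 ⟨sol_secT hT a.1, fun q j _ =>
      congrFun (congrArg Prod.snd (a.2 q)) j⟩⟩, a.2⟩,
      fun a => ⟨⟨a.1.1, (hG.mem_main.1 a.1.2).1.1⟩, a.2⟩⟩)
  have k₀ : ∀ {d₀ v₀}, (ch.kd ν κ (F.bas T) e).IsW (actF F.toWt)
      (ch.solF ν κ (F.bas T) ∩ ch.main κ (F.bas T) 0) (ch.main κ (F.bas T) 0) d₀ v₀ →
      (ch.kdQ ν κ (F.bas T)).Gd (actF F.toWt) Z (ch.solF ν κ (F.bas T) ∩ ch.main κ (F.bas T) 0) 0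
        (Fintype.card κ * (F.bas T).dv (K₀.sub (.free F.w T))) := fun ⟨_, _, _, k, _⟩ =>
    haveI := k.isActZ
    e₀ ▸ g.gd_kdQ (fun _ a => ⟨a.1, a.2.1⟩) k.orbZ
  rcases eq_empty_or_nonempty (ch.solF ν κ (F.bas T) ∩ ch.main κ (F.bas T) 0) with h0 | ⟨x, hx⟩
  · obtain ⟨_, k⟩ := g.ok (ν := ν) (κ := κ)
    have a := isW_empty (S := ch.main κ (F.bas T) 0) k hQ h0
    haveI := isEmpty_quo (act := actF F.toWt) (Z := Z) (by rw [e₀, h0, empty_inter])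
    exact ⟨_, _, _, _, a, k₀ a, Orb.BM_eq_of_isEmpty _ _⟩
  · obtain ⟨a1, d₀, a2⟩ := isW_bas h hN hB hT hG hv hx
    haveI := hQ.dom.isAct
    have k : (ch.kdQ ν κ F).Gd (actF F.toWt) Z (ch.solF ν κ F ∩ ch.main κ F 0) 0
        (Fintype.card κ * F.dv K₀) := hZ ▸ h.gd_kdQ (fun _ a => ⟨a.1, a.2.1⟩) hQ.dom.orb
    refine ⟨_, _, _, _, a2, k₀ a2, k.vr_comp a1 (k₀ a2) lin_BQ lin_kdQ (fun _ _ _ _ a => a)
      (srj_BQ hT fun _ a => (hZ.le a).1.1) (fun _ _ _ a => BQ_obs_bas a) (fun _ => ?_) v⟩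
    rcases isEmpty_or_nonempty κ with c | ⟨⟨q⟩⟩
    · simp
    · rw [hT.dv h.reg ⟨_, vl_mem hx.1 (.inr (q, false))⟩, mul_add]

end Ch

end Vale.Agent.P269
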