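import Vale.Agent.P287Q.G.Map.DD
import Vale.Agent.P269.Map.Tr
import Vale.Agent.P287Q.G.Vir.Sd
import Vale.Agent.P287Q.G.Glu.Diag0
import Vale.Agent.P287Q.G.Cpt.Quo
import Vale.Agent.P287Q.G.Vir.Emp

set_option linter.unusedSectionVars false
set_option linter.style.haveILetI false

/-!
# Nowhere vanishing movable fields become base fields
-/

namespace Vale.Agent.P269

open P291Z Set Function Topology Filter Base Holo

variable {S Λ R J K ι ν κ I : Type} [Fintype S] [Fintype Λ] [Fintype R] [Fintype J] [Fintype K]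
  [Fintype ι] [DecidableEq ι] [Fintype ν] [Fintype κ] [Fintype I] [DecidableEq I]

namespace Ch.KD

variable {A W P P' : Type} [NormedRing A] [NormedAlgebra ℂ A] [NormedAddCommGroup W]
  [NormedSpace ℂ W] [AddCommGroup P] [Module ℂ P] [TopologicalSpace P] [IsTopologicalAddGroup P]
  [ContinuousSMul ℂ P] [T2Space P] [AddCommGroup P'] [Module ℂ P'] [TopologicalSpace P']
  [IsTopologicalAddGroup P'] [ContinuousSMul ℂ P'] [T2Space P'] [FiniteDimensional ℂ A]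
  [FiniteDimensional ℂ W] {act : A → W → W} {Z S O O₀ O' : Set W} {D D₀ : KD A W P} {D' : KD A W P'}
  {d d' n r n₀ r₀ n' r' : ℕ} {v : BM (Quo act Z)}

/-- the dimension only matters if there are solutions -/
theorem IsW.dim [IsAct act univ] (hv : D.IsW act Z S d v) (h : Z.Nonempty → d = d') :
    D.IsW act Z S d' v := by
  rcases Z.eq_empty_or_nonempty with rfl | hZ
  · obtain ⟨O, n, r, k, -⟩ := hv
    haveI : IsEmpty (Quo act (∅ : Set W)) := ⟨by rintro ⟨x⟩; exact x.2⟩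
    exact ⟨∅, n, r, k.mono (empty_subset _) (fun _ _ _ a => a.elim) isClosed_empty.isLocallyClosed
      (inter_empty _).symm, ⟨∅, isOpen_empty, (inter_empty _).symm⟩, fun _ a => a.elim,
      Orb.BM_eq_of_isEmpty _ _⟩
  · exact h hZ ▸ hv

/-- the dimension is the dimension of the base -/
theorem IsW.dim_eq (hv : D.IsW act Z S d v) {x : W} (hx : x ∈ Z) {m : ℕ} (hm : MfdAt S m x) :
    m = Module.finrank ℂ A + d := by
  obtain ⟨O, n, r, k, ⟨U, a, rfl⟩, b, -⟩ := hv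
  haveI := FiniteDimensional.complete ℂ W
  exact (hm.congr (mem_of_superset (a.mem_nhds (k.dom.sub hx).2) fun _ c =>
    (and_iff_left c).symm)).unique (b x (k.dom.sub hx))

/-- surjectivity from exactness in the middle and the ranks -/
theorem srj_of_rank (h : D.Ok act O n r) (h₀ : D₀.Ok act O₀ n₀ r₀) (h' : D'.Ok act O' n' r')
    {B : P →ₗ[ℂ] P'} (hL : D.Lin D' id id O B) (hZ : ∀ x ∈ Z, x ∈ O ∧ x ∈ O₀ ∧ x ∈ O' ∧
      D.s x ∈ D.van x ∧ D₀.s x ∈ D₀.van x ∧ D'.s x ∈ D'.van x ∧ D₀.van x = D.van x)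
    (he : ∀ x ∈ Z, ∀ w ∈ D.obs x, B w ∈ D'.van x → w ∈ D₀.obs x) (hr : Z.Nonempty → r = r₀ + r') :
    D.Srj D' id Z B := by
  intro x hx w hw
  obtain ⟨a1, a2, a3, a4, a5, a6, a7⟩ := hZ x hx
  haveI := h.fin
  haveI := h₀.fin
  haveI := h'.fin
  haveI := Submodule.finiteDimensional_of_le (h.obs_le x a1 a4)
  haveI := Submodule.finiteDimensional_of_le (h₀.obs_le x a2 a5)
  haveI := Submodule.finiteDimensional_of_le (h'.obs_le x a3 a6)
  have h4 := finrank_inf_ker' (D.obs x) ((D'.van x).mkQ ∘ₗ B)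
  have h5 := finrank_inf_ker' (D'.obs x) (D'.van x).mkQ
  have h6 := Submodule.finrank_mono (show D.obs x ⊓ LinearMap.ker ((D'.van x).mkQ ∘ₗ B) ≤ D₀.obs x
    from fun u hu => he x hx u hu.1 ((Submodule.Quotient.mk_eq_zero _).1 hu.2))
  have h7 := h₀.fam.rank x a2
  have h8 := hr ⟨x, hx⟩
  rw [a7, h.fam.rank x a1] at h7
  rw [h.obs_rank x a1 a4] at h4
  rw [h₀.obs_rank x a2 a5] at h6
  rw [Submodule.ker_mkQ, inf_eq_right.2 (h'.le_obs x a3 a6), h'.fam.rank x a3,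
    h'.obs_rank x a3 a6] at h5
  have h9 : (D.obs x).map ((D'.van x).mkQ ∘ₗ B) = (D'.obs x).map (D'.van x).mkQ :=
    Submodule.eq_of_le_of_finrank_le (by
      rintro _ ⟨u, hu, rfl⟩
      exact ⟨B u, hL.obs x a1 a4 u hu, rfl⟩) (by omega)
  obtain ⟨u, hu, e⟩ := h9.ge ⟨w, hw, rfl⟩
  exact ⟨u, hu, (Submodule.Quotient.eq _).1 e⟩

end Ch.KD

namespace Fam

variable {F : Fam S Λ R J K} {T : Set J} {K₀ : RD R}

theorem Inv.bas (h : F.Inv) (T : Set J) : (F.bas T).Inv :=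
  ⟨h.hom, h.homS, h.openU, h.invU, h.closedE, h.invE,
    fun l y y' a => h.baseE l y y' fun j hj => a j fun b => hj b.1,
    h.zer_base.mono_right sdiff_subset, h.lcB, h.invB⟩

theorem Inv.kos (h : F.Inv) (T : Set J) : (F.kos T).Inv := by
  refine ⟨fun k => k.elim, fun k => k.elim, ?_, fun t ht z hz j hj => ?_, isClosed_univ,
    fun _ _ _ _ => trivial, fun _ _ _ _ _ => trivial, disjoint_compl_left, h.lcB, h.invB⟩
  · simp only [ofPred_forall]
    exact isOpen_iInter_of_finite fun j => isOpen_iInter_of_finite fun _ =>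
      isOpen_ne_fun (by fun_prop) continuous_const
  · exact mul_ne_zero (mul_ne_zero
      (prod_zpow_ne (isUnit_pi_iff.1 (Prod.isUnit_iff.1 ht).1) _)
      (prod_zpow_ne (isUnit_pi_iff.1 (Prod.isUnit_iff.1 ht).2) _)) (hz j hj)

theorem Tor.regAt (h : F.Tor T) {K₁ z} (hR : F.RegAt K₁ z) (hz : z ∈ F.cone) :
    (F.bas T).RegAt K₁ z := by
  refine ⟨fun c => ?_, hR.cut⟩
  obtain ⟨η, a1, a2⟩ := hR.ind c
  obtain ⟨η', b1, b2⟩ := h.tan z hz η
  obtain ⟨b3, b4⟩ := mem_vert.1 b1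
  refine ⟨η - η', fun j hj => ?_, fun k hk => ?_⟩
  · by_cases e : j ∈ T
    · exact sub_eq_zero.2 (b2 j e).symm
    · have e' : j ∉ F.mov := fun b => hj ⟨b, e⟩
      exact sub_eq_zero.2 ((a1 j e').trans (b3 j e').symm)
  · change ∑ j, F.jac z k j * (η j - η' j) = c k
    simp only [mul_sub, Finset.sum_sub_distrib, a2 k hk, b4 k, sub_zero]

theorem mem_vert_bas {z η} : η ∈ (F.bas T).vert z ↔ η ∈ F.vert z ∧ ∀ j ∈ T, η j = 0 :=
  mem_vert.trans ⟨fun a => ⟨mem_vert.2 ⟨fun j b => a.1 j fun c => b c.1, a.2⟩,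
    fun j b => a.1 j fun c => c.2 b⟩, fun a => ⟨fun j b => (em (j ∈ T)).elim (a.2 j)
      fun c => (mem_vert.1 a.1).1 j fun d => b ⟨d, c⟩, (mem_vert.1 a.1).2⟩⟩

theorem Tor.reg (h : F.Tor T) (hR : F.Reg K₀) : (F.bas T).Reg (K₀.sub (.free F.w T)) :=
  hR.sliceT id T rfl (fun z hz => (hR.loc z hz).imp fun _ a => h.regAt a hz) (fun _ hz => hz)
    (fun _ _ _ => mem_vert_bas) h.tan

theorem Tor.le (h : F.Tor T) (hR : F.Reg K₀) (hn : F.cone.Nonempty) : T.ncard ≤ K₀.n :=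
  hR.ncard_le hn.choose_spec (h.tan _ hn.choose_spec)

theorem Tor.dv (h : F.Tor T) (hR : F.Reg K₀) (hn : F.cone.Nonempty) :
    F.dv K₀ = (F.bas T).dv (K₀.sub (.free F.w T)) + T.ncard :=
  (Nat.sub_add_cancel (h.le hR hn)).symm

end Fam

namespace Ch

variable {ch : Ch ι J} {F : Fam S Λ R J K} {e : K → ι → ℕ} {K₀ : RD R} {ℓ : R → ι → ℤ} {T : Set J}
  {φ : I → J} {n : J → I → ℤ} {ψ : J → (Λ → ℂ) → ℂ} {b : ℕ} {Z : Set (ch.WF ν κ Λ)}

theorem kdQ_zero {x : ch.WF ν κ Λ} :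
    (ch.kdQ ν κ F).s x ∈ (ch.kdQ ν κ F).van x ↔ Dia x :=
  (Submodule.mem_bot ℂ).trans (funext_iff.trans (forall_congr' fun _ => sub_eq_zero.trans
    ⟨fun a => Prod.ext rfl a, fun a => congrArg Prod.snd a⟩))

theorem rep_kdQ : IsRepOn (ch.kdQ ν κ F).ρ ⊤ where
  mem _ _ _ _ := trivial
  add _ _ _ _ _ _ := funext₂ fun _ _ => mul_add _ _ _
  smul _ _ _ _ _ := funext₂ fun _ _ => mul_left_comm _ _ _
  one v _ := funext₂ fun q j => by
    change (∏ i, (1 : ℂ) ^ F.wt j i) * (∏ i, (1 : ℂ) ^ ch.wd j i) * v q j = _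
    simp only [one_zpow, Finset.prod_const_one, one_mul]
  mul a b _ _ v _ := funext₂ fun q j => by
    change (∏ i, (a.1 * b.1) i ^ F.wt j i) *
      (∏ i, (a.2.2.2 (.inr q) * b.2.2.2 (.inr q)) i ^ ch.wd j i) * v q j = _
    simp only [prod_zpow_mul]
    ring
  cont v _ := continuous_pi fun q => continuous_pi fun j =>
    ((continuous_finsetProd _ fun i _ => Continuous.zpow₀ (by fun_prop) _ fun g => .inl
      (ne_S g.isUnit i)).mul
    (continuous_finsetProd _ fun i _ => Continuous.zpow₀ (by fun_prop) _ fun g => .inl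
      ((Cv.isUnit_iff.1 (isUnitF_iff.1 g.isUnit).2).2.2 _ i))).mul (continuous_const (y := v q j))

theorem continuousOn_kdQ : ContinuousOn (ch.kdQ ν κ F).s (ch.solF ν κ F) :=
  continuousOn_pi.2 fun _ => (continuousOn_vl _).snd.sub (continuousOn_vl _).snd

theorem vl2_mem {x : ch.WF ν κ Λ} (hx : x ∈ ch.solF ν κ F ∩ ch.adm ν κ F) (q : κ) :
    vl2 x (.inr (q, false)) (.inr (q, true)) ∈ F.cone2 :=
  ⟨⟨vl_mem hx.1 _, vl_mem hx.1 _⟩, fun j hj => hx.2.2.2.2.2 j hj q⟩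

namespace Std

variable (h : ch.Std F e K₀ ℓ)
include h

theorem bas (hT : F.Tor T) : ch.Std (F.bas T) e (K₀.sub (.free F.w T)) ℓ :=
  ⟨h.inv.bas T, hT.reg h.reg, ⟨h.fits.wt, h.fits.le, h.fits.ne⟩, h.cuts, h.wt⟩

theorem kos (T : Set J) : ch.Std (F.kos T) Empty.elim (.free F.w T) ℓ :=
  ⟨h.inv.kos T, Fam.reg_free, ⟨h.fits.wt, fun k => k.elim, fun k => k.elim⟩, h.cuts, h.wt⟩

theorem rk_bas (hT : F.Tor T) {x : ch.WF ν κ Λ} (hx : x ∈ ch.solF ν κ F) : ch.rk F ℓ K₀ =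
    ch.rk (F.bas T) ℓ (K₀.sub (.free F.w T)) + ch.rk (F.kos T) ℓ (.free F.w T) := by
  classical
  have a : ch.euD ℓ (K₀.sub (.free F.w T)).n (K₀.sub (.free F.w T)).γ =
      ch.euD ℓ K₀.n K₀.γ - ch.euD ℓ (RD.free F.w T).n (RD.free F.w T).γ :=
    (cone_or hx).elim (fun a => euD_sub' (hT.le h.reg a)) fun a => by
      rw [← euD_sub]
      simp only [euD, a, sub_self, mul_zero]
  rw [rk_eq, rk_eq, rk_eq, a, sub_add_sub_comm, sub_add_cancel]
  refine congrArg (· - _) ?_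
  simp only [Finset.sum_filter, ← Finset.sum_add_distrib]
  refine Finset.sum_congr rfl fun j _ => ?_
  by_cases a : j ∈ T
  · rw [if_pos (hT.sub a), if_neg fun b => b.2 a, if_pos a, zero_add]
  · rw [if_neg a, add_zero]
    exact if_congr (and_iff_left a).symm rfl rfl

/-- regularity on an invariant locally closed part of `adm` -/
theorem regS {S₀ : Set (ch.WF ν κ Λ)} (hS : S₀ ⊆ ch.adm ν κ F) (hi : Ivt (actF F.toWt) S₀)
    (hl : IsLocallyClosed S₀) : ∃ v, (ch.kd ν κ F e).Reg (actF F.toWt) (ch.solF ν κ F ∩ S₀) S₀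
      (S₀ ∩ ch.dom ν κ F e) v (ch.rk F ℓ K₀).toNat := by
  obtain ⟨U, a, b⟩ := h.dom_open (ν := ν) (κ := κ)
  obtain ⟨v, c⟩ := h.ok (ν := ν) (κ := κ)
  have d : S₀ ∩ ch.dom ν κ F e = S₀ ∩ U := by rw [b, ← inter_assoc, inter_eq_left.2 hS]
  exact ⟨v, fun x hx => ⟨hx.2, mem_dom hx.1 (hS hx.2)⟩, ⟨U, a, d⟩,
    fun s hs x hx => ⟨hi s hs x hx.1, actF_mem_dom h.inv hs hx.2⟩, d ▸ hl.inter a.isLocallyClosed,
    fun x hx => (h.zero hx.2).trans (and_iff_left hx.1).symm, c.mono inter_subset_right⟩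

/-- the matching conditions are Kuranishi data -/
theorem ok_kdQ (hZ : Z ⊆ ch.solF ν κ F ∩ ch.adm ν κ F) :
    (ch.kdQ ν κ F).Ok (actF F.toWt) Z 0 (Fintype.card κ * F.dv K₀) where
  fin := inferInstance
  rep := rep_kdQ
  fam := ⟨fun _ _ => bot_le, isClosed_eq continuous_snd continuous_const,
    fun _ _ => finrank_bot ℂ _,
    fun _ _ _ _ _ hq => funext₂ fun q j => mul_eq_zero_of_right _ (congrFun₂ hq q j)⟩
  mem _ _ := trivial
  cont := continuousOn_kdQ.mono fun _ a => (hZ a).1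
  eqv x hx s hs := funext₂ fun q j => by
    have a := fun n => fld_actF_p (F := F.toWt) hs (p_mem_crv (hZ hx).1.1.2.1 n)
      (((mem_solF.1 (hZ hx).1).2 _ (p_mem_crv (hZ hx).1.1.2.1 n)).1 j)
    exact (congrArg₂ (· - ·) (a (.inr (q, false))) (a (.inr (q, true)))).trans
      (mul_sub _ _ _).symm
  obs_closed := by
    have a : ∀ n, Continuous fun z : Z × (κ → J → ℂ) => vl z.1.1 n := fun n =>
      ((continuousOn_vl n).mono fun _ a => (hZ a).1).domRestrict.comp continuous_fst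
    refine (isClosed_eq ((continuousOn_kdQ.mono fun _ a => (hZ a).1).domRestrict.comp continuous_fst)
      (continuous_const (y := 0))).inter
      ((congrArg IsClosed ?_).mp (isClosed_iInter fun q => (Fam.isClosed_vert (F := F)).preimage
        ((a (.inr (q, false))).prodMk ((continuous_apply q).comp continuous_snd))))
    exact Set.ext fun z => mem_iInter.trans
      (forall_congr' fun e => ⟨fun a _ => a, fun a => a trivial⟩)
  obs_rank _ hx _ := (Fam.finrank_pi_univ fun _ =>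
    Fam.finrank_vert' h.inv h.reg (vl_mem (hZ hx).1 _)).trans (zero_add _).symm
  obs_inv x hx _ s hs f hf q _ := by
    have b := (Cv.isUnit_iff.1 (isUnit_dupF hs)).2.2 (.inr (q, false))
    have a := h.inv.vert_act (t := (s.1, fun r => ∏ i, (dup s.2).2.2 (.inr (q, false)) i ^ ℓ r i))
      (Prod.isUnit_iff.2 ⟨isUnit_S hs, isUnit_pi_iff.2 fun r => prod_zpow_ne b _⟩) (hf q trivial)
    rw [← vl_actF h.wt hs (hZ hx).1] at a
    refine mem_of_eq_of_mem (funext fun j => congrArg (fun z => _ * z * _) ?_) a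
    have c : ∀ i, ch.wd j i = ∑ r, F.w j r * ℓ r i := h.wt j
    change ∏ i, (dup s.2).2.2 (.inr (q, false)) i ^ ch.wd j i = _
    simp only [c, ← Finset.prod_zpow, ← zpow_mul, zpow_sum_ne (b _), mul_comm]
    exact Finset.prod_comm
  le_obs _ _ _ := bot_le
  obs_le _ _ _ := le_top
  cone x hx hs w y c u h1 h2 h3 h4 q _ := by
    have a := fun n => tendsto_vl (.of_forall fun m => (hZ (h1 m)).1) (hZ hx).1 h2 n
    refine Fam.mem_vert_of_tendsto (y := fun m => vl2 (y m) (.inr (q, false)) (.inr (q, true)))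
      (l := atTop) (fun m => vl2_mem (hZ (h1 m)) q)
      (h2.fst_nhds.prodMk_nhds ((a _).snd_nhds.prodMk_nhds ?_)) (c := c)
      ((tendsto_pi_nhds.1 h4 q).congr fun m =>
        (congrArg (_ + ·) (congrFun (h3 m) q)).trans (add_zero _))
    rw [kdQ_zero.1 hs q]
    exact (a _).snd_nhds

theorem gd_kdQ (hZ : Z ⊆ ch.solF ν κ F ∩ ch.adm ν κ F) [IsAct (actF F.toWt) Z]
    (ho : Orb.Orb (ch.AF ν κ S)ˣ (Holo.Sp (actF F.toWt) Z)) :
    (ch.kdQ ν κ F).Gd (actF F.toWt) (Z ∩ {x | Dia x}) Z 0 (Fintype.card κ * F.dv K₀) :=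
  ⟨⟨inter_subset_left, ⟨univ, isOpen_univ, (inter_univ _).symm⟩, ‹_›, ho,
    fun _ hx => kdQ_zero.trans (and_iff_right hx).symm⟩, h.ok_kdQ hZ⟩

end Std

theorem IsD.eq {act : ch.AF ν κ S → ch.WF ν κ Λ → ch.WF ν κ Λ} {w : BM (Quo act Z)}
    (hw : IsD F e act Z w) : Z = ch.solF ν κ F ∩ ch.main κ F 0 ∩ {x | Dia x} := by
  obtain ⟨_, _, _, _, -, k, -⟩ := hw
  exact Set.ext fun x => ⟨fun hx => ⟨k.dom.sub hx,
    kdQ_zero.1 ((k.dom.zero x (k.dom.sub hx)).2 hx)⟩,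
    fun hx => (k.dom.zero x hx.1).1 (kdQ_zero.2 hx.2)⟩

end Ch

end Vale.Agent.P269
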