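import Vale.Agent.P287Q.G.Map.Emb3
import Vale.Agent.P287Q.G.Map.Pj
import Vale.Agent.P287Q.G.Map.NdA
import Vale.Agent.P287Q.G.Map.DetD
import Vale.Agent.P287Q.G.Map.Cut

set_option linter.unusedSectionVars false

/-!
# The matched solutions for two presentations
-/

namespace Vale.Agent.P269

open P291Z Set Function Topology Filter Base Holo MvPolynomial Pc Ch
open scoped Classical

section side

variable {S Λ R R' J J' K ι ι' ν κ : Type} [Fintype S] [Fintype Λ] [Fintype R] [Fintype R']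
  [Fintype J] [Fintype J'] [Fintype K] [Fintype ι] [DecidableEq ι] [Fintype ι'] [DecidableEq ι']
  [Fintype ν] [Fintype κ] {ch' : Ch ι' J'} {D : ch'.Res ι J} {L : D.Lnk} {W : Wt S Λ R' J'}
  {ℓ : R → ι → ℤ} {ℓ' : R' → ι' → ℤ} {F : Fam S Λ R J K} {c : R → R' → ℤ}
  {E₀ : Set ((Λ → ℂ) × (J' → ℂ))} {Z₀ T : Set J'} {e : K → ι' → ℕ} {K₀ : RD R} {b : ℕ}
  {p q : J' → MvPolynomial J' (MvPolynomial Λ ℂ)} {χ : J' → R' → ℤ} {ψ : J' → S → ℤ}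

namespace Ch.Res.Lnk.Pj

variable (h : L.Pj F W c E₀ Z₀ e K₀ ℓ ℓ' b) (hA : (F.up W D.φ c E₀ Z₀).Add T p q χ ψ)
  (hT : ∀ j, D.φ j ∉ T)
  (hn : ∀ x ∈ ch'.zM ν κ (F.up W D.φ c E₀ Z₀), Nod (D.σ D.o) (crv x.2))
include h hA hT hn

theorem rcA : D.RC W F.toWt (ch'.zD ν κ ((F.up W D.φ c E₀ Z₀).add T p q χ ψ)) (D.ch.zD ν κ F)
    (L.fF ∘ zr T) := (h.rcD hn).zr hT (det_bijD hA.det (hA.std h.std')).mapsTo

/-- forget the determined fields and project -/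
theorem isDA (hd : ∀ j, ∑ i, (∑ r, χ j r * ℓ' r i) * ch'.m i = ∑ i, ch'.wd j i * ch'.m i)
    [Nice (Quo (actF F.toWt) (D.ch.zD ν κ F))] {w : BM (Quo (actF F.toWt) (D.ch.zD ν κ F))}
    (hw : IsD F (D.e e) (actF F.toWt) _ w) : IsOpenEmbedding (h.rcA hA hT hn).toEqM.map ∧
      IsD ((F.up W D.φ c E₀ Z₀).add T p q χ ψ) (ch'.eA e fun j : T => p j * X j.1 - q j) (actF W) _
        (res (h.rcA hA hT hn).toEqM.map w) := by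
  obtain ⟨a1, a2⟩ := h.isD hn (h.num.lc_main h.std.inv h.sm) hw
  have := a2.nice
  obtain ⟨b1, b2⟩ := det_isD hA.det (hA.std h.std') h.std' (hA.rk h.std'.inv fun j _ => hd j)
    (h.num'.lc_main h.std'.inv h.sm) a2
  have := b2.nice
  have k : ⇑(h.rcA hA hT hn).toEqM.map = (h.rcD hn).toEqM.map ∘
      (det_eqD hA.det (hA.std h.std')).map := funext fun z => Quot.inductionOn z fun _ => rfl
  rw [k, ← res_res b1.isOpenEmbedding a1]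
  exact ⟨a1.comp b1.isOpenEmbedding, b2⟩

/-- the image of a point that represents an abstract map -/
theorem rep {x : ch'.WF ν κ Λ} (hx : x ∈ ch'.zD ν κ ((F.up W D.φ c E₀ Z₀).add T p q χ ψ))
    {m : AM Λ R' J' ν κ} {B π u s} (a : RepD ℓ' univ x m B π u s)
    (h1 : ∀ j, L.n j ≠ 0 → j ∉ T ∧ m.y j = 1) {Ls : R → Cv.LB m.R}
    (hL : ∀ r, Cv.Eqv (Cv.bz (fun i => B (D.σ i)) (ℓ r)) (Ls r)) :
    Rep ℓ univ (L.fF (zr T x)) (m.res Ls D.φ) := by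
  have k := (a.zr (T := T)).res h.std.cuts (h.dom (zM_sub hn
    ((det_bijD hA.det (hA.std h.std')).mapsTo hx).1)) (fun j b => ⟨⟨trivial, (h1 j b).1⟩, (h1 j b).2⟩) hL
  rw [show D.φ ⁻¹' (univ \ T) = univ from eq_univ_of_forall fun j => ⟨trivial, hT j⟩] at k
  exact k.rep

end Ch.Res.Lnk.Pj

theorem Ch.RepD.dia {x : ch'.WF ν κ Λ} {m : AM Λ R' J' ν κ} {B π u s}
    (a : RepD ℓ' univ x m B π u s) : Dia x ↔ ∀ j, m.Mt (m.y j) :=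
  ⟨fun h j => (a.mt_iff trivial).1 fun n => congrFun (congrArg Prod.snd (h n)) j,
    fun h n => Prod.ext rfl (funext fun j => (a.mt_iff trivial).2 (h j) n)⟩

theorem Ch.Rep.dia {x : ch'.WF ν κ Λ} {m : AM Λ R' J' ν κ} (a : Rep ℓ' univ x m)
    (hx : x.2 ∈ ch'.base _) : Dia x ↔ ∀ j, m.Mt (m.y j) :=
  let ⟨_, _, _, _, d⟩ := a.exists_data hx; d.dia

theorem Ch.RepD.mem_zD {G : Fam S Λ R' J' K} (hG : G.Inv)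
    (hw : ∀ j i, ch'.wd j i = ∑ r, G.w j r * ℓ' r i)
    (hn : ∀ z ∈ G.cone, ∀ j ∉ G.mov, j ∉ G.zer → z.2 j ≠ 0) {x : ch'.WF ν κ Λ}
    {m : AM Λ R' J' ν κ} {B π u s} (a : RepD ℓ' univ x m B π u s) (hm : m.Sol G)
    (ht : ∀ j, m.Mt (m.y j)) : x ∈ ch'.zD ν κ G :=
  have k := (a.mem_solF hG hw).2 hm
  ⟨⟨k, mem_main_zero.2 ⟨(solF_subset_adm_iff k).2 fun j _ => (a.mt_iff trivial).2 (ht j),
    fun j h1 h2 _ hc => hn _ ((Ch.mem_solF.1 k).2 _ hc).2 j h1 h2⟩⟩, a.dia.2 ht⟩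

end side

variable {S Λ R R' J J' K K' I ν κ : Type} [Fintype S] [Fintype Λ] [Fintype R] [Fintype R']
  [Fintype J] [Fintype J'] [Fintype K] [Fintype K'] [Fintype I] [Fintype ν] [Fintype κ]
  [DecidableEq R] [DecidableEq R'] [DecidableEq I] {F : Fam S Λ R J K} {F' : Fam S Λ R' J' K'}
  {P : PD Λ R R' J J' I} {c : Pc J J' R R'} {b : ℕ} {K₀ : RD R} {K₀' : RD R'}
  {e : K → Option R → ℕ} {e' : K' → Option R' → ℕ}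

namespace Pc

/-- The joint solutions compare the matched solutions of the two charts. -/
structure Cp (c : Pc J J' R R') (F : Fam S Λ R J K) (F' : Fam S Λ R' J' K') (P : PD Λ R R' J J' I)
    (Z₁ : Set (c.D₁.ch.WF ν κ Λ)) (Z₂ : Set (c.D₂.ch.WF ν κ Λ))
    (f₁ : c.ch.WF ν κ Λ → c.D₁.ch.WF ν κ Λ) (f₂ : c.ch.WF ν κ Λ → c.D₂.ch.WF ν κ Λ) : Prop where
  r₁ : c.D₁.RC (P.W F F') F.toWt (c.ch.zD ν κ (P.g1 F F')) Z₁ f₁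
  r₂ : c.D₂.RC (P.W F F') F'.toWt (c.ch.zD ν κ (P.g1 F F')) Z₂ f₂
  h₁ : IsHomeomorph r₁.toEqM.map
  h₂ : IsHomeomorph r₂.toEqM.map
  gz : GZ (P.g1 F F') c.ℓ (c.ch.zD ν κ (P.g1 F F'))
  rep : ∀ z : Quo (actF (P.W F F')) (c.ch.zD ν κ (P.g1 F F')), ∃ x m, z = Quo.mk _ x ∧ m.Sol F ∧
    Rep ℓs univ (f₁ x) m ∧ Rep ℓs univ (f₂ x) (m.ext P.M P.σ)

/-- **the comparison** -/
theorem Ok.chain (hc : c.Ok P F F') (hP : P.Ok F F') (hB : F.Sm b) (hs : c.D₁.ch.Std F e K₀ ℓs)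
    (hs' : c.D₂.ch.Std F' e' K₀' ℓs)
    (hn : ∀ x ∈ c.ch.solF ν κ (P.u1 F F'), Nod (.inl none) (crv x.2))
    {Gd : AM Λ R J ν κ → Prop} (hl : ∀ m, m.Sol F → Gd m →
      ∃ (x : c.ch.WF ν κ Λ) (B π u s : _), RepD c.ℓ univ x (P.jm m) B π u s)
    (g₁ : ∀ x ∈ c.D₁.ch.solF ν κ F, ∀ m, Rep ℓs univ x m → Gd m)
    (g₂ : ∀ x ∈ c.D₂.ch.solF ν κ F', ∀ m m', Rep ℓs univ x m' → m.Sol F →
      AM.Iso F'.toWt univ (m.ext P.M P.σ) m' → Gd m)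
    {Z₁ : Set (c.D₁.ch.WF ν κ Λ)} {Z₂ : Set (c.D₂.ch.WF ν κ Λ)}
    {w₁ : BM (Quo (actF F.toWt) Z₁)} {w₂ : BM (Quo (actF F'.toWt) Z₂)}
    (h₁ : IsD F e (actF F.toWt) Z₁ w₁) (h₂ : IsD F' e' (actF F'.toWt) Z₂ w₂) :
    ∃ f₁ f₂, ∃ h : c.Cp F F' P Z₁ Z₂ f₁ f₂, haveI := h₁.nice; haveI := h₂.nice
      res h.r₁.toEqM.map w₁ = res h.r₂.toEqM.map w₂ := by
  obtain ⟨L₁, n₁, p₁⟩ := hc.exists_pj₁ hP hB hs
  obtain ⟨L₂, n₂, p₂⟩ := hc.exists_pj₂ hP hB hs'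
  have z₁ := h₁.gz hs
  have z₂ := h₂.gz hs'
  have a₁ := (IsD.reE (Fam.solF_reE hP.cone_e1) hP.main_e1).2 h₁
  have a₂ := ((IsD.reE (Fam.solF_reE hP.cone_e2) hP.main_e2).2 h₂).cut
    ⟨hP.inv_e2, hP.reg_e2 hs'.reg, ⟨hs'.fits.wt, hs'.fits.le, hs'.fits.ne⟩, hs'.cuts, hs'.wt⟩ hc.num₂
    p₂.sm hP.tor_e2 (hP.grT hc.lat₂)
  have := h₁.nice
  have := h₂.nice
  obtain rfl := a₁.eq
  obtain rfl := a₂.eq
  have t₁ : ∀ j, c.D₁.φ j ∉ P.T₁ F' := fun j ⟨_, _, a⟩ => by simp at a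
  have t₂ : ∀ j, c.D₂.φ j ∉ T₂ F := fun j ⟨_, _, a⟩ => by simp at a
  have m₁ : ∀ x ∈ c.ch.zM ν κ (P.u1 F F'), Nod (c.D₁.σ c.D₁.o) (crv x.2) := fun x a => hn x a.1
  have m₂ : ∀ x ∈ c.ch.zM ν κ (P.u2 F F'), Nod (c.D₂.σ c.D₂.o) (crv x.2) := fun x a =>
    (congrArg (Nod · (crv x.2)) hc.o).mp a.1.1.2.1.2.2.1.nod
  obtain ⟨b₁, d₁⟩ := p₁.isDA hP.add₁ t₁ m₁ hc.deg a₁
  obtain ⟨b₂, d₂⟩ := p₂.isDA hP.add₂ t₂ m₂ hc.deg a₂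
  have s₁ := hP.add₁.std p₁.std'
  have s₂ := hP.add₂.std p₂.std'
  have k := zD_of_cone (ch := c.ch) (ν := ν) (κ := κ) (F := P.g1 F F') (F' := P.g2 F F') rfl rfl
    hP.B_g hP.E_g hP.mov_g hP.zer_g (hP.cone_g2.trans hP.cone_g1.symm)
  have r₂ := p₂.rcA hP.add₂ t₂ m₂
  have q₂ := fun x hx m B π u s a Ls => p₂.rep hP.add₂ t₂ m₂ (x := x) hx (m := m) (B := B) (π := π)
    (u := u) (s := s) (Ls := Ls) a fun j hj => (hj (congrFun n₂ j)).elim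
  change IsOpenEmbedding r₂.toEqM.map at b₂
  change IsD _ _ _ _ (res r₂.toEqM.map w₂) at d₂
  generalize c.ch.zD ν κ (P.g2 F F') = Z at k r₂ b₂ d₂ q₂
  subst k
  have key : ∀ m, m.Sol F → Gd m → (∀ j, m.Mt (m.y j)) → ∃ x : c.ch.zD ν κ (P.g1 F F'),
      Rep ℓs univ (L₁.fF (zr (P.T₁ F') x.1)) m ∧
        Rep ℓs univ (L₂.fF (zr (T₂ F) x.1)) (m.ext P.M P.σ) := fun m a1 a2 a3 => by
    obtain ⟨x, B, π, u, s, a⟩ := hl m a1 a2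
    have hx : x ∈ c.ch.zD ν κ (P.g1 F F') := a.mem_zD s₁.inv hc.wt
      (fun z hz j => hP.ne_g1 (hP.cone_g1 ▸ hz))
      ⟨a1.1, hP.jm_sec a1, fun z => hP.cone_g1 ▸ hP.jm_vl a1 z⟩ (PD.jm_mt a3)
    exact ⟨⟨x, hx⟩, p₁.rep hP.add₁ t₁ m₁ hx a (fun j hj => by
      rw [n₁ j hj]
      exact ⟨fun ⟨_, _, a⟩ => by simp at a, rfl⟩) (hc.eqv₁ hP a), q₂ x hx _ _ _ _ _ a _ (eqv₂ a)⟩
  have u₁ : ∀ y, ∃ x : c.ch.zD ν κ (P.g1 F F'), ∃ m, m.Sol F ∧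
      Rep ℓs univ (L₁.fF (zr (P.T₁ F') x.1)) m ∧ Rep ℓs univ (L₂.fF (zr (T₂ F) x.1)) (m.ext P.M P.σ) ∧
        (p₁.rcA hP.add₁ t₁ m₁).toEqM.map (Quo.mk _ x) = y := fun y => by
    obtain ⟨y, m, rfl, a⟩ := exists_mk hc.lat₁ z₁.sol y
    have a1 := (a.mem_solF (z₁.base _ y.2) hs.inv z₁.wt).1 (z₁.sol y.2)
    obtain ⟨x, a2, a3⟩ := key m a1 (g₁ _ (z₁.sol y.2) m a) ((a.dia (z₁.base _ y.2)).1 y.2.2)
    exact ⟨x, m, a1, a2, a3, (mk_eq_iff_iso hc.lat₁ hc.num₁.a_ne hc.num₁.M_eq z₁.base a2 a).2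
      (.refl _)⟩
  refine ⟨_, _, ⟨p₁.rcA hP.add₁ t₁ m₁, r₂, ?_, ?_, d₁.gz s₁, fun z => ?_⟩,
    d₁.unique (IsD.of_cone (F := P.g2 F F') (F' := P.g1 F F') rfl rfl hP.B_g.symm hP.E_g.symm hP.mov_g.symm
      hP.zer_g.symm (hP.cone_g1.trans hP.cone_g2.symm) s₂ s₁ d₂)⟩
  · exact ⟨b₁.continuous, b₁.isOpenMap, b₁.injective, fun y =>
      let ⟨_, _, _, _, _, a⟩ := u₁ y; ⟨_, a⟩⟩
  · refine ⟨b₂.continuous, b₂.isOpenMap, b₂.injective, fun y => ?_⟩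
    obtain ⟨y, m', rfl, a⟩ := exists_mk hc.lat₂ z₂.sol y
    obtain ⟨m, a1, a2, a3⟩ := hP.exists_unext ((a.mem_solF (z₂.base _ y.2) hs'.inv z₂.wt).1
      (z₂.sol y.2)) ((a.dia (z₂.base _ y.2)).1 y.2.2)
    obtain ⟨x, -, a4⟩ := key m a1 (g₂ _ (z₂.sol y.2) m m' a a1 a3) a2
    exact ⟨Quo.mk _ x, (mk_eq_iff_iso hc.lat₂ hc.num₂.a_ne hc.num₂.M_eq z₂.base a4 a).2 a3⟩
  · obtain ⟨x, m, a1, a2, a3, a4⟩ := u₁ ((p₁.rcA hP.add₁ t₁ m₁).toEqM.map z)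
    exact ⟨x, m, (b₁.injective a4).symm, a1, a2, a3⟩

end Pc

end Vale.Agent.P269
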