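import Vale.Agent.P287Q.G.Glu.Kd
import Vale.Agent.P269.Map.SQD
import Vale.Agent.P287Q.G.Vir.Clo

set_option linter.unusedSectionVars false

/-!
# Comparison of moduli problems in one chart: definitions
-/

namespace Vale.Agent.P269

open P291Z Set Function Topology Filter Base Holo MvPolynomial

variable {S Λ R J K ι ν κ : Type} [Fintype S] [Fintype Λ] [Fintype R] [Fintype J] [Fintype K]
  [Fintype ι] [DecidableEq ι] [Fintype ν] [Fintype κ]

open Classical in
/-- The coordinates in `T` are replaced by zero. -/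
noncomputable def zc (T : Set J) : (J → ℂ) →ₗ[ℂ] J → ℂ where
  toFun y j := if j ∈ T then 0 else y j
  map_add' _ _ := funext fun j => by by_cases h : j ∈ T <;> simp [h]
  map_smul' _ _ := funext fun j => by by_cases h : j ∈ T <;> simp [h]

theorem zc_mem {T : Set J} (y : J → ℂ) {j : J} (h : j ∈ T) : zc T y j = 0 := if_pos h

theorem zc_not {T : Set J} (y : J → ℂ) {j : J} (h : j ∉ T) : zc T y j = y j := if_neg h

namespace Fam

/-- The fields in `T` become base fields that do not vanish. -/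
@[reducible] def bas (F : Fam S Λ R J K) (T : Set J) : Fam S Λ R J K := { F with mov := F.mov \ T }

/-- Only the fields in `T` are kept; they are movable and do not vanish; no equations. -/
@[reducible] def kos (F : Fam S Λ R J K) (T : Set J) : Fam S Λ R J Empty :=
  { F with
    χ := Empty.elim, wk := Empty.elim, G := Empty.elim, U := {z | ∀ j ∈ T, z.2 j ≠ 0}, E := univ
    mov := T, zer := Tᶜ }

/-- The fields in `T` are movable, do not vanish on the cone and are independent coordinates on the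
fibres of the cone. -/
structure Tor (F : Fam S Λ R J K) (T : Set J) : Prop where
  sub : T ⊆ F.mov
  ne : ∀ z ∈ F.cone, ∀ j ∈ T, z.2 j ≠ 0
  tan : ∀ z ∈ F.cone, ∀ a : J → ℂ, ∃ η ∈ F.vert z, ∀ j ∈ T, η j = a j

end Fam

namespace Ch

variable {ch : Ch ι J}

/-- The fields in `T`. -/
noncomputable def qF (T : Set J) : ch.WF ν κ Λ →L[ℂ] ch.Fm T ch.hf := qX T ∘L .snd ℂ _ _

/-- The vector with given fields in `T`. -/
noncomputable def ιF (T : Set J) : ch.Fm T ch.hf →L[ℂ] ch.WF ν κ Λ := .inr ℂ _ _ ∘L ιX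

open Classical in
/-- The fields in `T` are replaced by zero. -/
noncomputable def zr (T : Set J) : ch.WF ν κ Λ →L[ℂ] ch.WF ν κ Λ :=
  LinearMap.toContinuousLinearMap
    { toFun := fun x => (x.1, W.mk' x.2.Q x.2.p x.2.Ξ fun j => if j ∈ T then 0 else x.2.X j)
      map_add' := fun x y => Prod.ext rfl (W.ext (fun _ => rfl) (fun _ => rfl) rfl fun j => by
        change (if j ∈ T then 0 else x.2.X j + y.2.X j) =
          (if j ∈ T then 0 else x.2.X j) + if j ∈ T then 0 else y.2.X j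
        split_ifs
        exacts [(add_zero _).symm, rfl])
      map_smul' := fun c x => Prod.ext rfl (W.ext (fun _ => rfl) (fun _ => rfl) rfl fun j => by
        change (if j ∈ T then 0 else c • x.2.X j) = c • if j ∈ T then 0 else x.2.X j
        split_ifs
        exacts [by ext; simp, rfl]) }

variable {T : Set J} (x : ch.WF ν κ Λ)

open Classical in
theorem zr_apply : zr T x =
    (x.1, W.mk' x.2.Q x.2.p x.2.Ξ fun j => if j ∈ T then 0 else x.2.X j) := rfl

@[simp] theorem zr_fst : (zr T x).1 = x.1 := rfl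

@[simp] theorem gr_zr : gr (zr T x).2 = gr x.2 := rfl

@[simp] theorem crv_zr : crv (zr T x).2 = crv x.2 := rfl

@[simp] theorem zr_p : (zr T x).2.p = x.2.p := rfl

theorem zr_X_mem {j : J} (h : j ∈ T) : (zr T x).2.X j = 0 := if_pos h

theorem zr_X_not {j : J} (h : j ∉ T) : (zr T x).2.X j = x.2.X j := if_neg h

theorem zr_mem_base : (zr T x).2 ∈ ch.base _ ↔ x.2 ∈ ch.base _ := Iff.rfl

theorem zr_mem_baseF {B : Set (Λ → ℂ)} : zr T x ∈ ch.baseF ν κ B ↔ x ∈ ch.baseF ν κ B := Iff.rfl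

theorem qF_apply (j : T) : qF T x j = x.2.X j := rfl

theorem val_zr {j : J} (h : j ∉ T) : Val (zr T x).2 j = Val x.2 j := val_mk' (if_neg h)

theorem fld_zr {c : V ch.M} (hc : c ∈ crv x.2) : fld (zr T x).2 c = zc T (fld x.2 c) :=
  funext fun j => by
    by_cases h : j ∈ T
    · exact (fld_of_zero (x := (zr T x).2) hc (zr_X_mem x h)).trans (zc_mem _ h).symm
    · exact (fld_mk' (if_neg h) c).trans (zc_not _ h).symm

theorem zr_actF (F : Wt S Λ R J) (s : ch.AF ν κ S) : zr T (actF F s x) = actF F s (zr T x) :=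
  Prod.ext rfl (W.ext (fun _ => rfl) (fun _ => rfl) rfl fun j => by
    by_cases h : j ∈ T
    · refine (zr_X_mem _ h).trans (Eq.symm ?_)
      change s.2.2.1 (some j) ∘L (_ • (zr T x).2.X j) ∘L _ = 0
      rw [zr_X_mem _ h]
      ext; simp
    · refine (zr_X_not _ h).trans ?_
      change _ = s.2.2.1 (some j) ∘L (_ • (zr T x).2.X j) ∘L _
      rw [zr_X_not _ h]
      rfl)

/-- The action on the fields in `T`. -/
noncomputable def ρT (F : Wt S Λ R J) (T : Set J) (s : ch.AF ν κ S) (v : ch.Fm T ch.hf) :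
    ch.Fm T ch.hf := qF T (actF F s (ιF T v : ch.WF ν κ Λ))

theorem ιF_X_mem (v : ch.Fm T ch.hf) {j : J} (h : j ∈ T) :
    (ιF T v : ch.WF ν κ Λ).2.X j = v ⟨j, h⟩ := Fm.ex_mem v h

theorem ιF_X_not (v : ch.Fm T ch.hf) {j : J} (h : j ∉ T) : (ιF T v : ch.WF ν κ Λ).2.X j = 0 :=
  Fm.ex_not v h

theorem actF_X (F : Wt S Λ R J) (s : ch.AF ν κ S) (j : J) : (actF F s x).2.X j =
    s.2.2.1 (some j) ∘L (F.cS s.1 j • x.2.X j) ∘L sub (dup s.2) _ := rfl

theorem ρT_apply (F : Wt S Λ R J) (s : ch.AF ν κ S) (v : ch.Fm T ch.hf) (j : T) : ρT F T s v j =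
    s.2.2.1 (some j) ∘L (F.cS s.1 j • v j) ∘L sub (dup s.2) _ :=
  (actF_X _ F s j).trans (by rw [ιF_X_mem v j.2])

theorem zr_add : zr T x + ιF T (qF T x) = x :=
  Prod.ext (add_zero _) (W.ext (fun _ => add_zero _) (fun _ => add_zero _) (add_zero _) fun j => by
    change (zr T x).2.X j + Fm.ex (qF T x) j = _
    by_cases h : j ∈ T
    · rw [zr_X_mem _ h, Fm.ex_mem _ h, zero_add]; rfl
    · rw [zr_X_not _ h, Fm.ex_not _ h, add_zero])

theorem qF_ιF (v : ch.Fm T ch.hf) : qF T (ιF T v : ch.WF ν κ Λ) = v :=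
  funext fun j => Fm.ex_mem v j.2

theorem qF_actF (F : Wt S Λ R J) (s : ch.AF ν κ S) : qF T (actF F s x) = ρT F T s (qF T x) :=
  funext fun j => (actF_X x F s j).trans (ρT_apply F s (qF T x) j).symm

theorem isRepOn_ρT (F : Wt S Λ R J) (T : Set J) :
    IsRepOn (ρT F T : ch.AF ν κ S → ch.Fm T ch.hf → _) ⊤ where
  mem _ _ _ _ := trivial
  add a _ v _ w _ := funext fun j => by
    change _ = ρT F T a v j + ρT F T a w j
    simp only [ρT_apply]
    change _ ∘L (_ • (v j + w j)) ∘L _ = _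
    ext; simp
  smul a _ c v _ := funext fun j => by
    change _ = c • ρT F T a v j
    simp only [ρT_apply]
    change _ ∘L (_ • (c • v j)) ∘L _ = _
    ext; simp [mul_left_comm]
  one v _ := (congrArg (qF T) (actF_one _)).trans (qF_ιF v)
  mul a b _ _ v _ := (congrArg (qF T) (actF_mul a b _)).trans (qF_actF _ F a)
  cont v _ := (qF T : ch.WF ν κ Λ →L[ℂ] _).continuous.comp (continuous_iff_continuousAt.2 fun g =>
    ((an_actF (F := F) (x := fun _ => (ιF T v : ch.WF ν κ Λ)) analyticAt_id analyticAt_const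
      (ne_S g.isUnit)).continuousAt.comp Units.continuous_val.continuousAt :))

theorem spt (F : Wt S Λ R J) (T : Set J) :
    KD.Spt (actF F : ch.AF ν κ S → ch.WF ν κ Λ → _) (ρT F T) (zr T) (qF T) (ιF T) :=
  ⟨zr_add, qF_ιF, isRepOn_ρT F T, fun a _ x => zr_actF x F a, fun a _ x => qF_actF x F a⟩

open Classical in
/-- Forgetting the relations of the fields in `T`, and equations. -/
noncomputable def BT (T : Set J) {K' : Type} (i : K' → K) : ch.P K →ₗ[ℂ] ch.P K' where
  toFun f := (fun j => if j ∈ T then 0 else f.1 j, fun k => f.2 (i k))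
  map_add' _ _ := Prod.ext (funext fun j => by by_cases h : j ∈ T <;> simp [h]) rfl
  map_smul' _ _ := Prod.ext (funext fun j => by by_cases h : j ∈ T <;> simp [h]) rfl

variable (ch ν κ) (F : Fam S Λ R J K) (e : K → ι → ℕ)

/-- The matching conditions at the persistent nodes. -/
@[reducible] noncomputable def kdQ : KD (ch.AF ν κ S) (ch.WF ν κ Λ) (κ → J → ℂ) where
  ρ s v q j := (∏ i, s.1 i ^ F.wt j i) * (∏ i, s.2.2.2 (.inr q) i ^ ch.wd j i) * v q j
  P₀ := ⊤
  van _ := ⊥
  obs x := .pi univ fun q => F.vert (vl x (.inr (q, false)))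
  s x q := (vl x (.inr (q, false))).2 - (vl x (.inr (q, true))).2

/-- The solutions whose fields match at the persistent nodes. -/
def solD : Set (ch.WF ν κ Λ) :=
  {x | x ∈ ch.solF ν κ F ∧ ∀ q, vl x (.inr (q, false)) = vl x (.inr (q, true))}

/-- The Koszul equations of the fields in `T`. -/
@[reducible] noncomputable def kdK (T : Set J) : KD (ch.AF ν κ S) (ch.WF ν κ Λ) (ch.P Empty) :=
  (ch.kd ν κ (F.kos T) Empty.elim).pb id (zr Tᶜ)

/-- The part of the main stratum where the fields in `T` are sections without zeros. -/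
def secT (T : Set J) : Set (ch.WF ν κ Λ) :=
  {x | x ∈ ch.main κ F 0 ∧ ∀ j ∈ T, ∀ c ∈ crv x.2, (∃ y, Val x.2 j c y) ∧ fld x.2 c j ≠ 0}

/-- The matching conditions for the fields in `T`. -/
@[reducible] noncomputable def kdT (T : Set J) : KD (ch.AF ν κ S) (ch.WF ν κ Λ) (κ → J → ℂ) where
  ρ := (ch.kdQ ν κ F).ρ
  P₀ := ⊤
  van _ := ⊥
  obs _ := .pi univ fun _ => .pi Tᶜ fun _ => ⊥
  s x q := zc Tᶜ ((ch.kdQ ν κ F).s x q)

variable {ch ν κ}

/-- `w` is the virtual class of the matched solutions `Z` (absolute theory). -/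
def IsD (act : ch.AF ν κ S → ch.WF ν κ Λ → ch.WF ν κ Λ) (Z : Set (ch.WF ν κ Λ))
    (w : BM (Quo act Z)) : Prop :=
  ∃ (d n r : ℕ) (v : BM (Quo act (ch.solF ν κ F ∩ ch.main κ F 0))),
    (ch.kd ν κ F e).IsW act _ (ch.main κ F 0) d v ∧
    (ch.kdQ ν κ F).Gd act Z (ch.solF ν κ F ∩ ch.main κ F 0) n r ∧
    w = (ch.kdQ ν κ F).vr act Z _ v

end Ch

end Vale.Agent.P269
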