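import Vale.Agent.P287Q.G.Map.PN

set_option linter.unusedSectionVars false

/-!
# The joint families of two presentations
-/

namespace Vale.Agent.P269

open P291Z Set Function Topology Filter Base Holo MvPolynomial Pc

variable {S Λ R R' J J' K K' I : Type} [Fintype S] [Fintype Λ] [Fintype R] [Fintype R']
  [Fintype J] [Fintype J'] [Fintype K] [Fintype K'] [Fintype I] [DecidableEq R] [DecidableEq R']
  [DecidableEq I] {F : Fam S Λ R J K} {F' : Fam S Λ R' J' K'} {P : PD Λ R R' J J' I}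
  {z : (Λ → ℂ) × (JP J J' R → ℂ)}

namespace JF

variable {W : Wt S Λ R J} {T : Set J} {p : MvPolynomial J (MvPolynomial Λ ℂ)}

theorem hom_one : W.Hom 1 0 0 := by
  simpa [← Pi.zero_def] using W.hom_monomial 0

theorem hom_X (j : J) : W.Hom (X j) (W.w j) (W.wt j) := by
  classical
  have := W.hom_monomial (Finsupp.single j 1)
  simp only [Finsupp.single_apply, Nat.cast_ite, Nat.cast_one, Nat.cast_zero, ite_mul, one_mul,
    zero_mul, Finset.sum_ite_eq, Finset.mem_univ, if_true] at this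
  exact this

theorem hom_pow {χ ψ} (h : W.Hom p χ ψ) (n : ℕ) : W.Hom (p ^ n) ((n : ℤ) • χ) ((n : ℤ) • ψ) := by
  induction n with
  | zero => simpa using hom_one
  | succ n a => simpa [pow_succ, add_smul] using a.mul h

theorem hom_prod {α : Type} {p : α → MvPolynomial J (MvPolynomial Λ ℂ)} {χ : α → R → ℤ}
    {ψ : α → S → ℤ} (s : Finset α) (h : ∀ a, W.Hom (p a) (χ a) (ψ a)) :
    W.Hom (∏ a ∈ s, p a) (∑ a ∈ s, χ a) (∑ a ∈ s, ψ a) := by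
  induction s using Finset.cons_induction with
  | empty => exact hom_one
  | cons a s _ b => simpa only [Finset.prod_cons, Finset.sum_cons] using (h a).mul b

theorem fr (h : p ∈ supported _ Tᶜ) : ∀ α ∈ p.support, ∀ i ∈ T, α i = 0 := fun α a i b =>
  by_contra fun e => mem_supported.1 h
    ((mem_vars_iff_mem_support i).2 ⟨α, a, Finsupp.mem_support_iff.2 e⟩) b

theorem rename_mem {φ : J' → J} (h : ∀ j, φ j ∉ T) (p : MvPolynomial J' (MvPolynomial Λ ℂ)) :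
    rename φ p ∈ supported _ Tᶜ := by
  classical
  exact mem_supported.2 fun _ a => let ⟨j, _, e⟩ := mem_vars_rename _ _ a; e ▸ h j

theorem mon_mem {T : Set (JP J J' R)} (h1 : ∀ r, lk (some r) ∉ T) (h2 : ∀ i, y2 (P.s i) ∉ T)
    (v : R' → ℤ) : P.mon v ∈ supported _ Tᶜ :=
  mul_mem (prod_mem fun r _ => pow_mem (X_mem_supported.2 (h1 r)) _)
    (prod_mem fun i _ => pow_mem (X_mem_supported.2 (h2 i)) _)

theorem zc_zero {y : J → ℂ} {j : J} (h : j ∉ T → y j = 0) : zc T y j = 0 := by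
  by_cases e : j ∈ T
  exacts [zc_mem _ e, (zc_not _ e).trans (h e)]

theorem pow_toNat {x : ℂ} (h : x ≠ 0) (n : ℤ) : x ^ n.toNat = x ^ n * x ^ (-n).toNat := by
  rw [← zpow_natCast, ← zpow_natCast, ← zpow_add₀ h]
  exact congrArg _ (by omega)

theorem act_eq (W : Wt S Λ R' J') (t : R' → ℂ) (σ : J' → MvPolynomial J (MvPolynomial Λ ℂ)) (z) :
    W.actT (1, t) (evσ σ z) = (z.1, fun j => (∏ r, t r ^ W.w j r) * evz z (σ j)) :=
  Prod.ext (W.actL_one _) (funext fun j => by simp [Wt.actT, evσ])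

theorem s_notMem (i : I) : P.s i ∉ (P.f2 F').mov := fun a => a.2 ⟨⟨i, rfl⟩, a.1⟩

theorem y1_T₁ (j : J) : y1 j ∉ P.T₁ (J := J) F' := by simp [PD.T₁]

theorem y2_T₁ {j : J'} : y2 j ∈ P.T₁ (J := J) F' ↔ j ∈ (P.f2 F').mov :=
  (Sum.inl_injective.comp Sum.inr_injective).mem_set_image

theorem r_T₁ (j) : .inr j ∉ P.T₁ (J := J) F' := by simp [PD.T₁]

theorem y2_T₂ (j : J') : y2 j ∉ T₂ F := by simp [T₂]

theorem y1_T₂ {j : J} : y1 j ∈ T₂ (J' := J') F ↔ j ∈ F.mov :=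
  (Sum.inl_injective.comp Sum.inl_injective).mem_set_image

theorem r_T₂ (j) : .inr j ∉ T₂ (J' := J') F := by simp [T₂]

theorem T₁_sub : P.T₁ F' ⊆ P.Z₁ (J := J) F' := fun _ ⟨j, a, b⟩ => .inl ⟨j, .inl a, b⟩

theorem T₂_sub : T₂ F ⊆ (Z₂ : Set (JP J J' R)) := fun _ ⟨j, _, b⟩ => .inl ⟨j, b⟩

theorem zc₁ (y : JP J J' R → ℂ) : zc (P.T₁ F') y ∘ y1 = y ∘ y1 :=
  funext fun j => zc_not _ (y1_T₁ j)

theorem zc₂ (y : JP J J' R → ℂ) : zc (T₂ F) y ∘ y2 = y ∘ y2 := funext fun j => zc_not _ (y2_T₂ j)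

end JF

open JF

namespace PD

theorem w_y2 (j : J') : (P.W F F').w (y2 j) = Sum.elim (0 : Option R → ℤ) (F'.w j) := by
  funext i
  rcases i with i | i <;> simp [W, c₂, Pi.single_apply]

theorem evz_mon (v : R' → ℤ) : evz z (P.mon v) =
    (∏ r, z.2 (lk (some r)) ^ (P.vM v r).toNat) * ∏ i, z.2 (y2 (P.s i)) ^ (-P.vn v i).toNat := by
  simp [evz, mon]

section

variable (h1 : ∀ o, z.2 (lk o) ≠ 0) (h2 : ∀ i, z.2 (y2 (P.s i)) ≠ 0) (v : R' → ℤ)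
include h1 h2

theorem JF.mon_ne : evz z (P.mon v) ≠ 0 :=
  (evz_mon v).trans_ne (mul_ne_zero (Finset.prod_ne_zero_iff.2 fun _ _ => pow_ne_zero _ (h1 _))
    (Finset.prod_ne_zero_iff.2 fun i _ => pow_ne_zero _ (h2 i)))

theorem JF.mon_neg : evz z (P.mon (-v)) = (∏ r, P.tor z.2 r ^ v r) * evz z (P.mon v) := by
  rw [evz_mon, evz_mon, tor_zpow (fun _ => h1 _) h2, mul_mul_mul_comm, ← Finset.prod_mul_distrib,
    ← Finset.prod_mul_distrib, vM_neg, vn_neg]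
  refine congrArg₂ (· * ·) (Finset.prod_congr rfl fun r _ => ?_)
    (Finset.prod_congr rfl fun i _ => ?_)
  · rw [Pi.neg_apply, pow_toNat (h1 _), neg_neg]
  · rw [Pi.neg_apply, neg_neg, pow_toNat (h2 _)]

omit v in
theorem JF.eq₁ (j : J') : evz z (P.a F' (y2 j)) * z.2 (y2 j) = evz z (P.h F' (y2 j)) ↔
    z.2 (y2 j) = (∏ r, P.tor z.2 r ^ F'.w j r) * evz (z.1, z.2 ∘ y1) (P.σ j) := by
  have e : evz z (P.h F' (y2 j)) = evz z (rename y1 (P.σ j)) * evz z (P.mon (-F'.w j)) := by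
    simp only [evz, ← map_mul]
    rfl
  rw [e, evz_rename, JF.mon_neg h1 h2, ← mul_assoc, mul_comm _ (evz z _), mul_comm (evz _ (P.σ j))]
  exact mul_right_inj' (JF.mon_ne h1 h2 _)

omit v in
theorem JF.eq₂ (j : J) : evz z (P.a F' (y1 j)) * z.2 (y1 j) = evz z (P.h F' (y1 j)) ↔
    z.2 (y2 (P.φ j)) = (∏ r, P.tor z.2 r ^ F'.w (P.φ j) r) * z.2 (y1 j) := by
  have e : evz z (P.h F' (y1 j)) = z.2 (y2 (P.φ j)) * evz z (P.mon (F'.w (P.φ j))) := by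
    simp [evz, h, v₀]
  rw [e, show evz z (P.a F' (y1 j)) = _ from JF.mon_neg h1 h2 _, mul_right_comm, eq_comm]
  exact mul_left_inj' (JF.mon_ne h1 h2 _)

end

theorem JF.mem_cone : z ∈ P.cone F F' ↔ (z.1, z.2 ∘ y1) ∈ F.cone ∧ (∀ o, z.2 (lk o) ≠ 0) ∧
    (∀ i, z.2 (y2 (P.s i)) ≠ 0) ∧ (∀ b, z.2 (zf b) = 0) ∧
    ∀ j, z.2 (y2 j) = (∏ r, P.tor z.2 r ^ F'.w j r) * evz (z.1, z.2 ∘ y1) (P.σ j) := by
  simp only [cone, mem_ofPred_eq, act_eq, Prod.mk.injEq, true_and, funext_iff, comp_apply]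

namespace Ok

variable (h : P.Ok F F')
include h

theorem hom_mon (v : R' → ℤ) : (P.W F F').Hom (P.mon v) (P.wm F F' v) 0 := by
  have := (hom_prod Finset.univ fun r => hom_pow (hom_X (W := P.W F F') (lk (some r)))
    (P.vM v r).toNat).mul
      (hom_prod Finset.univ fun i => hom_pow (hom_X (y2 (P.s i))) (-P.vn v i).toNat)
  rwa [show ∀ a b : S → ℤ, a = 0 → b = 0 → a + b = 0 from fun _ _ a b => by rw [a, b, add_zero]]
    at this
  · exact Finset.sum_eq_zero fun _ _ => smul_zero _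
  · exact Finset.sum_eq_zero fun i _ => (congrArg _ (h.wt_s i)).trans (smul_zero _)

theorem key (v : R' → ℤ) : Sum.elim (0 : Option R → ℤ) v +
    ∑ r, P.vM v r • (P.W F F').w (lk (some r)) =
      ∑ r, P.vM v r • P.c₁ r + ∑ i, P.vn v i • (P.W F F').w (y2 (P.s i)) := by
  funext i
  simp only [w_y2]
  rcases i with i | i
  · simp [W, c₁, Pi.single_apply]
  · simpa [W, c₁] using congrFun (h.dec v) i

theorem wm_sub (v : R' → ℤ) : Sum.elim (0 : Option R → ℤ) v + P.wm F F' v =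
    ∑ r, P.vM v r • P.c₁ r + P.wm F F' (-v) := by
  have k : ∀ a : ℤ, (a.toNat : ℤ) = a + (-a).toNat := fun a => by omega
  simp only [wm, vM_neg, vn_neg, Pi.neg_apply, neg_neg, k (P.vM v _), k (P.vn v _), add_smul,
    Finset.sum_add_distrib]
  linear_combination (exp := 1) h.key v

theorem up₂ : (P.f2 F').Up (P.W F F') y2 c₂ univ Z₂ :=
  ⟨Sum.inl_injective.comp Sum.inr_injective, fun _ => rfl, fun _ => rfl, h.wl.symm, isClosed_univ,
    fun _ _ _ _ => trivial, fun _ _ _ _ _ => trivial, fun _ => by simp [Z₂]⟩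

theorem up₁ : (F.reE univ F.U).Up (P.W F F') y1 P.c₁ (P.E₁ F') (P.Z₁ F') :=
  ⟨Sum.inl_injective.comp Sum.inl_injective, fun _ => rfl, fun _ => rfl, rfl,
    h.closed_E.preimage Fam.Up.cont, fun _ ht z hz =>
      mem_of_eq_of_mem (s := P.E F') (h.up₂.actT ht z).2 (h.inv_E (h.up₂.actT ht z).1 hz),
    fun _ _ _ e a => h.base_E (fun _ _ _ => e _ (by simp)) a, fun _ => by simp [Z₁]⟩

/-- the points of the cone of `u1` -/
theorem mem_u1 (hz : z ∈ (P.u1 F F').cone) : (z.1, z.2 ∘ y1) ∈ F.cone ∧ (∀ o, z.2 (lk o) ≠ 0) ∧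
    ∀ i, z.2 (y2 (P.s i)) ≠ 0 :=
  have a := h.up₁.mem_cone.1 hz
  ⟨h.cone_e1.le a.1, fun _ => a.2.2.2 _ (by simp) (by simp [Z₁]),
    fun i => a.2.2.2 _ (by simp) (by simpa [Z₁, h.nz i] using JF.s_notMem i)⟩

theorem mem_u2 (hz : z ∈ (P.u2 F F').cone) : (z.1, z.2 ∘ y2) ∈ F'.cone ∧ (∀ o, z.2 (lk o) ≠ 0) ∧
    ∀ i, z.2 (y2 (P.s i)) ≠ 0 :=
  have a := h.up₂.mem_cone.1 hz
  ⟨h.cone_e2.le a.1, fun _ => a.2.2.2 _ (by simp) (by simp [Z₂]), h.ne_s (h.cone_e2.le a.1)⟩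

theorem hom_a (j : JP J J' R) :
    (P.W F F').Hom (P.a F' j * X j) (P.χ F F' j) ((P.W F F').wt j) := by
  have := (h.hom_mon (P.v₀ F' j)).mul (hom_X j)
  rwa [zero_add, add_comm] at this

theorem add₁ : (P.u1 F F').Add (P.T₁ F') (P.a F') (P.h F') (P.χ F F') (P.W F F').wt := by
  have m := mon_mem (P := P) (T := P.T₁ (J := J) F') (fun _ => r_T₁ _)
    fun i a => JF.s_notMem i (y2_T₁.1 a)
  refine ⟨T₁_sub.trans subset_union_right, fun k => fr (rename_mem y1_T₁ _), fun j _ => fr (m _),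
    ?_, fun j _ => h.hom_a j, ?_,
    fun j _ z hz => JF.mon_ne (P := P) (h.mem_u1 hz).2.1 (h.mem_u1 hz).2.2 (P.v₀ F' j),
    fun l y y' e a => ⟨mem_of_eq_of_mem (s := F.U)
      (congrArg (Prod.mk l) (funext fun j => (e _ (y1_T₁ (P := P) (F' := F') j)).symm)) a.1,
      fun j b c => (e j (mt (T₁_sub ·) c)).symm.trans_ne (a.2 j b c)⟩,
    fun l y y' e a => ⟨h.base_E (fun j b _ => e _ fun c => b (y2_T₁.1 c).1) a.1, trivial⟩⟩
  · rintro _ ⟨j, -, rfl⟩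
    exact fr (mul_mem (rename_mem y1_T₁ _) (m _))
  · rintro _ ⟨j, -, rfl⟩
    have := ((h.hom_σ j).rename h.up₁.w h.up₁.wt h.up₁.wl).mul (h.hom_mon (-F'.w j))
    rwa [add_zero, ← h.wm_sub, ← w_y2 (P := P) (F := F)] at this

theorem add₂ : (P.u2 F F').Add (T₂ F) (P.a F') (P.h F') (P.χ F F') (P.W F F').wt := by
  have m := mon_mem (P := P) (T := T₂ F) (fun _ => r_T₂ _) fun i => y2_T₂ _
  refine ⟨T₂_sub.trans subset_union_right, fun k => fr (rename_mem y2_T₂ _), fun j _ => fr (m _),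
    ?_, fun j _ => h.hom_a j, ?_,
    fun j _ z hz => JF.mon_ne (P := P) (h.mem_u2 hz).2.1 (h.mem_u2 hz).2.2 (P.v₀ F' j),
    fun l y y' e a => ⟨mem_of_eq_of_mem (s := P.U F')
      (congrArg (Prod.mk l) (funext fun j => (e _ (y2_T₂ j)).symm)) a.1,
      fun j b c => (e j (mt (T₂_sub ·) c)).symm.trans_ne (a.2 j b c)⟩,
    fun l y y' e a => ⟨trivial, h.base_E (fun j _ _ => e _ (y2_T₂ j)) a.2⟩⟩
  · rintro _ ⟨j, -, rfl⟩
    exact fr (mul_mem (X_mem_supported.2 (y2_T₂ _)) (m _))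
  · rintro _ ⟨j, -, rfl⟩
    have := (hom_X (W := P.W F F') (y2 (P.φ j))).mul (h.hom_mon (- -F'.w (P.φ j)))
    rw [add_zero, show (P.W F F').wt (y2 (P.φ j)) = _ from h.wt_φ j, w_y2] at this
    rwa [show P.χ F F' (y1 j) = _ from ?_]
    rw [neg_neg, h.wm_sub, h.vM_φ]
    rfl

theorem cone_y2 (hz : z ∈ P.cone F F') : (z.1, z.2 ∘ y2) ∈ F'.cone :=
  (h.cone _).2 ⟨_, tor_unit (fun _ => hz.2.1 _) hz.2.2.1, _, hz.1, hz.2.2.2.2⟩

theorem ne₁ (hz : z ∈ P.cone F F') {j : JP J J' R} (hj : j ∉ range y1) (h0 : j ∉ P.Z₁ F') :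
    z.2 j ≠ 0 := by
  rcases j with (j | j) | j | j
  · exact (hj ⟨j, rfl⟩).elim
  · by_cases e : j ∈ F'.mov
    · obtain ⟨⟨i, rfl⟩, -⟩ : j ∈ P.T F' := by_contra fun a => h0 (.inl ⟨j, .inl ⟨e, a⟩, rfl⟩)
      exact hz.2.2.1 i
    · exact h.ne_base (h.cone_y2 hz) e fun a => h0 (.inl ⟨j, .inr a, rfl⟩)
  · exact hz.2.1 j
  · exact (h0 (.inr ⟨j, rfl⟩)).elim

theorem base' {j : J'} (hj : j ∉ (P.f2 F').mov) (hz : j ∉ F'.zer) : P.vM (F'.w j) = 0 ∧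
    ∀ z : (Λ → ℂ) × (J → ℂ), evz z (P.σ j) = P.ψ F' j z.1 := by
  by_cases e : j ∈ F'.mov
  · obtain ⟨⟨i, rfl⟩, -⟩ : j ∈ P.T F' := by_contra fun a => hj ⟨e, a⟩
    exact ⟨h.vM_s i, fun z => by simp [h.ψ_s, h.σ_s, evz]⟩
  · obtain ⟨-, a, -, -, b, c, -⟩ := h.base e hz
    exact ⟨a, fun z => by simp [ψ, e, hz, c, evz]⟩

theorem cone_g1 : (P.g1 F F').cone = P.cone F F' := by
  refine Set.ext fun z => h.add₁.mem_cone.trans ⟨fun ⟨a, b⟩ => ?_, fun hz => ⟨h.up₁.mem_cone.2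
    ⟨h.cone_e1.ge (mem_of_eq_of_mem (congrArg _ (zc₁ _)) hz.1), h.base_E (fun j c _ =>
      (zc_not _ fun d => c (y2_T₁.1 d).1).symm) (h.cone_e2.ge (h.cone_y2 hz)).2.1.2.1, ?_,
      fun j c d => (zc_not _ (mt (T₁_sub ·) d)).trans_ne (h.ne₁ hz c d)⟩, ?_⟩⟩
  · obtain ⟨c, d, e⟩ := h.mem_u1 a
    obtain ⟨-, f, g, -⟩ := h.up₁.mem_cone.1 a
    have s := fun i => zc_not z.2 (mt y2_T₁.1 (JF.s_notMem (P := P) (F' := F') i))
    simp only [zc₁, zc_not _ (r_T₁ _), s] at c d e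
    refine JF.mem_cone.2 ⟨c, d, e, fun i => (zc_not _ (r_T₁ _)).symm.trans (g _ (.inr ⟨i, rfl⟩)),
      fun j => ?_⟩
    by_cases k : j ∈ (P.f2 F').mov
    · exact (JF.eq₁ d e j).1 (b _ ⟨j, k, rfl⟩)
    rw [← zc_not z.2 (mt y2_T₁.1 k)]
    by_cases l : j ∈ F'.zer
    · rw [show evz _ (P.σ j) = 0 from (h.evσ_mem c).2.1.2.2 j l, mul_zero]
      exact g _ (.inl ⟨j, .inr l, rfl⟩)
    · rw [tor_zpow (fun _ => d _) e, (h.base' k l).1, (h.base' k l).2]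
      simpa [s, mul_comm] using (h.mem_E' fun _ i _ => (s i).trans_ne (e i)).1 f j k l
  · rintro _ (⟨j, a, rfl⟩ | ⟨j, rfl⟩)
    · exact zc_zero fun b => (h.cone_y2 hz).2.1.2.2 j (a.resolve_left (mt y2_T₁.2 b))
    · exact zc_zero fun _ => hz.2.2.2.1 j
  · rintro _ ⟨j, -, rfl⟩
    exact (JF.eq₁ hz.2.1 hz.2.2.1 j).2 ((JF.mem_cone.1 hz).2.2.2.2 j)

theorem cone_g2 : (P.g2 F F').cone = P.cone F F' := by
  have σ := fun j (z : (Λ → ℂ) × (J → ℂ)) => show evz z (P.σ (P.φ j)) = z.2 j by simp [h.σ_φ, evz]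
  refine Set.ext fun z => h.add₂.mem_cone.trans ⟨fun ⟨a, b⟩ => ?_, fun hz => ⟨h.up₂.mem_cone.2
    ⟨h.cone_e2.ge (mem_of_eq_of_mem (congrArg _ (zc₂ _)) (h.cone_y2 hz)), trivial, ?_, ?_⟩, ?_⟩⟩
  · obtain ⟨c, d, e⟩ := h.mem_u2 a
    obtain ⟨-, -, g, -⟩ := h.up₂.mem_cone.1 a
    simp only [zc₂, zc_not _ (r_T₂ _), zc_not _ (y2_T₂ _)] at c d e
    obtain ⟨t, ht, z₀, h0, k⟩ := (h.cone _).1 c
    have u := tor_unit (fun _ => d _) e
    have u' := isUnit_pi_iff.1 u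
    have v : IsUnit ((P.tor z.2)⁻¹ * t) :=
      (isUnit_pi_iff.2 fun r => inv_ne_zero (u' r)).mul ht
    have k1 : ∀ i, ∏ r, ((P.tor z.2)⁻¹ * t) r ^ F'.w (P.s i) r = 1 := fun i => by
      have := congrFun (congrArg Prod.snd (k.trans (act_eq _ _ _ _))) (P.s i)
      simp only [comp_apply, h.σ_s, evz, map_one, mul_one] at this
      simp only [prod_zpow_mul, Pi.inv_apply, inv_zpow, Finset.prod_inv_distrib, ← this,
        tor_zpow (fun _ => d _) e, h.vM_s, h.vn_s]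
      simp [Pi.single_apply, apply_ite, e i]
    have k2 := h.inv.cone_act (t := (1, fun r => ∏ r', ((P.tor z.2)⁻¹ * t) r' ^ P.c r r'))
      (Prod.isUnit_iff.2 ⟨isUnit_one, isUnit_pi_iff.2 fun _ =>
        prod_zpow_ne (isUnit_pi_iff.1 v) _⟩) h0
    rw [show ((1 : S → ℂ), t) = (1, P.tor z.2) * (1, (P.tor z.2)⁻¹ * t) from Prod.ext
      (mul_one _).symm (funext fun r => (mul_inv_cancel_left₀ (u' r) _).symm), Wt.actT_mul,
      h.act_evσ v k1] at k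
    generalize F.actT _ z₀ = z₁ at k k2
    obtain rfl : z₁ = (z.1, z.2 ∘ y1) := by
      rw [act_eq] at k
      refine Prod.ext (congrArg Prod.fst k).symm (funext fun j => ?_)
      by_cases m : j ∈ F.mov
      · exact (σ j z₁).symm.trans (mul_left_cancel₀ (prod_zpow_ne u' _)
          ((congrFun (congrArg Prod.snd k) _).symm.trans ((JF.eq₂ d e j).1 (b _ ⟨j, m, rfl⟩))))
      · exact (k2.2.1.2.2 j (h.abs m)).trans
          ((g _ (.inl ⟨j, rfl⟩)).symm.trans (zc_not _ (mt y1_T₂.1 m)))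
    exact ⟨k2, d, e, fun i => (zc_not _ (r_T₂ _)).symm.trans (g _ (.inr ⟨i, rfl⟩)), k⟩
  · rintro _ (⟨j, rfl⟩ | ⟨j, rfl⟩)
    · exact zc_zero fun b => hz.1.2.1.2.2 j (h.abs (mt y1_T₂.2 b))
    · exact zc_zero fun _ => hz.2.2.2.1 j
  · rintro ((j | j) | j | j) a b
    exacts [(b (.inl ⟨j, rfl⟩)).elim, (a ⟨j, rfl⟩).elim, (zc_not _ (r_T₂ _)).trans_ne (hz.2.1 j),
      (b (.inr ⟨j, rfl⟩)).elim]
  · rintro _ ⟨j, -, rfl⟩
    exact (JF.eq₂ hz.2.1 hz.2.2.1 j).2 (((JF.mem_cone.1 hz).2.2.2.2 _).trans (congrArg _ (σ j _)))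

theorem B_g : (P.g2 F F').B = (P.g1 F F').B := h.B

theorem E_g : (P.g2 F F').E = (P.g1 F F').E := Set.ext fun _ => and_comm

theorem mov_g : (P.g2 F F').mov = (P.g1 F F').mov := union_comm _ _

theorem zer_g : (P.g2 F F').zer = (P.g1 F F').zer := by
  ext ((j | j) | j | j)
  · exact ⟨fun a => ⟨.inl ⟨j, h.abs (mt y1_T₂.2 a.2), rfl⟩, y1_T₁ j⟩, fun a =>
      ⟨.inr (.inl ⟨j, rfl⟩), fun b =>
        disjoint_left.1 h.inv.zer_base (by simpa [Z₁] using a.1) (y1_T₂.1 b)⟩⟩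
  · refine ⟨fun a => ?_, fun a => ⟨.inl ⟨j, ?_, rfl⟩, y2_T₂ j⟩⟩
    · have b : j ∈ F'.zer := by simpa [Z₂] using a.1
      exact ⟨.inr (.inl ⟨j, .inr b, rfl⟩),
        fun c => disjoint_left.1 h.inv'.zer_base b (y2_T₁.1 c).1⟩
    · exact Or.resolve_left (by simpa [Z₁] using a.1) (mt y2_T₁.2 a.2)
  · simp [Z₁, Z₂]
  · exact ⟨fun _ => ⟨.inr (.inr ⟨j, rfl⟩), r_T₁ _⟩, fun _ => ⟨.inr (.inr ⟨j, rfl⟩), r_T₂ _⟩⟩

theorem ne_g1 (hz : z ∈ P.cone F F') {j : JP J J' R} (hj : j ∉ (P.g1 F F').mov)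
    (h0 : j ∉ (P.g1 F F').zer) : z.2 j ≠ 0 :=
  have a : j ∉ (P.u1 F F').zer := fun a => h0 ⟨a, fun b => hj (.inr b)⟩
  h.ne₁ hz (fun ⟨i, e⟩ => a (.inl ⟨i, h.abs fun b => hj (.inl ⟨i, b, e⟩), e⟩)) fun b => a (.inr b)

/-- the kept fields differ by a monomial in the links -/
theorem exists_ex (j : J) : ∃ n : JP J J' R → ℤ,
    (P.W F F').w (y1 j) = (P.W F F').w (y2 (P.φ j)) + ∑ i, n i • (P.W F F').w i ∧
    (P.W F F').wt (y1 j) = (P.W F F').wt (y2 (P.φ j)) + ∑ i, n i • (P.W F F').wt i ∧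
    (∀ i, n i ≠ 0 → ∀ z ∈ P.cone F F', z.2 i ≠ 0) ∧ n (y2 (P.φ j)) = 0 ∧ n (y1 j) = 0 := by
  classical
  let n : JP J J' R → ℤ := ∑ r, Pi.single (lk (some r)) (F.w j r) -
    ∑ i, Pi.single (y2 (P.s i)) (P.vn (F'.w (P.φ j)) i)
  have a : ∀ {α : Type} (f : JP J J' R → α → ℤ), ∑ i, n i • f i =
      ∑ r, F.w j r • f (lk (some r)) - ∑ i, P.vn (F'.w (P.φ j)) i • f (y2 (P.s i)) := fun f => by
    simp only [← Fintype.linearCombination_apply ℤ f, n, map_sub, map_sum,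
      Fintype.linearCombination_apply_single]
  have b : ∀ i, (∀ r, i ≠ lk (some r)) → (∀ k, i ≠ y2 (P.s k)) → n i = 0 := fun i b c => by
    simp [n, Pi.single_eq_of_ne (b _), Pi.single_eq_of_ne (c _)]
  refine ⟨n, ?_, ?_, fun i c z hz => by_contra fun d => c (b i (fun r e => d (e ▸ hz.2.1 _))
    fun k e => d (e ▸ hz.2.2.1 k)), b _ (by simp) fun k e => h.s_notMem k ⟨j, by simpa using e⟩,
    b _ (by simp) (by simp)⟩
  · have := h.key (F'.w (P.φ j))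
    rw [h.vM_φ] at this
    rw [a, w_y2, ← add_sub_assoc, this, add_sub_cancel_right]
    rfl
  · rw [a]
    simp [W, h.wt_s, h.wt_φ]

end Ok

end PD

end Vale.Agent.P269
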