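import Vale.Agent.P287Q.G.Map.JF

set_option linter.unusedSectionVars false

/-!
# The joint chart of two presentations
-/

namespace Vale.Agent.P269

open P291Z Set Function Topology Filter Base Holo MvPolynomial Pc Ch

variable {S Λ R R' J J' K K' I ν κ : Type} [Fintype S] [Fintype Λ] [Fintype R] [Fintype R']
  [Fintype J] [Fintype J'] [Fintype K] [Fintype K'] [Fintype I] [Fintype ν] [Fintype κ]
  [DecidableEq R] [DecidableEq R'] [DecidableEq I] {F : Fam S Λ R J K} {F' : Fam S Λ R' J' K'}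
  {P : PD Λ R R' J J' I} {c : Pc J J' R R'} {b : ℕ}

namespace JL

section gen

variable {α β ι : Type} [Fintype α] [Fintype β] [Fintype ι] [DecidableEq ι]

theorem dual {e : α → ι → ℤ} (surj : ∀ v : ι → ℤ, ∃ a : α → ℤ, v = ∑ o, a o • e o)
    (inj : ∀ a : α → ℤ, ∑ o, a o • e o = 0 → ∀ o, a o = 0) : ∃ v : α → ι → ℤ,
      (∀ o, ∑ i, e o i * v o i = 1) ∧ (∀ o o', o' ≠ o → ∑ i, e o i * v o' i = 0) ∧
      ∀ i, (fun i' => ∑ o, v o i * e o i') = Pi.single i 1 := by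
  classical
  choose a ha using fun i => surj (Pi.single i 1)
  have h3 : ∀ i i', ∑ o, a i o * e o i' = (Pi.single i 1 : ι → ℤ) i' := fun i i' => by
    simp [ha i]
  have k : ∀ o o', ∑ i, e o i * a i o' - (Pi.single o 1 : α → ℤ) o' = 0 := fun o =>
    inj _ (funext fun i' => by
      simp only [Finset.sum_apply, Pi.smul_apply, smul_eq_mul, _root_.sub_mul,
        Finset.sum_sub_distrib, Finset.sum_mul, mul_assoc]
      rw [Finset.sum_comm]
      simp [← Finset.mul_sum, h3, Pi.single_apply])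
  exact ⟨fun o i => a i o, fun o => by simpa [sub_eq_zero] using k o o,
    fun o o' d => by simpa [d] using k o o', fun i => funext (h3 i)⟩

theorem sum_sup {φ : α → β} (hφ : Injective φ) {n : β → ℤ} (hn : ∀ j ∉ range φ, n j = 0)
    (f : β → ι → ℤ) : ∑ j, n j • f j = ∑ o, n (φ o) • f (φ o) :=
  (Fintype.sum_of_injective φ hφ _ _ (fun j h => by rw [hn j h, zero_smul]) fun _ => rfl).symm

theorem ext_sup {φ : α → β} {n n' : β → ℤ} (hn : ∀ j ∉ range φ, n j = 0)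
    (hn' : ∀ j ∉ range φ, n' j = 0) (e : ∀ o, n (φ o) = n' (φ o)) : n = n' := funext fun j => by
  by_cases k : j ∈ range φ
  · obtain ⟨o, rfl⟩ := k
    exact e o
  · rw [hn j k, hn' j k]

theorem exists_sup {φ : α → β} (hφ : Injective φ) (a : α → ℤ) :
    ∃ n : β → ℤ, (∀ j ∉ range φ, n j = 0) ∧ ∀ o, n (φ o) = a o :=
  ⟨extend φ a 0, fun _ h => extend_apply' _ _ _ h, hφ.extend_apply _ _⟩

theorem ch_ext {c c' : Ch ι J} (h1 : c.M = c'.M) (h2 : c.o = c'.o) (h3 : c.g = c'.g)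
    (h4 : c.m = c'.m) (h5 : c.a = c'.a) (h6 : c.h = c'.h) (h7 : c.k = c'.k) (h8 : c.bω = c'.bω)
    (h9 : c.b = c'.b) : c = c' := by
  cases c
  cases c'
  dsimp only at *
  subst_vars
  rfl

theorem sum_dot (a : α → ℤ) (e : α → ι → ℤ) (m : ι → ℤ) :
    ∑ i, (∑ r, a r * e r i) * m i = ∑ r, a r * ∑ i, e r i * m i := by
  simp only [Finset.sum_mul, Finset.mul_sum, mul_assoc]
  exact Finset.sum_comm

theorem ℓs_m {g : ℤ} {n k D : ℕ} {d : R → ℤ} (r : R) :
    ∑ o, ℓs r o * (F.chart g n d k D).m o = d r := by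
  simp [Fam.chart, Tgt.chart, ℓs, Tgt.hat, mul_add, Finset.sum_add_distrib, Pi.single_apply]

end gen

theorem lk_inj : Injective (lk : Option R → JP J J' R) := Sum.inr_injective.comp Sum.inl_injective

/-- The second component of the degrees of the links. -/
noncomputable def β (c : Pc J J' R R') (P : PD Λ R R' J J' I) (o : Option R) : Option R' → ℤ :=
  o.elim ((c.t : ℤ) • c.D₂.ch.χ) fun r => ∑ r', P.c r r' • ℓs r'

/-- The links for the first chart. -/
abbrev φ₁ (P : PD Λ R R' J J' I) : Option R ⊕ I → JP J J' R := Sum.elim lk fun i => y2 (P.s i)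

theorem φ₁_inj (hP : P.Ok F F') : Injective (φ₁ P) := by
  rintro (o | i) (o' | i') e
  · exact congrArg _ (lk_inj e)
  · cases e
  · cases e
  · exact congrArg _ (hP.s_inj (Sum.inr.inj (Sum.inl.inj e)))

theorem n_sup : ∀ j ∉ range (φ₁ P),
    (Sum.elim 0 (Sum.elim (fun o => o.elim 1 0) 0) : JP J J' R → ℤ) j = 0
  | .inl _, _ => rfl
  | .inr (.inl o), e => (e ⟨.inl o, rfl⟩).elim
  | .inr (.inr _), _ => rfl

theorem wd_lk (h : c.Ok P F F') (o : Option R) :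
    c.ch.wd (lk o) = Sum.elim (o.elim c.D₁.ch.χ ℓs) (-β c P o) := h.wd o

theorem sum_lk (h : c.Ok P F F') (a : Option R → ℤ) : ∑ o, a o • c.ch.wd (lk o) =
    Sum.elim (∑ o, a o • o.elim c.D₁.ch.χ ℓs) (-∑ o, a o • β c P o) := by
  funext i
  cases i <;> simp [wd_lk h, -Fintype.sum_option]

end JL

open JL

namespace Pc

theorem wd_y1 (j : J) : c.ch.wd (y1 j) = Sum.elim (c.D₁.ch.wd j) (0 : Option R' → ℤ) :=
  (c.D₁.psh_wd j).symm.trans (psh_inl _)

theorem wd_y2 (j : J') : c.ch.wd (y2 j) = Sum.elim (0 : Option R → ℤ) (c.D₂.ch.wd j) :=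
  (c.D₂.psh_wd j).symm.trans (psh_inr _)

namespace Ok

variable (h : c.Ok P F F')
include h

theorem wt (j : JP J J' R) (i : OP R R') :
    c.ch.wd j i = ∑ r, (P.W F F').w j r * c.ℓ r i := by
  rcases j with (j | j) | o | b
  · have e : ∀ r, ∑ x, P.c₁ r x * c.ℓ x i = Sum.elim (ℓs r) (0 : Option R' → ℤ) i := fun r => by
      cases i <;> simp [PD.c₁, ℓ, h.wd, Pi.single_apply]
    have e' := sum_dot (F.w j) (fun r x => P.c₁ r x) fun x => c.ℓ x i
    simp only [PD.W, Sum.elim_inl, Finset.sum_apply, Pi.smul_apply, smul_eq_mul, e', e]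
    rw [wd_y1]
    cases i <;> simp [h.lat₁.wd]
  · rw [wd_y2, PD.w_y2]
    cases i <;> simp [ℓ, h.lat₂.wd]
  · simp [PD.W, ℓ, Pi.single_apply]
  · simp [PD.W, h.wz]

theorem lat : c.ch.Lat (P.W F F') c.ℓ := by
  have e : ∀ a : Option (RP R R') → ℤ, ∑ o, a o • o.elim c.ch.χ c.ℓ =
      Sum.elim (∑ o, a (some (.inl o)) • o.elim c.D₁.ch.χ ℓs)
        (∑ o : Option R', a (o.map .inr) • o.elim c.D₂.ch.χ ℓs -
          ∑ o, a (some (.inl o)) • β c P o) := fun a => by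
    rw [Fintype.sum_option, Fintype.sum_sum_type, Fintype.sum_option (α := R')]
    simp only [Option.elim_some, Option.elim_none, ℓ, Sum.elim_inl, Sum.elim_inr, sum_lk h, h.χ]
    funext i
    cases i <;> simp [-Fintype.sum_option]
    ring
  refine ⟨h.wt, dual (fun v => ?_) fun a k => ?_⟩
  · obtain ⟨a, d⟩ := h.lat₁.exists_coef (v ∘ .inl)
    obtain ⟨a', d'⟩ := h.lat₂.exists_coef (v ∘ .inr + ∑ o, a o • β c P o)
    refine ⟨fun o => o.elim (a' none) (Sum.elim a (a' ∘ some)), ?_⟩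
    have : ∀ o : Option R', (o.map .inr).elim (a' none) (Sum.elim a (a' ∘ some)) = a' o :=
      Option.rec rfl fun _ => rfl
    simp only [e, this, Option.elim_some, Sum.elim_inl, ← d, ← d', add_sub_cancel_right,
      Sum.elim_comp_inl_inr]
  · rw [e] at k
    have k1 : ∀ o, a (some (.inl o)) = 0 := h.lat₁.coef_eq_zero fun i => by
      simpa [-Fintype.sum_option] using congrFun k (.inl i)
    have k2 : ∀ o : Option R', a (o.map .inr) = 0 := h.lat₂.coef_eq_zero fun i => by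
      simpa [-Fintype.sum_option, k1] using congrFun k (.inr i)
    rintro (_ | o | r)
    exacts [k2 none, k1 o, k2 (some r)]

theorem deg (j : JP J J' R) : ∑ i, (∑ r, P.χ F F' j r * c.ℓ r i) * c.ch.m i =
    ∑ i, c.ch.wd j i * c.ch.m i := by
  let φ := Fintype.linearCombination ℤ fun r => ∑ i, c.ℓ r i * c.ch.m i
  have e : ∀ v, ∑ i, (∑ r, v r * c.ℓ r i) * c.ch.m i = φ v := fun v => sum_dot _ _ _
  have e' : ∀ j, φ ((P.W F F').w j) = ∑ i, c.ch.wd j i * c.ch.m i := fun j => by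
    simp only [← e, h.wt]
  simp only [e, PD.χ, PD.wm, map_add, map_sum, map_smul, e', h.m₁, h.m₂, smul_zero,
    Finset.sum_const_zero, add_zero]

theorem cmb₂ (a : Option R' → ℤ) {n : JP J J' R → ℤ} (hn : ∀ j ∉ range lk, n j = 0) (z : ℤ) :
    c.D₂.cmb a n z = Sum.elim (∑ o, n (lk o) • o.elim c.D₁.ch.χ ℓs)
      (a - ∑ o, n (lk o) • β c P o + z • c.D₂.ch.χ) := by
  rw [Res.cmb, JL.sum_sup lk_inj hn, psh_inr, h.χ, sum_lk h]
  funext i
  cases i <;> simp [sub_eq_add_neg, -Fintype.sum_option]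

/-- The links for the second chart. -/
@[reducible] def L₂ : c.D₂.Lnk where
  r := 1
  n := 0
  I := range lk
  k_eq := (one_mul _).symm
  n_sup _ _ := rfl
  disj _ := by simp
  rel := by
    rw [h.cmb₂ _ (n := 0) fun _ _ => rfl]
    funext i
    cases i <;> simp
  surj v := by
    obtain ⟨a, e⟩ := h.lat₁.exists_coef (v ∘ .inl)
    obtain ⟨n, d, d'⟩ := exists_sup (lk_inj (J := J) (J' := J')) a
    refine ⟨v ∘ .inr + ∑ o, a o • β c P o, n, 0, d, ?_⟩
    simp only [h.cmb₂ _ d, d', ← e, add_sub_cancel_right, zero_smul, add_zero,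
      Sum.elim_comp_inl_inr]
  ker a n z hn e := by
    rw [h.cmb₂ _ hn] at e
    have k : ∀ o, n (lk o) = 0 := h.lat₁.coef_eq_zero fun i => by
      simpa [-Fintype.sum_option] using congrFun e (.inl i)
    refine ⟨z, funext fun i => ?_, ext_sup hn (by simp) (by simpa using k), by simp⟩
    simpa [k, add_eq_zero_iff_eq_neg] using congrFun e (.inr i)

theorem li : LinearIndependent ℤ fun o : Option (RP R R') => o.elim c.ch.χ c.ℓ :=
  Fintype.linearIndependent_iff.2 fun g a => h.lat.coef_eq_zero fun i => by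
    simpa [-Fintype.sum_option] using congrFun a i

theorem wd_eq {j : J'} {v : I → ℤ} (e : F'.w j = ∑ i, v i • F'.w (P.s i)) :
    c.ch.wd (y2 j) = ∑ i, v i • c.ch.wd (y2 (P.s i)) := by
  funext i
  cases i <;> simp [wd_y2, h.lat₂.wd, e, Finset.sum_mul, Finset.mul_sum, mul_assoc]
  exact Finset.sum_comm

variable (hP : P.Ok F F')
include hP

theorem cmb₁ (a : Option R → ℤ) {n : JP J J' R → ℤ} (hn : ∀ j ∉ range (φ₁ P), n j = 0) (z : ℤ) :
    c.D₁.cmb a n z = Sum.elim (a + ∑ o, n (lk o) • o.elim c.D₁.ch.χ ℓs)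
      (∑ o : Option R', o.elim (z - n (lk none) * c.t) (∑ i, n (y2 (P.s i)) • F'.w (P.s i) -
        ∑ r, n (lk (some r)) • P.c r) • o.elim c.D₂.ch.χ ℓs) := by
  rw [Res.cmb, JL.sum_sup (φ₁_inj hP) hn, psh_inl, h.χ, Fintype.sum_sum_type]
  simp only [Sum.elim_inl, Sum.elim_inr, sum_lk h, wd_y2]
  funext i
  rcases i with i | i
  · simp [-Fintype.sum_option]
  · have a := sum_dot (fun r => n (lk (some r))) P.c fun r => ℓs r i
    have a' := sum_dot (fun j => n (y2 (P.s j))) (fun j => F'.w (P.s j)) fun r => ℓs r i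
    simp [β, h.lat₂.wd, _root_.sub_mul, Finset.sum_sub_distrib, a, a']
    ring

/-- The links for the first chart. -/
@[reducible] def L₁ : c.D₁.Lnk where
  r := c.t
  n := Sum.elim 0 (Sum.elim (fun o => o.elim 1 0) 0)
  I := range (φ₁ P)
  k_eq := rfl
  n_sup := n_sup
  disj _ := by simp
  rel := by
    rw [h.cmb₁ hP _ n_sup]
    funext i
    cases i <;> simp
  surj v := by
    obtain ⟨a, e⟩ := h.lat₂.exists_coef (v ∘ .inr)
    obtain ⟨n, d, d'⟩ := exists_sup (φ₁_inj hP)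
      (Sum.elim (fun o => o.elim 0 (-P.vM (a ∘ some))) (P.vn (a ∘ some)))
    have d1 : ∀ i, n (y2 (P.s i)) = _ := fun i => d' (.inr i)
    have d2 : ∀ r, n (lk (some r)) = -P.vM (a ∘ some) r := fun r => d' (.inl (some r))
    have d3 : n (lk none) = 0 := d' (.inl none)
    refine ⟨v ∘ .inl - ∑ o, n (lk o) • o.elim c.D₁.ch.χ ℓs, n, a none, d, ?_⟩
    have : ∀ o : Option R', o.elim (a none) (a ∘ some) = a o := Option.rec rfl fun _ => rfl
    simp only [h.cmb₁ hP _ d, d1, d2, d3, Sum.elim_inr, neg_smul, Finset.sum_neg_distrib,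
      sub_neg_eq_add, add_comm (∑ i, P.vn _ i • _), ← hP.dec, zero_mul, sub_zero, this, ← e,
      sub_add_cancel, Sum.elim_comp_inl_inr]
  ker a n z hn e := by
    rw [h.cmb₁ hP _ hn] at e
    have k := h.lat₂.coef_eq_zero (a := fun o => o.elim (z - n (lk none) * c.t)
      (∑ i, n (y2 (P.s i)) • F'.w (P.s i) - ∑ r, n (lk (some r)) • P.c r)) fun i => by
        simpa only [Sum.elim_inr, Finset.sum_apply, Pi.smul_apply, smul_eq_mul, Pi.zero_apply] using
          congrFun e (.inr i)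
    have k0 := sub_eq_zero.1 (funext fun r => k (some r) :
      ∑ i, n (y2 (P.s i)) • F'.w (P.s i) - ∑ r, n (lk (some r)) • P.c r = 0)
    have k1 : ∀ r, n (lk (some r)) = 0 := fun r => by
      simpa [-zsmul_eq_mul, PD.vM_sum, hP.vM_s, hP.cM, Pi.single_apply] using
        congrFun (congrArg P.vM k0.symm) r
    have k2 : ∀ i, n (y2 (P.s i)) = 0 := fun i => by
      simpa [-zsmul_eq_mul, PD.vn_sum, hP.vn_s, hP.vn_c, Pi.single_apply] using
        congrFun (congrArg P.vn k0) i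
    refine ⟨n (lk none), funext fun i => ?_, ext_sup hn (fun j d => by
      rw [Pi.smul_apply, n_sup j d, smul_zero]) ?_, sub_eq_zero.1 (k none)⟩
    · simpa [k1, add_eq_zero_iff_eq_neg] using congrFun e (.inl i)
    · rintro ((_ | r) | i) <;> simp [k1, k2]

theorem li₁ : LinearIndependent ℤ
    fun o : Option (Option R ⊕ I) => o.elim c.ch.χ fun i => c.ch.wd (φ₁ P i) := by
  refine Fintype.linearIndependent_iff.2 fun g a => ?_
  obtain ⟨n, d, d'⟩ := exists_sup (φ₁_inj hP) (g ∘ some)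
  obtain ⟨z, k1, k2, k3⟩ := (h.L₁ hP).ker 0 n (g none) d (by
    rw [Res.cmb, JL.sum_sup (φ₁_inj hP) d, psh_inl, ← a, Fintype.sum_option, add_comm]
    simp [d'])
  obtain rfl : z = 0 := by_contra fun k => h.num₁.chi (Finset.sum_eq_zero fun i _ => by
    simpa [k] using congrFun k1 i)
  rintro (_ | i)
  · simpa using k3
  · exact (d' i).symm.trans (by simp [k2])

variable (hB : F.Sm b)
include hB

/-- **the projection to the first chart** -/
theorem exists_pj₁ {e : K → Option R → ℕ} {K₀ : RD R} (hs : c.D₁.ch.Std F e K₀ ℓs) :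
    ∃ L : c.D₁.Lnk, (∀ j, L.n j ≠ 0 → j = lk none) ∧
      L.Pj (F.reE univ F.U) (P.W F F') P.c₁ (P.E₁ F') (P.Z₁ F') (e₁ e) K₀ ℓs c.ℓ b := by
  have z1 : ∀ o, lk o ∉ P.Z₁ (J := J) F' := by simp [PD.Z₁]
  have z2 : ∀ j, y2 j ∉ P.Z₁ (J := J) F' ↔ j ∉ (P.f2 F').mov ∧ j ∉ F'.zer := by
    simp [PD.Z₁]
  have z3 : ∀ i, φ₁ P i ∉ P.Z₁ (J := J) F' :=
    Sum.rec z1 fun i => (z2 _).2 ⟨fun a => a.2 ⟨⟨i, rfl⟩, a.1⟩, hP.nz i⟩
  have z4 : ∀ {p : JP J J' R → Prop}, (∀ o, p (lk o)) →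
      (∀ j ∉ (P.f2 F').mov, j ∉ F'.zer → p (y2 j)) → ∀ j ∉ range y1, j ∉ P.Z₁ F' → p j := by
    rintro p a d ((j | j) | o | o) f g
    exacts [(f ⟨j, rfl⟩).elim, d j ((z2 j).1 g).1 ((z2 j).1 g).2, a o, (g (.inr ⟨o, rfl⟩)).elim]
  have n0 : ∀ j, (h.L₁ hP).n j ≠ 0 → j = lk none := by
    rintro (j | (_ | r) | o) a
    exacts [(a rfl).elim, rfl, (a rfl).elim, (a rfl).elim]
  refine ⟨h.L₁ hP, n0, hP.up₁,
    ⟨hP.inv_e1, hP.reg_e1 hs.reg, ⟨hs.fits.wt, hs.fits.le, hs.fits.ne⟩, hs.cuts, hs.wt⟩,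
    fun _ => sup_inl fun _ => rfl, h.wt, h.num₁, h.num, hB, forall_mem_range.2 z3,
    fun l y y' a a' d j f g k => ?_, fun i => Finset.sum_eq_zero fun j _ => ?_, Option R ⊕ I,
    inferInstance, inferInstance, φ₁ P, Sum.elim (Sum.elim 0 fun j => Sum.elim 0 (P.vn (F'.w j)))
      (Sum.elim (fun o => Pi.single (.inl o) 1) 0), Sum.elim (Sum.elim 1 (P.ψ F')) 1,
    ⟨disjoint_right.2 (forall_mem_range.2 hP.up₁.disj), fun i => ⟨?_, z3 i, ?_⟩, h.li₁ hP,
      fun _ _ _ => nofun, ?_, z4 (fun o => ?_) fun j f g => ?_, fun _ _ _ => nofun,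
      fun l _ y _ a => (hP.mem_E' fun j i d => a (y2 j) (.inr i) d).trans
        ⟨fun d => z4 (fun o => ?_) fun j f g => ?_, fun d j f g => ?_⟩⟩, ?_⟩
  · have d' := fun i => d _ ⟨i, rfl⟩
    have k' := fun i => k _ ⟨.inr i, rfl⟩
    refine z4 (p := fun j => y j = y' j) (fun o => d' (.inl o)) (fun j f g => ?_) j f g
    refine ((hP.mem_E' fun _ i _ => k' i).1 a j f g).trans (Eq.trans ?_
      ((hP.mem_E' fun _ i _ => (d' (.inr i)).symm.trans_ne (k' i)).1 a' j f g).symm)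
    exact congrArg _ (Finset.prod_congr rfl fun i _ => congrArg (· ^ _) (d' (.inr i)))
  · by_cases a : (h.L₁ hP).n j = 0
    · rw [a, zero_mul]
    · exact n0 j a ▸ mul_zero _
  · cases i <;> simp
  · rcases i with o | i
    · exact ⟨rfl, rfl⟩
    · refine ⟨funext fun o => ?_, hP.ψ_s i⟩
      cases o <;> simp [hP.vn_s, Pi.single_apply]
  · rintro ((j | j) | j) l a
    exacts [⟨analyticAt_const, one_ne_zero⟩, hP.ψ_an j a, ⟨analyticAt_const, one_ne_zero⟩]
  · simp [Pi.single_apply, -Fintype.sum_option]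
  · have : P.vM (F'.w j) = 0 := by
      by_cases a : j ∈ F'.mov
      · obtain ⟨i, rfl⟩ := (not_not.1 fun d => f ⟨a, d⟩).1
        exact hP.vM_s i
      · exact (hP.base a g).2.1
    rw [h.wd_eq (v := P.vn (F'.w j)) ((hP.dec _).trans (by simp [this]))]
    simp
  · simp [Pi.single_apply, -Fintype.prod_option]
  · simpa using d j f g
  · simpa using d (y2 j) (by simp) ((z2 j).2 ⟨f, g⟩)
  · simp only [Fintype.card_sum, Fintype.card_option, hP.card]
    omega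

/-- **the projection to the second chart** -/
theorem exists_pj₂ {e : K' → Option R' → ℕ} {K₀ : RD R'} (hs : c.D₂.ch.Std F' e K₀ ℓs) :
    ∃ L : c.D₂.Lnk, L.n = 0 ∧ L.Pj (P.f2 F') (P.W F F') c₂ univ Z₂ (e₂ e)
      (K₀.sub (.free F'.w (P.T F'))) ℓs c.ℓ b := by
  have z1 : ∀ o, lk o ∉ (Z₂ : Set (JP J J' R)) := by simp [Z₂]
  have z4 : ∀ {p : JP J J' R → Prop}, (∀ o, p (lk o)) → ∀ j ∉ range y2, j ∉ Z₂ → p j := by
    rintro p a ((j | j) | o | o) f g
    exacts [(g (.inl ⟨j, rfl⟩)).elim, (f ⟨j, rfl⟩).elim, a o, (g (.inr ⟨o, rfl⟩)).elim]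
  have s : c.D₂.ch.Std (P.e2 F') e K₀ ℓs :=
    ⟨hP.inv_e2, hP.reg_e2 hs.reg, ⟨hs.fits.wt, hs.fits.le, hs.fits.ne⟩, hs.cuts, hs.wt⟩
  have hB' : F'.Sm b := by
    unfold Fam.Sm
    rw [hP.B]
    exact hB
  refine ⟨h.L₂, rfl, hP.up₂, s.bas hP.tor_e2, fun _ => sup_inr fun _ => rfl, h.wt, h.num₂, h.num,
    hB', forall_mem_range.2 z1, fun l y y' _ _ d j f g _ =>
      z4 (p := fun j => y j = y' j) (fun o => d _ ⟨o, rfl⟩) j f g,
    fun i => Finset.sum_eq_zero fun j _ => zero_mul _, Option R, inferInstance, inferInstance, lk,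
    Sum.elim 0 (Sum.elim (fun o => Pi.single o 1) 0), 1,
    ⟨disjoint_right.2 (forall_mem_range.2 hP.up₂.disj), fun i => ⟨by simp, z1 i, rfl, rfl⟩, ?_,
      fun _ _ _ => nofun, fun _ _ _ => ⟨analyticAt_const, one_ne_zero⟩, z4 fun o => ?_,
      fun _ _ _ => nofun, fun l _ y _ _ => iff_of_true trivial (z4 fun o => ?_)⟩, ?_⟩
  · exact (congrArg (fun v : Option (Option R) → OP R R' → ℤ => LinearIndependent ℤ v)
      (funext fun o => by cases o <;> rfl)).mp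
      (h.li.comp (Option.map .inl) (Option.map_injective Sum.inl_injective))
  · simp [Pi.single_apply, -Fintype.sum_option]
  · simp [Pi.single_apply, -Fintype.prod_option]
  · rw [Fintype.card_sum, add_comm]

end Ok

end Pc

namespace JL

variable (c₁ : Ch (Option R) J) (c₂ : Ch (Option R') J') (t : ℕ)
  (w : Option R → OP R R' → ℤ)

/-- The degrees of the Hilbert points. -/
def ja : Option (JP J J' R) → OP R R' → ℕ
  | none => Sum.elim 4 (c₂.a none)
  | some (.inl (.inl j)) => Sum.elim (c₁.a (some j)) 0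
  | some (.inl (.inr j)) => Sum.elim 0 (c₂.a (some j))
  | some (.inr (.inl o)) => fun i => (w o i).toNat + 1
  | some (.inr (.inr false)) => Sum.elim (c₁.a none) 0
  | some (.inr (.inr true)) => Sum.elim 0 (c₂.a none)

/-- The joint chart. -/
@[reducible] def jc : Pc J J' R R' where
  ch :=
    { M := Sum.elim c₁.M c₂.M
      o := .inr none
      g := c₂.g
      m := Sum.elim c₁.m c₂.m
      a := ja c₁ c₂ w
      h := fun l => (∑ i, ja c₁ c₂ w l i * Sum.elim c₁.m c₂.m i + 1 - c₂.g).toNat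
      k := c₂.k
      bω := Sum.elim 4 c₂.bω
      b := Sum.elim (Sum.elim (fun j => Sum.elim (c₁.b j) 0) fun j => Sum.elim 0 (c₂.b j))
        (Sum.elim (fun o i => (-w o i).toNat + 1) fun b => ja c₁ c₂ w (some (zf b))) }
  t := t
  bω₁ := c₁.bω
  bω₂ := c₂.bω
  a1 _ _ := rfl
  b1 _ _ := rfl
  a2 _ _ := rfl
  b2 _ _ := rfl
  z1 _ := rfl
  z2 _ := rfl

variable {c₁ c₂ t w}

theorem jc₁ (ho : c₁.o = none) (hg : c₁.g = c₂.g) (hk : c₁.k = t * c₂.k)
    (hh : ∀ l, c₁.h l = (∑ i, c₁.a l i * c₁.m i + 1 - c₁.g).toNat) : (jc c₁ c₂ t w).D₁.ch = c₁ :=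
  ch_ext rfl ho.symm hg.symm rfl (funext fun l => by cases l <;> rfl)
    (funext fun l => by cases l <;> simp [hh, hg, ja]) hk.symm rfl rfl

theorem jc₂ (ho : c₂.o = none) (hh : ∀ l, c₂.h l = (∑ i, c₂.a l i * c₂.m i + 1 - c₂.g).toNat) :
    (jc c₁ c₂ t w).D₂.ch = c₂ :=
  ch_ext rfl ho.symm rfl rfl (funext fun l => by cases l <;> rfl)
    (funext fun l => by cases l <;> simp [hh, ja]) rfl rfl rfl

theorem jc_wd (o : Option R) : (jc c₁ c₂ t w).ch.wd (lk o) = w o := funext fun i => by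
  simp only [Ch.wd, ja, Sum.elim_inl, Sum.elim_inr]
  omega

theorem jc_χ (ho : c₂.o = none) : (jc c₁ c₂ t w).ch.χ = Sum.elim (0 : Option R → ℤ) c₂.χ :=
  funext fun i => by cases i <;> simp [Ch.χ, ho, ja]

theorem jc_num (h₁ : Num₀ c₁) (h₂ : Num₀ c₂) (ho : c₂.o = none) (hg : c₁.g = c₂.g)
    (h4 : ∀ i, 4 ≤ c₂.a none i) : Num₀ (jc c₁ c₂ t w).ch := by
  refine ⟨?_, ⟨none, Sum.rec (fun _ => le_rfl) h4⟩, h₂.k_ne, (ho ▸ h₂.m_ne : c₂.m none ≠ 1),
    Sum.rec (fun i => hg ▸ h₁.M_eq i) h₂.M_eq, by rw [jc_χ ho]; simpa using h₂.chi⟩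
  rintro (_ | (j | j) | o | _ | _) e
  exacts [Nat.succ_ne_zero _ (congrFun e (.inl none)), h₁.a_ne (some j) (congrArg (· ∘ Sum.inl) e),
    h₂.a_ne (some j) (congrArg (· ∘ Sum.inr) e), Nat.succ_ne_zero _ (congrFun e (.inl none)),
    h₁.a_ne none (congrArg (· ∘ Sum.inl) e), h₂.a_ne none (congrArg (· ∘ Sum.inr) e)]

end JL

namespace Pc

variable (ν κ) in
/-- **the joint chart exists** -/
theorem exists_st (hP : P.Ok F F') {t k D D' : ℕ} (h1 : F.Big (t * k)) (h2 : F'.Big k)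
    (h3 : F.BigD (t * k) D) (h4 : F'.BigD k D') (g : ℤ) (d : R → ℤ) :
    ∃ c : Pc J J' R R', c.t = t ∧ c.St ν κ P F F' k D D' g d := by
  let c₁ := F.sch ν κ (t * k) D g d
  let c₂ := F'.sch ν κ k D' g (P.dM d)
  let w : Option R → OP R R' → ℤ := fun o => Sum.elim (o.elim c₁.χ ℓs)
    (-o.elim ((t : ℤ) • c₂.χ) fun r => ∑ r', P.c r r' • ℓs r')
  have e₁ : (jc c₁ c₂ t w).D₁.ch = c₁ := jc₁ rfl rfl rfl fun _ => rfl
  have e₂ : (jc c₁ c₂ t w).D₂.ch = c₂ := jc₂ rfl fun _ => rfl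
  have n₁ : Num₀ c₁ := Fam.num₀ h1.two_le h3 _ _ _
  have n₂ : Num₀ c₂ := Fam.num₀ h2.two_le h4 _ _ _
  have m : ∀ v : R' → ℤ, ∑ i, (∑ r, v r * ℓs r i) * c₂.m i = ∑ r, v r * P.dM d r := fun v => by
    simp only [sum_dot, c₂, ℓs_m]
  refine ⟨jc c₁ c₂ t w, rfl, ⟨rfl, jc_num n₁ n₂ rfl rfl fun _ => h4.le, e₁.symm ▸ n₁, e₂.symm ▸ n₂,
    e₁.symm ▸ Fam.chart_lat h3, e₂.symm ▸ Fam.chart_lat h4, e₂.symm ▸ jc_χ rfl, fun o => ?_,
    fun _ => funext fun _ => sub_self _, fun r => ?_, fun a => ?_⟩, e₁, e₂, fun _ => rfl, h1, h2,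
    h3, h4⟩
  · rw [jc_wd, e₁, e₂]
  · rw [jc_wd]
    simp only [w, Fintype.sum_sum_type, Sum.elim_inl, Sum.elim_inr, Option.elim_some,
      Pi.neg_apply, Finset.sum_apply, Pi.smul_apply, smul_eq_mul, neg_mul, Finset.sum_neg_distrib,
      m, hP.c_dM, c₁, ℓs_m, add_neg_cancel]
  · rw [wd_y2, e₂]
    simp only [Fintype.sum_sum_type, Sum.elim_inl, Sum.elim_inr, Pi.zero_apply, zero_mul,
      Finset.sum_const_zero, zero_add]
    exact (Finset.sum_congr rfl fun i _ => congrArg (· * _) (Fam.chart_wd' _ i)).trans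
      ((m _).trans (hP.s_dM d a))

end Pc

end Vale.Agent.P269
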