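import Vale.Agent.P287Q.G.Vir.RD
import Vale.Agent.P287Q.G.Map.UpD
import Vale.Agent.P287Q.G.Map.DetV

set_option linter.unusedSectionVars false

/-!
# Additional base fields and additional determined fields
-/

namespace Vale.Agent.P269

open P291Z Set Function Topology Filter Base Holo MvPolynomial

variable {S Λ R R' J J' K ι ν κ : Type} [Fintype S] [Fintype Λ] [Fintype R] [Fintype R']
  [Fintype J] [Fintype J'] [Fintype K] [Fintype ι] [DecidableEq ι] [Fintype ν] [Fintype κ]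

namespace UpP

theorem sum_map (φ : J → J') (α : J →₀ ℕ) (b : J' → ℤ) :
    ∑ j, α.mapDomain φ j * b j = ∑ j, α j * b (φ j) := by
  rw [← Finsupp.sum_fintype _ (fun j n => (n : ℕ) * b j) (by simp),
    Finsupp.sum_mapDomain_index (by simp) (by simp [add_mul]), Finsupp.sum_fintype _ _ (by simp)]

theorem mem_sup {p : MvPolynomial J (MvPolynomial Λ ℂ)} {α β} (h : β ∈ (coeff α p).support) :
    α ∈ p.support := mem_support_iff.2 (support_nonempty.1 ⟨β, h⟩)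

theorem mem_rename {φ : J → J'} {p : MvPolynomial J (MvPolynomial Λ ℂ)} {α' β}
    (h : β ∈ (coeff α' (rename φ p)).support) :
    ∃ α, α.mapDomain φ = α' ∧ β ∈ (coeff α p).support := by
  classical
  rw [p.as_sum, map_sum, coeff_sum] at h
  obtain ⟨α, -, b⟩ := Finset.mem_biUnion.1 (support_sum h)
  rw [rename_monomial, coeff_monomial] at b
  split_ifs at b with c
  exacts [⟨α, c, b⟩, by simp at b]

variable {T : Set J} {f : MvPolynomial J (MvPolynomial Λ ℂ)}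
  (hf : ∀ α ∈ f.support, ∀ i ∈ T, α i = 0) (l : Λ → ℂ) {y y' v v' : J → ℂ}
include hf

theorem evz_congr (e : ∀ i ∉ T, y i = y' i) : evz (l, y) f = evz (l, y') f := by
  rw [evz, evz, eval_eq', eval_eq']
  exact Finset.sum_congr rfl fun β hβ =>
    congrArg _ (prod_pow_congr (hf β (support_map_subset _ _ hβ)) e)

theorem der_congr (e : ∀ i ∉ T, y i = y' i) (e' : ∀ i ∉ T, v i = v' i) :
    ∑ j, eval y (pderiv j (MvPolynomial.map (eval l) f)) * v j =
      ∑ j, eval y' (pderiv j (MvPolynomial.map (eval l) f)) * v' j :=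
  (Vir.hasDerivAt_eval _ y v).unique ((Vir.hasDerivAt_eval _ y' v').congr_of_eventuallyEq
    (.of_forall fun _ => evz_congr hf l fun i hi => by rw [e i hi, e' i hi]))

end UpP

open UpP

/-- monomials with prescribed weights -/
theorem Wt.hom_monomial (W : Wt S Λ R J) (α : J →₀ ℕ) :
    W.Hom (monomial α 1) (fun i => ∑ j, α j * W.w j i) fun i => ∑ j, α j * W.wt j i := by
  classical
  refine ⟨fun β hβ i => ?_, fun β hβ γ hγ i => ?_⟩ <;>
    obtain rfl := Finset.mem_singleton.1 (support_monomial_subset hβ)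
  · rfl
  · rw [coeff_monomial, if_pos rfl] at hγ
    obtain rfl := Finset.mem_singleton.1 (support_monomial_subset (s := 0) (a := 1) hγ)
    simp

theorem Wt.Hom.mul {W : Wt S Λ R J} {p q : MvPolynomial J (MvPolynomial Λ ℂ)} {χ χ' : R → ℤ}
    {ψ ψ' : S → ℤ} (hp : W.Hom p χ ψ) (hq : W.Hom q χ' ψ') : W.Hom (p * q) (χ + χ') (ψ + ψ') := by
  classical
  refine ⟨fun α hα i => ?_, fun α _ β hβ i => ?_⟩
  · obtain ⟨a, ha, b, hb, rfl⟩ := Finset.mem_add.1 (support_mul p q hα)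
    simp only [Finsupp.add_apply, Nat.cast_add, add_mul, Finset.sum_add_distrib, hp.hom a ha,
      hq.hom b hb, Pi.add_apply]
  · rw [coeff_mul] at hβ
    obtain ⟨x, hx, c⟩ := Finset.mem_biUnion.1 (support_sum hβ)
    obtain ⟨a, ha, b, hb, rfl⟩ := Finset.mem_add.1 (support_mul _ _ c)
    obtain rfl := Finset.HasAntidiagonal.mem_antidiagonal.1 hx
    simp only [Finsupp.add_apply, Nat.cast_add, add_mul, Finset.sum_add_distrib, Pi.add_apply]
    linear_combination hp.homS _ (mem_sup ha) a ha i + hq.homS _ (mem_sup hb) b hb i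

theorem Wt.Hom.sub {W : Wt S Λ R J} {p q : MvPolynomial J (MvPolynomial Λ ℂ)} {χ : R → ℤ}
    {ψ : S → ℤ} (hp : W.Hom p χ ψ) (hq : W.Hom q χ ψ) : W.Hom (p - q) χ ψ := by
  classical
  refine ⟨fun α hα => (Finset.mem_union.1 (support_sub _ p q hα)).elim (hp.hom α) (hq.hom α),
    fun α _ β hβ => ?_⟩
  rw [coeff_sub] at hβ
  exact (Finset.mem_union.1 (support_sub _ _ _ hβ)).elim (fun a => hp.homS α (mem_sup a) β a)
    fun a => hq.homS α (mem_sup a) β a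

theorem Wt.Hom.rename {W : Wt S Λ R J} {W' : Wt S Λ R' J'} {φ : J → J'} {c : R → R' → ℤ}
    (hw : ∀ j, W'.w (φ j) = ∑ r, W.w j r • c r) (ht : ∀ j, W'.wt (φ j) = W.wt j)
    (hl : W'.wl = W.wl) {p : MvPolynomial J (MvPolynomial Λ ℂ)} {χ : R → ℤ} {ψ : S → ℤ}
    (hp : W.Hom p χ ψ) : W'.Hom (rename φ p) (∑ r, χ r • c r) ψ := by
  refine ⟨fun α hα i => ?_, fun α _ β hβ i => ?_⟩
  · obtain ⟨β, hβ⟩ := support_nonempty.2 (mem_support_iff.1 hα)
    obtain ⟨α, rfl, a⟩ := mem_rename hβ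
    simp only [sum_map, hw, Finset.sum_apply, Pi.smul_apply, smul_eq_mul, ← hp.hom α (mem_sup a),
      Finset.mul_sum, Finset.sum_mul, mul_assoc]
    exact Finset.sum_comm
  · obtain ⟨α, rfl, a⟩ := mem_rename hβ
    simp only [sum_map, ht, hl, hp.homS α (mem_sup a) β a]

theorem Wt.Hom.evz {W : Wt S Λ R J} {p : MvPolynomial J (MvPolynomial Λ ℂ)} {χ : R → ℤ}
    {ψ : S → ℤ} (hp : W.Hom p χ ψ) {t : (S → ℂ) × (R → ℂ)} (ht : IsUnit t) (z) :
    evz (W.actT t z) p = (∏ i, t.1 i ^ ψ i) * (∏ i, t.2 i ^ χ i) * evz z p := by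
  have a := isUnit_pi_iff.1 (Prod.isUnit_iff.1 ht).1
  have b := isUnit_pi_iff.1 (Prod.isUnit_iff.1 ht).2
  simp only [P269.evz, eval_map, eval₂_eq', Finset.mul_sum]
  refine Finset.sum_congr rfl fun α hα => ?_
  simp only [eval_eq', Finset.sum_mul, Finset.mul_sum]
  refine Finset.sum_congr rfl fun β hβ => ?_
  simp only [Wt.actT, Wt.actL, mul_pow, Finset.prod_mul_distrib, prod_pow_zpow a, prod_pow_zpow b,
    hp.hom α hα, ← hp.homS α hα β hβ, zpow_add₀ (a _)]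
  ring

theorem evz_rename (φ : J → J') (z : (Λ → ℂ) × (J' → ℂ)) (p : MvPolynomial J (MvPolynomial Λ ℂ)) :
    evz z (rename φ p) = evz (z.1, z.2 ∘ φ) p := by
  rw [evz, map_rename, eval_rename, evz]

namespace Fam

variable {F : Fam S Λ R J K} {K₀ : RD R}

namespace Up

variable {W : Wt S Λ R' J'} {φ : J → J'} {c : R → R' → ℤ} {E₀ : Set ((Λ → ℂ) × (J' → ℂ))}
  {Z₀ : Set J'} {z : (Λ → ℂ) × (J' → ℂ)} (h : F.Up W φ c E₀ Z₀)
include h

theorem actT {t : (S → ℂ) × (R' → ℂ)} (ht : IsUnit t) (z : (Λ → ℂ) × (J' → ℂ)) :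
    IsUnit ((t.1, fun r => ∏ r', t.2 r' ^ c r r') : (S → ℂ) × (R → ℂ)) ∧
      ((W.actT t z).1, (W.actT t z).2 ∘ φ) =
        F.actT (t.1, fun r => ∏ r', t.2 r' ^ c r r') (z.1, z.2 ∘ φ) := by
  have a := isUnit_pi_iff.1 (Prod.isUnit_iff.1 ht).2
  refine ⟨Prod.isUnit_iff.2 ⟨(Prod.isUnit_iff.1 ht).1, isUnit_pi_iff.2 fun _ => prod_zpow_ne a _⟩,
    Prod.ext (funext fun l => ?_) (funext fun j => ?_)⟩
  · simp only [Wt.actT, Wt.actL, h.wl]
  · simp only [Wt.actT, comp_apply, h.wt, h.w, Cv.prod_prod_zpow a, Finset.sum_apply,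
      Pi.smul_apply, smul_eq_mul]

theorem eqn (k : K) : (F.up W φ c E₀ Z₀).eqn z k = F.eqn (z.1, z.2 ∘ φ) k :=
  evz_rename φ z (F.G k)

theorem jac (k : K) (j : J) : (F.up W φ c E₀ Z₀).jac z k (φ j) = F.jac (z.1, z.2 ∘ φ) k j := by
  simp only [Fam.jac, fib, map_rename, pderiv_rename h.inj, eval_rename]

theorem jac_not (k : K) {j : J'} (hj : j ∉ range φ) : (F.up W φ c E₀ Z₀).jac z k j = 0 := by
  classical
  simp only [Fam.jac, fib, map_rename]
  rw [pderiv_eq_zero_of_notMem_vars fun a => let ⟨i, _, e⟩ := mem_vars_rename _ _ a; hj ⟨i, e⟩,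
    map_zero]

theorem sum_jac (k : K) (η : J' → ℂ) : ∑ j, (F.up W φ c E₀ Z₀).jac z k j * η j =
    ∑ j, F.jac (z.1, z.2 ∘ φ) k j * η (φ j) :=
  (Fintype.sum_of_injective φ h.inj _ _ (fun j hj => by rw [h.jac_not k hj, zero_mul])
    fun j => by rw [h.jac]).symm

theorem mem_cone : z ∈ (F.up W φ c E₀ Z₀).cone ↔ (z.1, z.2 ∘ φ) ∈ F.cone ∧ z ∈ E₀ ∧
    (∀ j ∈ Z₀, z.2 j = 0) ∧ ∀ j ∉ range φ, j ∉ Z₀ → z.2 j ≠ 0 := by
  simp only [Fam.mem_cone, h.eqn]
  exact ⟨fun ⟨⟨a, b, c⟩, d, e⟩ => ⟨⟨⟨a, b.2, fun j hj => c _ (.inl ⟨j, hj, rfl⟩)⟩, d.1, e⟩, b.1,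
    fun j hj => c j (.inr hj), d.2⟩, fun ⟨⟨⟨a, b, c⟩, d, e⟩, f, g, i⟩ =>
      ⟨⟨a, ⟨f, b⟩, fun j hj => hj.elim (fun ⟨j, hj, e⟩ => e ▸ c j hj) (g j)⟩, ⟨d, i⟩, e⟩⟩

omit h in
theorem cont : Continuous fun z : (Λ → ℂ) × (J' → ℂ) => (z.1, z.2 ∘ φ) :=
  continuous_fst.prodMk (continuous_pi fun _ => (continuous_apply _).comp continuous_snd)

theorem inv_aux (hF : F.Inv) : (F.aux W φ c E₀ Z₀).Inv :=
  have a := fun k => Wt.Hom.rename h.w h.wt h.wl ⟨hF.hom k, hF.homS k⟩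
  ⟨fun k => (a k).hom, fun k => (a k).homS, (hF.openU.preimage cont).inter (show IsOpen {_z | _} by
      simp only [ofPred_forall]
      exact isOpen_iInter_of_finite fun j => isOpen_iInter_of_finite fun _ =>
        isOpen_iInter_of_finite fun _ => isOpen_ne_fun (by fun_prop) continuous_const),
    fun t ht z hz => ⟨mem_of_eq_of_mem (h.actT ht z).2 (hF.invU _ (h.actT ht z).1 _ hz.1),
      fun j b d => mul_ne_zero (mul_ne_zero
        (prod_zpow_ne (isUnit_pi_iff.1 (Prod.isUnit_iff.1 ht).1) _)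
        (prod_zpow_ne (isUnit_pi_iff.1 (Prod.isUnit_iff.1 ht).2) _)) (hz.2 j b d)⟩,
    h.closed, h.inv, h.base, disjoint_left.2 fun _ b ⟨j, e⟩ => h.disj j (e ▸ b), hF.lcB,
    fun τ b l d => mem_of_eq_of_mem (funext fun _ => by simp only [Wt.actL, h.wl])
      (hF.invB τ b l d)⟩

theorem inv_up (hF : F.Inv) : (F.up W φ c E₀ Z₀).Inv :=
  have a := h.inv_aux hF
  ⟨a.hom, a.homS, a.openU, a.invU, h.closed.inter (hF.closedE.preimage cont),
    fun t ht z hz => ⟨h.inv t ht z hz.1,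
      mem_of_eq_of_mem (h.actT ht z).2 (hF.invE _ (h.actT ht z).1 _ hz.2)⟩,
    fun l y y' e b => ⟨h.base l y y' (fun j hj => e j fun d => hj (image_subset_range _ _ d)) b.1,
      hF.baseE l _ _ (fun _ hj => e _ fun d => hj (h.inj.mem_set_image.1 d)) b.2⟩,
    disjoint_union_left.2 ⟨(disjoint_image_iff h.inj).2 hF.zer_base,
      disjoint_left.2 fun _ b ⟨j, _, e⟩ => h.disj j (e ▸ b)⟩, a.lcB, a.invB⟩

theorem regAt {K₁ : Set K} (hR : F.RegAt K₁ (z.1, z.2 ∘ φ)) : (F.up W φ c E₀ Z₀).RegAt K₁ z := by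
  refine ⟨fun v => ?_, ((cont.tendsto z).eventually hR.cut).mono fun y a b => ?_⟩
  · obtain ⟨η, a, b⟩ := hR.ind v
    refine ⟨extend φ η 0, fun j hj => ?_, by simpa only [h.sum_jac, h.inj.extend_apply] using b⟩
    by_cases e : ∃ i, φ i = j
    · obtain ⟨j, rfl⟩ := e
      exact (h.inj.extend_apply _ _ j).trans (a j fun d => hj ⟨j, d, rfl⟩)
    · exact extend_apply' _ _ _ e
  · simpa only [h.eqn] using a ⟨b.1, b.2.1.2, fun j hj => b.2.2 _ (.inl ⟨j, hj, rfl⟩)⟩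

theorem mem_vert {η : J' → ℂ} : η ∈ (F.up W φ c E₀ Z₀).vert z ↔
    (∀ j ∉ range φ, η j = 0) ∧ η ∘ φ ∈ F.vert (z.1, z.2 ∘ φ) := by
  simp only [Fam.mem_vert, h.sum_jac, ← and_assoc]
  refine and_congr_left' ⟨fun a => ⟨fun j hj => a j fun d => hj (image_subset_range _ _ d),
    fun _ hj => a _ fun d => hj (h.inj.mem_set_image.1 d)⟩, fun a j hj => ?_⟩
  by_cases e : j ∈ range φ
  · obtain ⟨j, rfl⟩ := e
    exact a.2 j fun d => hj ⟨j, d, rfl⟩
  · exact a.1 j e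

theorem reg (hF : F.Inv) (hR : F.Reg K₀) : (F.up W φ c E₀ Z₀).Reg (K₀.up c) :=
  hR.of_proj (h.inv_up hF) c id (LinearMap.funLeft ℂ ℂ φ)
    (fun _ hz => (hR.loc _ (h.mem_cone.1 hz).1).imp fun _ => h.regAt)
    (fun _ hz => (h.mem_cone.1 hz).1) (fun z _ => ⟨fun _ a => (h.mem_vert.1 a).2,
      fun η a η' b e => funext fun j => by
        by_cases d : j ∈ range φ
        · obtain ⟨j, rfl⟩ := d
          exact congrFun e j
        · exact ((h.mem_vert.1 a).1 j d).trans ((h.mem_vert.1 b).1 j d).symm,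
      fun η a => ⟨extend φ η 0, h.mem_vert.2 ⟨fun j d => extend_apply' _ _ _ d,
        (extend_comp h.inj η 0).symm ▸ a⟩, extend_comp h.inj η 0⟩⟩)
    fun t _ y j => by simp [LinearMap.funLeft_apply, h.w]

omit h in
theorem dv (K₀ : RD R) : (F.up W φ c E₀ Z₀).dv (K₀.up c) = F.dv K₀ := rfl

end Up

namespace Add

variable {T : Set J} {a b : J → MvPolynomial J (MvPolynomial Λ ℂ)} {χ : J → R → ℤ} {ψ : J → S → ℤ}
  (h : F.Add T a b χ ψ)
include h

theorem eqn_inl (z : (Λ → ℂ) × (J → ℂ)) (k : K) :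
    (F.add T a b χ ψ).eqn z (.inl k) = F.eqn (z.1, zc T z.2) k :=
  evz_congr (h.free k) z.1 fun _ hi => (zc_not _ hi).symm

omit h in
theorem eqn_inr (z : (Λ → ℂ) × (J → ℂ)) (j : T) :
    (F.add T a b χ ψ).eqn z (.inr j) = evz z (a j) * z.2 j - evz z (b j) := by
  simp [Fam.eqn, fib, evz]

theorem bs_zc {z : (Λ → ℂ) × (J → ℂ)} : z ∈ (F.add T a b χ ψ).bs ↔ (z.1, zc T z.2) ∈ F.bs :=
  and_congr_right' (and_congr ⟨h.E _ _ _ fun _ hj => (zc_not _ hj).symm,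
    h.E _ _ _ fun _ => zc_not _⟩ ⟨fun c j hj => by
      by_cases e : j ∈ T
      exacts [zc_mem _ e, (zc_not _ e).trans (c j ⟨hj, e⟩)],
      fun c j hj => (zc_not _ hj.2).symm.trans (c j hj.1)⟩)

theorem mem_cone {z : (Λ → ℂ) × (J → ℂ)} : z ∈ (F.add T a b χ ψ).cone ↔
    (z.1, zc T z.2) ∈ F.cone ∧ ∀ j ∈ T, evz z (a j) * z.2 j = evz z (b j) := by
  have c : z ∈ (F.add T a b χ ψ).cone ↔ z ∈ (F.add T a b χ ψ).bs ∧ z ∈ F.U ∧
      ∀ k, (F.add T a b χ ψ).eqn z k = 0 :=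
    ⟨fun h => ⟨⟨h.1, h.2.1.2⟩, h.2.1.1, h.2.2⟩, fun h => ⟨h.1.1, ⟨h.2.1, h.1.2⟩, h.2.2⟩⟩
  simp only [c, Fam.mem_cone, Sum.forall, h.eqn_inl, eqn_inr, h.bs_zc, sub_eq_zero, Subtype.forall,
    and_assoc]
  exact and_congr_right' (and_congr_left' ⟨h.U _ _ _ fun _ hj => (zc_not _ hj).symm,
    h.U _ _ _ fun _ => zc_not _⟩)

theorem ne' {z : (Λ → ℂ) × (J → ℂ)} (hz : z ∈ (F.add T a b χ ψ).cone) {j : J} (hj : j ∈ T) :
    evz z (a j) ≠ 0 :=
  (evz_congr (h.fa j hj) z.1 fun _ => zc_not _).symm.trans_ne (h.ne j hj _ (h.mem_cone.1 hz).1)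

/-- the linearised additional equations can be solved for the components in `T` -/
theorem solve {z : (Λ → ℂ) × (J → ℂ)} (hz : z ∈ (F.add T a b χ ψ).cone) (η : J → ℂ) (v : T → ℂ) :
    ∃ η' : J → ℂ, (∀ j ∉ T, η' j = η j) ∧ ∀ j, ∑ i, (F.add T a b χ ψ).jac z (.inr j) i * η' i = v j := by
  classical
  let d := fun (f : MvPolynomial J (MvPolynomial Λ ℂ)) (η : J → ℂ) =>
    ∑ i, eval z.2 (pderiv i (MvPolynomial.map (eval z.1) f)) * η i
  have e : ∀ (j : T) η, ∑ i, (F.add T a b χ ψ).jac z (.inr j) i * η i =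
      evz z (a j) * η j + z.2 j * d (a j) η - d (b j) η := fun j η => by
    simp [d, Fam.jac, fib, evz, Pi.single_apply, add_mul, sub_mul, Finset.sum_add_distrib,
      Finset.mul_sum, mul_assoc, apply_ite]
  let η' := fun j => if hj : j ∈ T then (v ⟨j, hj⟩ - z.2 j * d (a j) η + d (b j) η) / evz z (a j)
    else η j
  have f : ∀ j ∉ T, η' j = η j := fun _ hj => dif_neg hj
  refine ⟨η', f, fun j => ?_⟩
  rw [e, show η' j = _ from dif_pos j.2, mul_div_cancel₀ _ (h.ne' hz j.2),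
    show d (a j) η' = d (a j) η from der_congr (h.fa j j.2) z.1 (fun _ _ => rfl) f,
    show d (b j) η' = d (b j) η from der_congr (h.fh j j.2) z.1 (fun _ _ => rfl) f]
  ring

theorem det : F.Det (F.add T a b χ ψ) T .inl := by
  classical
  refine ⟨rfl, rfl, rfl, rfl, rfl, h.sub, fun _ => rfl, fun _ => rfl, h.free,
    fun j hj => ⟨.inr ⟨j, hj⟩, a j, b j, rfl, h.fa j hj, h.fh j hj, fun _ hz => h.ne' hz hj⟩,
    fun z hz y c d => mem_of_eq_of_mem (congrArg _ (funext fun j => ?_)) (h.mem_cone.1 hz).1,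
    fun z hz => ?_, fun z hz η c d => (h.solve hz η 0).imp fun η' f => ⟨f.1, fun k => ?_⟩⟩
  · by_cases e : j ∈ T
    exacts [(c j e).trans (zc_mem _ e).symm, (d j e).trans (zc_not _ e).symm]
  · have c : ∀ j ∉ T, (if j ∈ T then evz z (b j) / evz z (a j) else z.2 j) = z.2 j :=
      fun _ hj => if_neg hj
    refine ⟨_, c, h.mem_cone.2 ⟨mem_of_eq_of_mem (y := z) (Prod.ext rfl (funext fun j => ?_)) hz,
      fun j hj => ?_⟩⟩
    · by_cases e : j ∈ T
      exacts [(zc_mem _ e).trans (hz.2.1.2.2 j (h.sub e)).symm, (zc_not _ e).trans (c j e)]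
    · rw [evz_congr (h.fa j hj) _ c, evz_congr (h.fh j hj) _ c]
      exact (congrArg _ (if_pos hj)).trans (mul_div_cancel₀ _ (h.ne j hj z hz))
  · exact k.rec (fun k => (der_congr (h.free k) z.1 (fun _ _ => rfl) f.1).trans (d k)) f.2

theorem inv (hF : F.Inv) : (F.add T a b χ ψ).Inv := by
  classical
  have c := fun j : T => (h.ha j j.2).sub (h.hh j j.2)
  refine ⟨Sum.rec hF.hom fun j => (c j).hom, Sum.rec hF.homS fun j => (c j).homS, hF.openU, hF.invU,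
    hF.closedE, hF.invE, fun l y y' e d => hF.baseE l (fun j => if j ∈ T then y' j else y j) y'
      (fun j hj => ?_) (h.E l y _ (fun _ hj => (if_neg hj).symm) d),
    disjoint_union_right.2 ⟨hF.zer_base.mono_left sdiff_subset, disjoint_sdiff_left⟩, hF.lcB, hF.invB⟩
  by_cases f : j ∈ T
  exacts [if_pos f, (if_neg f).trans (e j fun g => g.elim hj f)]

theorem regAt {K₁ : Set K} {z} (hz : z ∈ (F.add T a b χ ψ).cone)
    (hR : F.RegAt K₁ (z.1, zc T z.2)) : (F.add T a b χ ψ).RegAt (.inl '' K₁ ∪ range .inr) z := by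
  refine ⟨fun v => ?_, (((continuous_fst.prodMk
    ((zc T).continuous_of_finiteDimensional.comp continuous_snd)).tendsto z).eventually
      hR.cut).mono fun y c d e => ?_⟩
  · obtain ⟨η, c, d⟩ := hR.ind fun k => v (.inl k)
    obtain ⟨η', e, f⟩ := h.solve hz η fun j => v (.inr j)
    refine ⟨η', fun j hj => (e j fun g => hj (.inr g)).trans (c j fun g => hj (.inl g)), ?_⟩
    rintro _ (⟨k, hk, rfl⟩ | ⟨j, rfl⟩)
    exacts [(der_congr (h.free k) z.1 (fun _ hi => (zc_not _ hi).symm) e).trans (d k hk), f j]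
  · exact Sum.rec (fun k => (h.eqn_inl y k).trans (c (h.bs_zc.1 d)
      (fun k hk => (h.eqn_inl y k).symm.trans (e _ (.inl ⟨k, hk, rfl⟩))) k))
        fun j => e _ (.inr ⟨j, rfl⟩)

theorem vert_inj {z} (hz : z ∈ (F.add T a b χ ψ).cone) {η : J → ℂ}
    (hη : η ∈ (F.add T a b χ ψ).vert z) (h0 : ∀ j ∉ T, η j = 0) : η = 0 := funext fun j => by
  classical
  by_cases hj : j ∈ T
  swap
  · exact h0 j hj
  let d := fun (f : MvPolynomial J (MvPolynomial Λ ℂ)) (η : J → ℂ) =>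
    ∑ i, eval z.2 (pderiv i (MvPolynomial.map (eval z.1) f)) * η i
  have e : ∑ i, (F.add T a b χ ψ).jac z (.inr ⟨j, hj⟩) i * η i =
      evz z (a j) * η j + z.2 j * d (a j) η - d (b j) η := by
    simp [d, Fam.jac, fib, evz, Pi.single_apply, add_mul, sub_mul, Finset.sum_add_distrib,
      Finset.mul_sum, mul_assoc, apply_ite]
  rw [(RP.mem_vert.1 hη).2, show d (a j) η = d (a j) 0 from
      der_congr (h.fa j hj) z.1 (fun _ _ => rfl) h0, show d (b j) η = d (b j) 0 from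
      der_congr (h.fh j hj) z.1 (fun _ _ => rfl) h0] at e
  simpa [d, h.ne' hz hj] using e

theorem reg (hF : F.Inv) (hR : F.Reg K₀) : (F.add T a b χ ψ).Reg K₀ :=
  let _ := Fintype.ofFinite T
  h.det.reg hF (h.inv hF) hR fun _ hz =>
    let ⟨_, r⟩ := hR.loc _ (h.mem_cone.1 hz).1
    ⟨_, h.regAt hz r⟩

variable {ch : Ch ι J} {e : K → ι → ℕ} {ℓ : R → ι → ℤ}

theorem std (hs : ch.Std F e K₀ ℓ) : ch.Std (F.add T a b χ ψ)
    (ch.eA e fun j : T => a j * X j.1 - b j) K₀ ℓ := by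
  refine ⟨h.inv hs.inv, h.reg hs.inv hs.reg, ⟨hs.fits.wt, Sum.rec hs.fits.le fun j α hα i => ?_,
    Sum.rec hs.fits.ne fun j => ?_⟩, hs.cuts, hs.wt⟩
  · refine Nat.le_succ_of_le ((Finset.sum_le_sum fun k _ => Nat.mul_le_mul_left _
      (Finset.single_le_sum (f := fun j => ch.b j i) (fun _ _ => Nat.zero_le _)
        (Finset.mem_univ k))).trans ?_)
    rw [← Finset.sum_mul, ← Finsupp.sum_fintype α (fun _ n => n) fun _ => rfl]
    exact Nat.mul_le_mul_right _ (le_totalDegree hα)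
  · exact ne_iff.2 ((ne_iff.1 (hs.cuts.ne none)).imp fun _ _ => Nat.succ_ne_zero _)

open Classical in
theorem rk (hF : F.Inv)
    (hd : ∀ j ∈ T, ∑ i, (∑ r, χ j r * ℓ r i) * ch.m i = ∑ i, ch.wd j i * ch.m i) :
    ch.rk (F.add T a b χ ψ) ℓ K₀ = ch.rk F ℓ K₀ +
      ∑ j with j ∈ T, Module.finrank ℂ (ch.Th j) * ch.eu fun i => ch.a (some j) i := by
  have _ := hd
  simp only [Ch.rk, Finset.sum_filter, mem_union]
  rw [sub_add_eq_add_sub, ← Finset.sum_add_distrib]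
  refine congrArg₂ (· - ·) (Finset.sum_congr rfl fun j _ => ?_) rfl
  by_cases d : j ∈ T
  · simp [d, disjoint_left.1 hF.zer_base (h.sub d)]
  · simp [d]

end Add

variable {E U : Set ((Λ → ℂ) × (J → ℂ))}

theorem Inv.reE (h : F.Inv) (hE : IsClosed E) (iE : ∀ t, IsUnit t → ∀ z ∈ E, F.actT t z ∈ E)
    (bE : ∀ l y y', (∀ j ∉ F.mov, y j = y' j) → (l, y) ∈ E → (l, y') ∈ E) (hU : IsOpen U)
    (iU : ∀ t, IsUnit t → ∀ z ∈ U, F.actT t z ∈ U) : (F.reE E U).Inv :=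
  ⟨h.hom, h.homS, hU, iU, hE, iE, bE, h.zer_base, h.lcB, h.invB⟩

theorem Reg.reE (h : F.Reg K₀) (hc : (F.reE E U).cone = F.cone)
    (hb : ∀ z ∈ F.cone, ∀ᶠ y in 𝓝 z, y ∈ (F.reE E U).bs → y ∈ F.bs) : (F.reE E U).Reg K₀ :=
  h.of_eq rfl id (fun z hz => (h.loc z (hc.le hz)).imp fun _ r =>
    ⟨r.ind, by filter_upwards [hb z (hc.le hz), r.cut] with y a b c using b (a c)⟩) (fun _ hz => hc.le hz)
    fun _ _ => rfl

theorem solF_reE {ch : Ch ι J} (hc : (F.reE E U).cone = F.cone) :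
    ch.solF ν κ (F.reE E U) = ch.solF ν κ F :=
  Set.ext fun _ => by simp only [Ch.mem_solF, hc]

/-- on the main stratum the values of the base fields that are not in `zer` do not vanish -/
theorem main_reE {ch : Ch ι J} (h : ∀ l ∈ F.B, ∀ y : J → ℂ, (∀ j ∈ F.zer, y j = 0) →
    (∀ j ∉ F.mov, j ∉ F.zer → y j ≠ 0) → ((l, y) ∈ E ↔ (l, y) ∈ F.E)) :
    ch.main κ (F.reE E U) (0 : ν → J → ℕ) = ch.main κ F 0 :=
  Set.ext fun x => and_congr_left fun a => and_congr_right fun b => and_congr_right fun c =>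
    and_congr_left fun d => forall₂_congr fun y hy =>
      h _ b.1 _ (fun j hj => Ch.fld_of_zero hy (d.1 j hj)) fun j h1 h2 => by
        obtain ⟨γ, hγ⟩ := b.2.1.2.2.1.nod.exists_loc hy
        obtain rfl := hγ.zero true
        exact (Ch.an_fld b.2.1 (c j h1) (hγ.br true)).analyticOrderAt_eq_zero.1
          ((a j h1 h2 _ (hγ.br true)).trans (by simp))

end Fam

end Vale.Agent.P269
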