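import Vale.Agent.P287Q.G.Map.Fib
import Vale.Agent.P287Q.G.Map.Hol
import Vale.Agent.P269.Base.Glue

/-!
# Rigidity of the kernel
-/

set_option linter.unusedSectionVars false

namespace Vale.Agent.P269.Ch.Res.Lnk

open Set Function Topology Filter Base Cv

variable {ι ι' J J' ν : Type} [Fintype ι] [Fintype ι'] [Fintype J] [Fintype J'] [DecidableEq ι]
  [DecidableEq ι'] [Fintype ν] {ch' : Ch ι' J'} {D : ch'.Res ι J} {L : D.Lnk} {x : ch'.W ν}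

namespace Rig

variable {α : Type*} {l : Filter α}

theorem tendsto_one {E F : Type*} [NormedAddCommGroup E] [NormedSpace ℂ E] [NormedAddCommGroup F]
    [NormedSpace ℂ F] [FiniteDimensional ℂ F] {a : α → F →L[ℂ] F} {Q : α → E →L[ℂ] F}
    {Q₀ : E →L[ℂ] F} (h0 : Surjective Q₀) (h1 : Tendsto Q l (𝓝 Q₀))
    (h2 : Tendsto (fun n => a n ∘L Q n) l (𝓝 Q₀)) : Tendsto a l (𝓝 1) := by
  have := FiniteDimensional.complete ℂ F
  obtain ⟨R, hR⟩ := Holo.exists_rightInv h0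
  have e : Q₀ ∘L R = 1 := ContinuousLinearMap.ext hR
  have c : Continuous fun q : E →L[ℂ] F => q ∘L R := continuous_id.clm_comp continuous_const
  have h3 : Tendsto (fun n => Q n ∘L R) l (𝓝 1) := e ▸ (c.tendsto _).comp h1
  have h4 : Tendsto (fun n => a n * (Q n ∘L R)) l (𝓝 1) := e ▸ (c.tendsto _).comp h2
  have h5 := h4.mul ((NormedRing.inverse_continuousAt (1 : (F →L[ℂ] F)ˣ)).tendsto.comp h3)
  rw [Units.val_one, Ring.inverse_one, mul_one] at h5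
  exact h5.congr' ((h3.eventually (Units.isOpen.mem_nhds isUnit_one)).mono fun n hn =>
    Ring.mul_inverse_cancel_right _ _ hn)

theorem tendsto_one' {κ F : Type*} [Fintype κ] [NormedAddCommGroup F] [NormedSpace ℂ F]
    [FiniteDimensional ℂ F] {a : α → F →L[ℂ] F} {z : κ → α → F} {z₀ : κ → F}
    (h0 : Surjective fun w : κ → ℂ => ∑ k, w k • z₀ k) (h1 : ∀ k, Tendsto (z k) l (𝓝 (z₀ k)))
    (h2 : ∀ k, Tendsto (fun n => a n (z k n)) l (𝓝 (z₀ k))) : Tendsto a l (𝓝 1) := by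
  let Λ : (κ → F) → (κ → ℂ) →L[ℂ] F := fun z => ∑ k, (ContinuousLinearMap.proj k).smulRight (z k)
  have c : Continuous Λ := continuous_clm_apply.2 fun w => by
    simp only [Λ, _root_.sum_apply, ContinuousLinearMap.smulRight_apply]
    fun_prop
  refine tendsto_one (Q := fun n => Λ fun k => z k n) (Q₀ := Λ z₀) (fun v => (h0 v).imp fun w hw =>
    by simpa [Λ] using hw) ((c.tendsto _).comp (tendsto_pi_nhds.2 h1))
    (((c.tendsto _).comp (tendsto_pi_nhds.2 h2)).congr fun n => ?_)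
  ext1 w
  simp [Λ]

theorem ev_sub {X Y : Type*} [TopologicalSpace X] [TopologicalSpace Y] {S : Set X} {x : S} {y : Y}
    {p : X × Y → Prop} (h : ∀ᶠ q : S × Y in 𝓝 (x, y), p (q.1.1, q.2)) :
    ∀ᶠ q in 𝓝 (x.1, y), q.1 ∈ S → p q := by
  rw [(IsInducing.subtypeVal.prodMap IsInducing.id).nhds_eq_comap, eventually_comap] at h
  exact h.mono fun q hq h1 => hq (⟨q.1, h1⟩, q.2) rfl

theorem ratio {f g t : α → ℂ} {c : ℂ} (hc : c ≠ 0) (hf : Tendsto f l (𝓝 c))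
    (hg : Tendsto g l (𝓝 c)) (h : ∀ᶠ n in l, f n = t n * g n) : Tendsto t l (𝓝 1) := by
  have h1 := hf.div hg hc
  rw [div_self hc] at h1
  refine h1.congr' ((h.and (hg.eventually_ne hc)).mono fun n hn => ?_)
  rw [Pi.div_apply, hn.1, mul_div_cancel_right₀ _ hn.2]

theorem ratioV {m : ℕ} {f g : α → Fin m → ℂ} {t : α → ℂ} {c : Fin m → ℂ} (hc : c ≠ 0)
    (hf : Tendsto f l (𝓝 c)) (hg : Tendsto g l (𝓝 c)) (h : ∀ᶠ n in l, f n = t n • g n) :
    Tendsto t l (𝓝 1) := by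
  obtain ⟨ζ, hζ⟩ := exists_dual_one hc
  exact ratio (hζ.trans_ne one_ne_zero) ((ζ.continuous.tendsto c).comp hf)
    ((ζ.continuous.tendsto c).comp hg) (h.mono fun n hn => by simp [hn])

/-- An alternating form that does not vanish on a given pair. -/
theorem exists_alt {m : ℕ} {c v : Fin m → ℂ} (h : LinearIndependent ℂ ![c, v]) :
    ∃ B : (Fin m → ℂ) × (Fin m → ℂ) → ℂ, Continuous B ∧ B (c, v) ≠ 0 ∧
      ∀ (p q : Fin m → ℂ) (r s : ℂ), B (p, r • q + s • p) = r * B (p, q) := by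
  obtain ⟨ζ, h1, h2⟩ := exists_dual_pair h
  obtain ⟨ξ, h3⟩ := exists_dual_one (h.ne_zero 1)
  refine ⟨fun q => ζ q.1 * ξ q.2 - ζ q.2 * ξ q.1, by fun_prop, ?_, fun p q r s => ?_⟩
  · simpa [h1, h2] using h3.trans_ne one_ne_zero
  · simp only [map_add, map_smul, smul_eq_mul]
    ring

theorem exists_lin {M : ι → ℕ} {i : ι} (μ : Tens M (Pi.single i 1)) :
    ∃ ℓ : (Fin (M i) → ℂ) →L[ℂ] ℂ, ∀ c, val μ c = ℓ (c i) := by
  let s₀ : Σ j, Fin ((Pi.single i 1 : ι → ℕ) j) := ⟨i, ⟨0, by simp⟩⟩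
  refine ⟨μ.toContinuousLinearMap 0 s₀, fun c => congrArg μ (funext fun s => ?_)⟩
  obtain rfl : s = s₀ := by
    obtain ⟨j, k, hk⟩ := s
    obtain rfl : j = i := by_contra fun e => by simp [e] at hk
    obtain rfl : k = 0 := by simpa using hk
    rfl
  exact (update_self (β := fun s : Σ j, Fin ((Pi.single i 1 : ι → ℕ) j) => Fin (M s.1) → ℂ)
    s₀ (c i) _).symm

/-- The ordinary points span the factors. -/
theorem exists_span (hM : ch'.Tight) (hx : x ∈ ch'.base ν) (i : ι') :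
    ∃ z : Fin (ch'.M i) → V ch'.M, (∀ k, z k ∈ crv x ∧ ¬Spc x (z k)) ∧
      Surjective fun w : Fin (ch'.M i) → ℂ => ∑ k, w k • z k i := by
  obtain ⟨z, h1, h2, -⟩ := hx.2.2.1.exists_ev' (single_ne i)
    (show (ch'.M i : ℤ) = _ by rw [dg_single, hM.eq hx]) fun c => frequently_not_spc hx
  refine ⟨z, h1, (LinearMap.injective_iff_surjective
    (f := Fintype.linearCombination ℂ fun k => z k i)).1
      (linearIndependent_iff_injective_fintypeLinearCombination.1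
        (Fintype.linearIndependent_iff.2 fun w hw k => ?_))⟩
  obtain ⟨μ, hμ⟩ := h2 (Pi.single k 1)
  obtain ⟨ℓ, hℓ⟩ := exists_lin μ
  have h3 : ∀ j, ℓ (z j i) = (Pi.single k 1 : Fin _ → ℂ) j := fun j =>
    (hℓ _).symm.trans (congrFun hμ j)
  simpa [h3, Pi.single_apply] using congrArg ℓ hw

theorem leadAt_act {s : ch'.A ν} (hs : IsUnit s) {c v : V ch'.M} {ρ : ℂ} (h : LeadAt x c v ρ) :
    LeadAt (act s x) (fun i => s.1 i (c i)) (fun i => s.1 i (v i)) ρ := fun _ hu μ =>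
  (h _ ((Cv.gr_act hs).1 hu) (sub s _ μ)).trans (by rw [wedge_sub])

/-- Comparison of the values of the trivialisation along two branches. -/
theorem lead_rel {s : ch'.A ν} (hs : IsUnit s) (hx : act s x ∈ ch'.base ν) {γ β : ℂ → V ch'.M}
    (hγ : IsBranch ch'.o (crv x) γ) (hβ : IsBranch ch'.o (crv (act s x)) β)
    (hn : ¬IsNode ch'.o (crv (act s x)) (β 0)) {t : ι' → ℂ} (ht : ∀ i, t i ≠ 0)
    (e : (fun i => s.1 i (γ 0 i)) = t • β 0) {ρ ρ' : ℂ} (h1 : LeadAt x (γ 0) (deriv γ 0) ρ)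
    (h2 : LeadAt (act s x) (β 0) (deriv β 0) ρ') : ∃ (ψ : ℂ) (r : ι' → ℂ),
      (∀ i, s.1 i (deriv γ 0 i) = ψ • t i • deriv β 0 i + r i • s.1 i (γ 0 i)) ∧
      ρ * ψ ^ ch'.k = (∏ i, t i ^ ch'.χ i) * ρ' := by
  have h3 := leadAt_act hs h1
  have hC := hx.2.2.1.nod
  obtain ⟨u, rfl⟩ := hs
  obtain ⟨-, r, ψ, -, -, -, -, -, -, h4⟩ := (hC.loc_of_branch (hβ.smul hC ht) fun h => hn
    (hC.isNode_orb h (Orb.symm ⟨t, ht, rfl⟩))).reparam (crv_actU u x ▸ hγ.map (g := gU u)) e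
  rw [deriv_gV, (hasDerivAt_smul' (hasDerivAt_const _ t)
    hβ.holo.differentiableAt.hasDerivAt).deriv, zero_smul, add_zero] at h4
  refine ⟨deriv ψ 0, deriv r 0, fun i => (congrFun h4 i).trans (by rw [congrFun e i]; rfl), ?_⟩
  obtain ⟨w, hw⟩ := mem_crv.1 hβ.mem.self_of_nhds
  obtain ⟨μ, hμ⟩ := exists_wedge_ne hw.1 hβ.imm
  have h5 := h3 _ (e ▸ gr_smul hw ht) μ
  rw [e, wedge_smul μ t (β 0) (deriv β 0) (fun i => (u : ch'.A ν).1 i (deriv γ 0 i))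
    (a := deriv r 0 ch'.o * t ch'.o)
    (b := deriv ψ 0 * t ch'.o) ((congrFun h4 _).trans (by
      simp [Pi.smul_apply', smul_smul, add_comm])), _root_.smul_apply, h2 w hw, chr_χ t ht,
    smul_eq_mul] at h5
  refine mul_left_cancel₀ (mul_ne_zero hμ (mul_ne_zero (chr_ne_zero (a := ch'.bω) ht)
    (pow_ne_zero ch'.k (mul_ne_zero (ht ch'.o) (ht ch'.o))))) ?_
  simp only [mul_pow] at h5 ⊢
  linear_combination -h5

/-- The holomorphic data near an ordinary point. -/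
theorem exists_data (hc : D.ch.Cuts) (hc' : ch'.Cuts) (h : L.Dom x) {c : V ch'.M}
    (h1 : c ∈ crv x) (h2 : ¬Spc x c) :
    ∃ (τ τ' : ch'.W ν × ℂ → V ch'.M) (R : ch'.W ν × ℂ → ℂ) (F : J' → ch'.W ν × ℂ → ℂ),
      τ (x, 0) = c ∧ ContinuousAt τ (x, 0) ∧ ContinuousAt τ' (x, 0) ∧ ContinuousAt R (x, 0) ∧
      R (x, 0) ≠ 0 ∧ (∀ j ∈ L.I, ContinuousAt (F j) (x, 0) ∧ F j (x, 0) ≠ 0) ∧
      LinearIndependent ℂ ![c (D.σ D.o), τ' (x, 0) (D.σ D.o)] ∧
      (∀ᶠ q in 𝓝 (x, 0), L.Dom q.1 →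
        (∃ γ, IsBranch ch'.o (crv q.1) γ ∧ γ 0 = τ q ∧ deriv γ 0 = τ' q) ∧
        ¬IsNode ch'.o (crv q.1) (τ q) ∧ LeadAt q.1 (τ q) (τ' q) (R q) ∧
        ∀ j ∈ L.I, fld q.1 (τ q) j = F j q) ∧
      ∀ U ∈ 𝓝 (0 : ℂ), ∀ᶠ q : ch'.W ν × V D.ch.M in 𝓝 (x, rV D.σ c), q.1 ∈ ch'.base ν →
        ∀ c' ∈ crv q.1, rV D.σ c' = q.2 → ∃ s : ι' → ℂ, ∃ w ∈ U, c' = s • τ (q.1, w) := by
  obtain ⟨l, hl⟩ := hc'.cut
  have hf := locFam_base hl ⟨x, h.mem⟩
  obtain ⟨τ, rfl, h3⟩ := hf.smAt h1 fun e => h2 (.inl e)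
  have a1 : AnalyticAt ℂ τ (x, 0) := h3.an
  have a2 : AnalyticAt ℂ (fun q => fderiv ℂ τ q (0, 1)) (x, 0) :=
    Holo.an_apply a1.fderiv analyticAt_const
  have h4 : ∀ᶠ q in 𝓝 (x, 0), q.1 ∈ ch'.base ν →
      ∃ γ, IsBranch ch'.o (crv q.1) γ ∧ γ 0 = τ q ∧ deriv γ 0 = fderiv ℂ τ q (0, 1) := by
    filter_upwards [ev_sub (p := fun q => IsBranch ch'.o (crv q.1) fun z => τ (q.1, q.2 + z))
      (h3.isBranch hf), a1.eventually_analyticAt] with q k1 k2 k3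
    refine ⟨_, k1 k3, by simp, ?_⟩
    rw [deriv_comp_const_add (fun z => τ (q.1, z)), add_zero, ← fderiv_apply_one_eq_deriv,
      Holo.fderiv_inr k2]
  obtain ⟨γ, g1, g2, g3⟩ := h4.self_of_nhds h.mem
  have hne := crv_ne h1
  obtain ⟨Φ, h5, h6⟩ := exists_leadU h.mem.1 hne (g2 ▸ g3 ▸ g1.imm)
  choose Ψ h7 h8 using exists_fldU h.mem.1 hne
  have t1 : ContinuousAt (fun q => (q.1, τ q)) (x, (0 : ℂ)) :=
    continuousAt_fst.prodMk a1.continuousAt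
  have t2 : ContinuousAt (fun q => (q.1, τ q, fderiv ℂ τ q (0, 1))) (x, (0 : ℂ)) :=
    continuousAt_fst.prodMk (a1.continuousAt.prodMk a2.continuousAt)
  refine ⟨τ, _, fun q => Φ (q.1, τ q, fderiv ℂ τ q (0, 1)), fun j q => Ψ j (q.1, τ q), rfl,
    a1.continuousAt, a2.continuousAt, h5.continuousAt.comp_of_eq t2 rfl, ?_,
    fun j hj => ⟨(h7 j).continuousAt.comp_of_eq t1 rfl, ?_⟩, g2 ▸ g3 ▸ (g1.of_nod h.nod).imm, ?_,
    fun U hU => ?_⟩
  · obtain ⟨ρ, k1, k2⟩ := exists_leadAt h.mem g1 (g2 ▸ h2)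
    exact (h6.self_of_nhds h1 ρ (g2 ▸ g3 ▸ k2)).symm.trans_ne k1
  · exact ((h8 j).self_of_nhds h1 (h.sec j hj _ h1)).symm.trans_ne
      (h.ne j hj _ h1 fun n s e => h2 (.inr ⟨n, s, e⟩))
  · filter_upwards [h4, t2.tendsto.eventually h6, t1.tendsto.eventually (eventually_all.2 h8),
      t1.tendsto.eventually (eventually_not_spc hc' h.mem h1 h2)] with q k1 k2 k3 k4 k5
    obtain ⟨δ, k6, k7, k8⟩ := k1 k5.mem
    have k9 : τ q ∈ crv q.1 := k7 ▸ k6.mem.self_of_nhds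
    obtain ⟨ρ, -, k10⟩ := exists_leadAt k5.mem k6 (k7 ▸ k4 k5.mem k9)
    rw [k7, k8] at k10
    exact ⟨⟨δ, k6, k7, k8⟩, fun e => k4 k5.mem k9 (.inl e), k2 k9 ρ k10 ▸ k10,
      fun j hj => k3 j k9 (k5.sec j hj _ k9)⟩
  · have hf' := hf.comp (u := Prod.fst) (t' := ((⟨x, h.mem⟩ : ch'.base ν), rV D.σ (τ (x, 0))))
      (π' := fun q => q.1.1) (k := id) continuousAt_fst (.of_forall fun _ => by fun_prop)
      analyticAt_id (.of_forall fun _ => rfl)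
    refine ev_sub (x := ⟨x, h.mem⟩) ((hf'.compact (p := fun q => Orb q.1.2 (rV D.σ q.2) →
      ∃ s : ι' → ℂ, ∃ w ∈ U, q.2 = s • τ (q.1.1.1, w)) (fun c k1 => ?_)
      (.of_forall fun t s hs c _ k1 k2 => ?_)).mono fun q k1 c k2 k3 => k1 c k2 (k3 ▸ .refl _))
    · by_cases k2 : Orb (τ (x, 0)) c
      · obtain ⟨s, hs, rfl⟩ := k2
        filter_upwards [(tendsto_pm (continuousAt_fst (p := (_, rV D.σ (τ (x, 0)))))
          _).eventually ((h3.smul hf.cone hs).sub U hU)] with q k3 k4 _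
        obtain ⟨r, w, k5, -, k6⟩ := k3 k4
        exact ⟨r * s, w, k5, by rw [mul_smul]; exact k6⟩
      · refine (ev_not_orb (a := rV D.σ (τ (x, 0))) (b := rV D.σ c) ?_ ?_ (fun i => hne _)
          (fun i => crv_ne k1 _) fun e => k2 (h.orb hc h1 k1 e)).mono fun q k3 _ k4 => absurd k4 k3
        exacts [ContinuousAt.tendsto (by fun_prop), ContinuousAt.tendsto (by fun_prop)]
    · obtain ⟨r, w, k3, k4⟩ := k1 (k2.trans ⟨_, fun i => hs (D.σ i), rV_smul s c⟩)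
      exact ⟨s⁻¹ * r, w, k3, by rw [mul_smul, ← k4, inv_smul_smul' hs]⟩

/-- The units move ordinary points to nearby points. -/
theorem key (hc : D.ch.Cuts) (hc' : ch'.Cuts) (h : L.Dom x) {c : V ch'.M} (h1 : c ∈ crv x)
    (h2 : ¬Spc x c) {y : α → ch'.W ν} {a : α → ch'.A ν} (hy : ∀ n, L.Dom (y n))
    (ha : ∀ n, IsUnit (a n)) (e : ∀ n i, (a n).1 (D.σ i) = 1) (h3 : Tendsto y l (𝓝 x))
    (h4 : Tendsto (fun n => act (a n) (y n)) l (𝓝 x)) : ∃ z : α → V ch'.M,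
      Tendsto z l (𝓝 c) ∧ Tendsto (fun n i => (a n).1 i (z n i)) l (𝓝 c) := by
  obtain ⟨τ, τ', R, F, rfl, c1, c2, c3, r0, c4, li, d1, d2⟩ := exists_data hc hc' h h1 h2
  obtain ⟨B, b1, b2, b3⟩ := exists_alt li
  have hne := crv_ne h1
  have t1 : Tendsto (fun n => (y n, (0 : ℂ))) l (𝓝 (x, 0)) := h3.prodMk_nhds tendsto_const_nhds
  refine ⟨fun n => τ (y n, 0), c1.tendsto.comp t1, ?_⟩
  let S : Set (α × ℂ) :=
    {q | ∃ s : ι' → ℂ, (fun i => (a q.1).1 i (τ (y q.1, 0) i)) = s • τ (act (a q.1) (y q.1), q.2)}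
  choose! t ht using fun q (hq : q ∈ S) => hq
  let G : Filter (α × ℂ) := l ×ˢ 𝓝 (0 : ℂ) ⊓ 𝓟 S
  have hl : l ≤ Filter.map Prod.fst G := fun A hA => by
    obtain ⟨p, k1, U, k2, k3⟩ := eventually_prod_iff.1 (mem_inf_principal.1 hA)
    filter_upwards [k1, t1.eventually d1, (h4.prodMk_nhds (((rV D.σ).continuous.tendsto _).comp
      (c1.tendsto.comp t1))).eventually (d2 _ k2)] with n k4 k5 k6
    obtain ⟨γ, k7, k8, -⟩ := (k5 (hy n)).1
    obtain ⟨s, w, k9, k10⟩ := k6 ((hy n).act (ha n)).mem _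
      ((mem_crv_act (ha n)).2 ⟨_, k8 ▸ k7.mem.self_of_nhds, rfl⟩) (funext fun i => by simp [e])
    exact k3 k4 k9 ⟨s, k10⟩
  refine Tendsto.mono_left (tendsto_map'_iff.2 ?_) hl
  have g0 := Eventually.mono (f := G) (mem_inf_of_right (mem_principal_self S)) ht
  have g1 : Tendsto (fun q : α × ℂ => (y q.1, (0 : ℂ))) G (𝓝 (x, 0)) :=
    t1.comp (tendsto_fst.mono_left inf_le_left)
  have g2 : Tendsto (fun q : α × ℂ => (act (a q.1) (y q.1), q.2)) G (𝓝 (x, 0)) :=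
    (h4.comp (tendsto_fst.mono_left inf_le_left)).prodMk_nhds (tendsto_snd.mono_left inf_le_left)
  have g3 := (g1.eventually d1).mono fun q hq => hq (hy q.1)
  have g4 := (g2.eventually d1).mono fun q hq => hq ((hy q.1).act (ha q.1))
  have g5 : ∀ᶠ q in G, ∀ i, t q i ≠ 0 := by
    filter_upwards [g0, g3] with q k1 ⟨⟨γ, k2, k3, _⟩, _⟩
    exact ne_of_smul_ne (crv_ne ((mem_crv_act (ha q.1)).2 ⟨_, k3 ▸ k2.mem.self_of_nhds, k1⟩))
  have p1 := tendsto_pi_nhds.1 (c1.tendsto.comp g1)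
  have p2 := tendsto_pi_nhds.1 (c1.tendsto.comp g2)
  have s1 : ∀ i, Tendsto (fun q => t q (D.σ i)) G (𝓝 1) := fun i =>
    ratioV (hne _) (p1 _) (p2 _) (g0.mono fun q k1 => by simpa [e] using congrFun k1 (D.σ i))
  have s2 : ∀ j ∈ L.I, Tendsto (fun q => ∏ k, t q k ^ ch'.wd j k) G (𝓝 1) := fun j hj => by
    refine ratio (c4 j hj).2 ((c4 j hj).1.tendsto.comp g1) ((c4 j hj).1.tendsto.comp g2) ?_
    filter_upwards [g0, g3, g4, g5] with q k1 k2 ⟨⟨γ, k3, k4, _⟩, _, _, k5⟩ k6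
    have k7 : τ _ ∈ _ := k4 ▸ k3.mem.self_of_nhds
    rw [comp_apply, comp_apply, ← k2.2.2.2 j hj, ← k5 j hj, ← fld_act (ha q.1), k1]
    exact fld_eq (crv_smul k7 k6) ((val_fld (((hy q.1).act (ha q.1)).sec j hj _ k7)).smul k6)
  have s3 : Tendsto (fun q => ∏ k, t q k ^ ch'.χ k) G (𝓝 1) := by
    have k1 := (b1.tendsto _).comp ((p1 (D.σ D.o)).prodMk_nhds
      (tendsto_pi_nhds.1 (c2.tendsto.comp g1) (D.σ D.o)))
    have k2 := (b1.tendsto _).comp ((p1 (D.σ D.o)).prodMk_nhds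
      ((s1 D.o).smul (tendsto_pi_nhds.1 (c2.tendsto.comp g2) (D.σ D.o))))
    rw [one_smul] at k2
    have k3 := (c3.tendsto.comp g1).mul ((k1.div k2 b2).pow ch'.k)
    rw [div_self b2, one_pow, mul_one] at k3
    refine ratio r0 k3 (c3.tendsto.comp g2) ?_
    filter_upwards [g0, g3, g4, g5, k2.eventually_ne b2] with q k4 ⟨⟨γ, k5, k6, k7⟩, _, k8, _⟩
      ⟨⟨β, k9, k10, k11⟩, k12, k13, _⟩ k14 k15
    obtain ⟨ψ, r, k16, k17⟩ := lead_rel (ha q.1) ((hy q.1).act (ha q.1)).mem k5 k9 (k10 ▸ k12) k14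
      (k6 ▸ k10 ▸ k4) (k6 ▸ k7 ▸ k8) (k10 ▸ k11 ▸ k13)
    have k18 := k16 (D.σ D.o)
    rw [e, k6, k7, k11, one_apply_eq_self, one_apply_eq_self] at k18
    simp only [comp_apply, Pi.div_apply] at k15 ⊢
    rw [k18, b3, mul_div_cancel_right₀ _ k15, k17]
  obtain ⟨u, v, w, m1, -, m2⟩ := L.exists_mon
  have s4 : Tendsto t G (𝓝 1) := tendsto_pi_nhds.2 fun i => by
    have k1 := ((tendsto_finsetProd Finset.univ fun k _ => (s1 k).zpow₀ (u i k)
      (.inl one_ne_zero)).mul (tendsto_finsetProd (a := fun _ => 1) Finset.univ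
        (f := fun j q => (∏ k, t q k ^ ch'.wd j k) ^ v i j) fun j _ => ?_)).mul
        (s3.zpow₀ (w i) (.inl one_ne_zero))
    · simp only [one_zpow, Finset.prod_const_one, mul_one] at k1
      exact k1.congr' (g5.mono fun q hq => (m2 _ hq i).symm)
    · by_cases hj : j ∈ L.I
      · simpa using (s2 j hj).zpow₀ (v i j) (.inl one_ne_zero)
      · simpa [m1 i j hj] using tendsto_const_nhds
  have := tendsto_smul s4 (c1.tendsto.comp g2)
  rw [one_smul] at this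
  exact this.congr' (g0.mono fun q hq => hq.symm)

end Rig

open Rig

/-- **units in the kernel that move points near `x` to points near `x` tend to one** -/
theorem Dom.rig (hc : D.ch.Cuts) (hc' : ch'.Cuts) (hM : ch'.Tight) (h : L.Dom x)
    {y : ℕ → ch'.W ν} {a : ℕ → ch'.A ν} (hy : ∀ n, L.Dom (y n)) (ha : ∀ n, IsUnit (a n))
    (h1 : ∀ n, D.θ (a n) = 1) (h2 : Tendsto y atTop (𝓝 x))
    (h3 : Tendsto (fun n => Ch.act (a n) (y n)) atTop (𝓝 x)) : Tendsto a atTop (𝓝 1) := by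
  have h4 : ∀ i, Tendsto (fun n => (a n).1 i) atTop (𝓝 1) := fun i => by
    obtain ⟨c, k1, k2⟩ := exists_span hM h.mem i
    choose z k3 k4 using fun k => key hc hc' h (k1 k).1 (k1 k).2 hy ha
      (fun n i => congrArg (fun s : D.ch.A ν => s.1 i) (h1 n)) h2 h3
    exact tendsto_one' k2 (fun k => tendsto_pi_nhds.1 (k3 k) i) fun k => tendsto_pi_nhds.1 (k4 k) i
  have h5 : Tendsto (fun n => ((a n).1, (1 : _ × _))) atTop (𝓝 (1 : ch'.A ν)) :=
    (tendsto_pi_nhds.2 h4).prodMk_nhds tendsto_const_nhds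
  have hp := fun (n : ν) i => ((W.pL (ch := ch') n).continuous.tendsto x).apply_nhds i
  refine (tendsto_pi_nhds.2 h4).prodMk_nhds ((tendsto_pi_nhds.2 fun l => ?_).prodMk_nhds
    (tendsto_pi_nhds.2 fun n => tendsto_pi_nhds.2 fun i => ?_))
  · have hQ := (W.QL (ch := ch') (ν := ν) l).continuous.tendsto x
    exact tendsto_one (h.mem.1 l) ((Holo.an_comp (W.an_Q analyticAt_fst l) (an_sub analyticAt_snd
      Sigma.fst)).continuousAt.tendsto.comp (h2.prodMk_nhds h5)) (hQ.comp h3)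
  · exact ratioV (crv_ne (h.mem.2.2.2.1 n).1 i) ((hp n i).comp h3)
      ((isBoundedBilinearMap_apply.continuous.tendsto _).comp
        ((h4 i).prodMk_nhds ((hp n i).comp h2))) (.of_forall fun _ => rfl)

end Vale.Agent.P269.Ch.Res.Lnk
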