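import Vale.Agent.P287Q.G.Map.TrvA
import Vale.Agent.P269.Map.TrvD

set_option linter.unusedSectionVars false

/-!
# Nowhere vanishing movable fields: transversality
-/

namespace Vale.Agent.P269

open P291Z Set Function Topology Filter Base Holo

variable {S Λ R J K ι ν κ I : Type} [Fintype S] [Fintype Λ] [Fintype R] [Fintype J] [Fintype K]
  [Fintype ι] [DecidableEq ι] [Fintype ν] [Fintype κ] [Fintype I] [DecidableEq I]

namespace Ch.GrT

variable {ch : Ch ι J} {F : Fam S Λ R J K} {T : Set J} {φ : I → J} {n : J → I → ℤ}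
  {ψ : J → (Λ → ℂ) → ℂ} {x : ch.WF ν κ Λ} {b : ℕ} (h : ch.GrT ν F T φ n ψ) (hN : Num₀ ch)
  (hB : F.Sm b)
include h hN hB

/-- **the Koszul section is transverse** -/
theorem trv_kdK (hx : x ∈ ch.secT ν κ F T) :
    (ch.kdK ν κ F T).Trv (ch.secT ν κ F T) (ch.main κ F 0) x := by
  classical
  rintro v ⟨hm, hv⟩ H
  obtain ⟨c, hc, rfl⟩ := (hN.mfd_main hB h.unbas hm).2.exists_arc hv
  obtain ⟨l, hl⟩ := hN.cut
  obtain ⟨h0, h3⟩ := h.mem_secT.1 hx
  obtain ⟨N, -, k⟩ := hN.mfdAt h0.1.base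
  obtain ⟨d, -, h2⟩ := mfd_main₀ hl hN.a_ne h.gr.ext h0 ⟨h0.1.par, hB ⟨_, h0.1.par⟩⟩ k
  have e := hc.mem.mono fun _ a => (mem_main_iff₀ h.unbas).1 a
  have c2 : Arc (ch.base _) x.2 fun ε => (c ε).2 :=
    hc.map (.of_an analyticAt_snd) (.of_forall fun _ a => a.1.1.2.1)
  have c3 : deriv (fun ε => (c ε).2) 0 = (deriv c 0).2 := deriv_clm (.snd ℂ _ _) hc.an
  have hf : ∀ i, φ i ∉ T → φ i ∉ F.mov := fun i => (notMem_bas.1 (h.gr.free i).1).resolve_right
  obtain ⟨c', h4, h5⟩ := arc_kos hl hN.a_ne Sum.elim_zero_zero h.gr.ext h0 k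
    (hc.mono (.of_forall fun _ a => ⟨a.1.1.1, a.1.1.2.1⟩)) (fun i => by
      rw [← c3]
      by_cases hj : φ i ∈ T
      · intro Y U hY μ μ'
        obtain ⟨u, -, a2, a3⟩ := tst_kdK (F := F) (T := T) (O := ch.main κ F 0) h0.1.base.1
          (hY.an.comp analyticAt_snd) ((continuousAt_snd.eventually hY.mem).mono
            fun _ a b => ⟨_, a b.1.1.2.1, rfl⟩)
        refine (deriv_comp_an' (hY.an_kz _ μ μ') c2.an c2.zero).symm.trans
          ((EventuallyEq.deriv_eq ?_).trans ((deriv_comp_an' (a3 (φ i) μ μ').an hc.an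
            hc.zero).trans (H _ _ (a3 (φ i) μ μ'))))
        filter_upwards [c2.ev hY.mem, hc.an.continuousAt.eventually (hc.zero.symm ▸ a2)]
          with ε b1 b2
        simp only [kz, comp_apply, ← b2 _ b1, zr_X_not (T := Tᶜ) (c ε) (not_not.2 hj)]
      · exact kz_of_val c2 (e.mono fun _ a => a.1.1.val _ (hf i hj)))
    (fun j hj => e.mono fun _ a => a.1.1.zer j hj) fun j h1 h2 h3 => e.mono fun ε a z hz => by
      have b1 := (notMem_bas.1 h1).resolve_right fun a => h3 (h.free a)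
      refine ⟨fun i b => a.1.1.val _ (hf i fun k => b (h.ind j b1 h2 i k)) z hz, ?_⟩
      rw [← Fintype.prod_subtype_mul_prod_subtype (φ · ∈ T), Finset.prod_eq_one fun i _ => by
        rw [h.ind j b1 h2 i.1 i.2, zpow_zero], one_mul,
        ← (a.1.1.mem_E h.unbas.ext hz).1 (a.1.2 z hz) j b1 h2]
      exact val_fld (a.1.1.val j b1 z hz)
  let O := ch.main₀ F (Sum.elim (0 : ν → J → ℕ) 0 : Mk ν κ → J → ℕ)
  have o1 : Arc O x c := hc.mono (.of_forall fun _ a => ((mem_main_iff₀ h.unbas).1 a).1)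
  have o2 : Arc O x c' := h4.mono (.of_forall fun _ a => ⟨⟨a.1.par, a.1.base,
    fun j k => a.1.val j (notMem_bas.2 (.inl k)), a.1.zer,
    fun j k => a.1.triv j (notMem_bas.2 (.inl k))⟩, a.2⟩)
  have o0 : x ∈ O := o1.zero ▸ o1.mem.self_of_nhds
  have z : ∀ {f : ch.WF ν κ Λ → ℂ}, HolOn O f x → (∀ᶠ ε in 𝓝 0, f (c ε) = 0) →
      deriv (fun ε => f (c' ε)) 0 = 0 := fun a b =>
    (a.deriv_eq o2 o1 h5).trans ((EventuallyEq.deriv_eq b).trans (deriv_const _ _))
  have r := fun m => holOn_rsd' hl o0 (.of_forall fun _ a => a.1.base) m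
  obtain ⟨c'', h6, h7⟩ := arc_match (Z := ch.secT ν κ F T) (n₀ := fun q => .inr (q, false))
    (n₁ := fun q => .inr (q, true)) (φ := fun i : {i // φ i ∉ T} => φ i) hl h2
    (.of_forall fun _ a => ⟨a.1.base, fun i => a.1.val _ (h.gr.free i).1⟩)
    (fun τ a b => ⟨fun _ => x.1, analyticAt_const.prod (an_tor a _),
      Prod.ext rfl (arc_tor h0.1.base a b).zero, (ev_tor a b).mono fun _ c => main₀_tor h0 c⟩)
    h.unbas.li (fun _ _ e => by simpa using e) (by simp)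
    (fun q i => h.ne_free h0 i _ (h0.1.base.2.2.2.1 _).1)
    (pow_ne_zero ch.k (neg_ne_zero.2 one_ne_zero))
    (.of_forall fun _ a b => h.mem_secT.2 ⟨a, b⟩) h3 h4
    fun q => ⟨z (((r _).prod (r _)).comp_an (G := fun z : ℂ × ℂ => z.1 - (-1) ^ ch.k * z.2) o0
      (analyticAt_fst.sub (analyticAt_const.mul analyticAt_snd)))
        (e.mono fun _ a => sub_eq_zero.2 (a.2 q).1), fun i => z (holOn_match o0
          (fun _ a => a.1.base) (fun _ a => a.1.val _ (hf i i.2)) _ _)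
            (e.mono fun _ a => sub_eq_zero.2 ((a.2 q).2 i))⟩
  exact ⟨hx, (h7.trans h5) ▸ h6.mem_tan hx⟩

end Ch.GrT

end Vale.Agent.P269
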