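import Vale.Agent.P287Q.G.Map.Well
import Vale.Agent.P287Q.G.LG.All

/-!
# The absolute integrals can be computed at every large level
-/

namespace Vale.Agent.P269

theorem St.wellD : St.WellD := fun {_ _ _ _ _ ν _} _ _ _ _ _ _ _ _ _ _ _ _ _ _ _ h _ hc hk hD hf =>
  h.inv_eq (u := (0 : ν → ℕ)) hc hk hD (fun _ _ _ => id)
    (by rw [Fam.sel_true hD]; exact isClopen_univ) hf (fun q => isEmptyElim q) hD

end Vale.Agent.P269
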